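import Crest.Agent.X261.Psh.Loc

/-!
# Row 261, package PSH (helper78), file `Int`

* `Dn D u` : `{u > -∞}` is dense in `D`; local integrability without connectedness;
* `eint ν F` : integral of an `EReal` valued function; `isPsh_eint` : integrals of families of
  psh functions are psh.
-/

set_option autoImplicit false
set_option linter.dupNamespace false
set_option linter.unusedSectionVars false

open Set Filter Topology Metric MeasureTheory
open scoped ENNReal

noncomputable section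

namespace Crest.Agent.X261.Psh

open Crest.Agent.R275.FL884 (DiscIn cir norm_cir continuous_cir)

/-! ### density of `{u > -∞}` -/

/-- `{u > -∞}` is dense in `D` -/
def Dn {X : Type*} [TopologicalSpace X] (D : Set X) (u : X → EReal) : Prop :=
  ∀ x ∈ D, ∃ᶠ y in 𝓝 x, u y ≠ ⊥

section dn

variable {X : Type*} [TopologicalSpace X] {D D' : Set X} {u u' : X → EReal}

theorem Dn.mono (h : Dn D u) (hD : D' ⊆ D) : Dn D' u := fun x hx => h x (hD hx)

theorem Dn.of_le (h : Dn D u) (hD : IsOpen D) (hle : ∀ x ∈ D, u x ≤ u' x) : Dn D u' :=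
  fun x hx => ((h x hx).and_eventually (hD.mem_nhds hx)).mono fun y hy h0 =>
    hy.1 (le_bot_iff.1 (h0 ▸ hle y hy.2))

theorem Dn.of_ne (hD : IsOpen D) (h : ∀ x ∈ D, u x ≠ ⊥) : Dn D u := fun _ hx =>
  (Eventually.mono (hD.mem_nhds hx) h).frequently

theorem dn_coe (D : Set X) (f : X → ℝ) : Dn D fun x => (f x : EReal) := fun _ _ =>
  (Eventually.of_forall fun _ => EReal.coe_ne_bot _).frequently

theorem Dn.of_ae [MeasurableSpace X] (ν : Measure X) [ν.IsOpenPosMeasure] (hD : IsOpen D)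
    (h : ∀ᵐ x ∂ν, x ∈ D → u x ≠ ⊥) : Dn D u := by
  intro x hx hc
  obtain ⟨V, hV, hVo, hxV⟩ := mem_nhds_iff.1 (inter_mem hc (hD.mem_nhds hx))
  refine (hVo.measure_pos ν ⟨x, hxV⟩).ne' (measure_mono_null (fun y hy => ?_) h)
  exact fun h2 => (hV hy).1 (h2 (hV hy).2)

end dn

variable {E : Type*} [NormedAddCommGroup E] [NormedSpace ℂ E] {D : Set E} {u u' : E → EReal}

section meas

variable [MeasurableSpace E] [BorelSpace E] [FiniteDimensional ℂ E] (μ : Measure E)
  [μ.IsAddHaarMeasure]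

theorem IsPsh.dn_lint (h : IsPsh D u) (hD : IsOpen D) (hd : Dn D u) {K : Set E}
    (hK : IsCompact K) (hKD : K ⊆ D) (C : ℝ) : ∫⁻ x in K, cst C (u x) ∂μ < ⊤ :=
  lint_cst_lt_top μ hK.measure_lt_top (lint_compact_lt_top μ hK fun x hx =>
    (h.loc_dich μ hD (hKD hx)).resolve_right fun h2 =>
      hd x (hKD hx) (h2.mono fun _ hy => not_not.2 hy)) C

theorem IsPsh.dn_ae (h : IsPsh D u) (hD : IsOpen D) (hd : Dn D u) :
    ∀ᵐ x ∂μ, x ∈ D → u x ≠ ⊥ := by
  have key : μ {x | x ∈ D ∧ u x = ⊥} = 0 := by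
    refine measure_null_of_locally_null _ fun x hx => ?_
    obtain ⟨r, hr, hB⟩ := exists_cball hD hx.1
    have h1 := ae_ne_bot_of_lint μ (h.aemeasurable hD μ measurableSet_closedBall hB)
      (h.dn_lint μ hD hd (isCompact_closedBall x r) hB 0)
    rw [ae_restrict_iff' measurableSet_closedBall] at h1
    refine ⟨closedBall x r ∩ {x | x ∈ D ∧ u x = ⊥},
      inter_mem (mem_nhdsWithin_of_mem_nhds (closedBall_mem_nhds x hr)) self_mem_nhdsWithin,
      measure_mono_null (fun y hy => ?_) h1⟩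
    exact fun h2 => h2 hy.1 hy.2.2
  refine measure_mono_null (fun x hx => ?_) key
  simpa using hx

theorem IsPsh.dn_integrableOn (h : IsPsh D u) (hD : IsOpen D) (hd : Dn D u) {K : Set E}
    (hK : IsCompact K) (hKD : K ⊆ D) : IntegrableOn (fun x => (u x).toReal) K μ := by
  obtain ⟨C, hC⟩ := h.bdd hK hKD
  exact integrableOn_toReal μ hK.measure_lt_top (h.aemeasurable hD μ hK.measurableSet hKD)
    ((ae_restrict_iff' hK.measurableSet).2 (Eventually.of_forall hC)) (h.dn_lint μ hD hd hK hKD C)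

end meas

theorem IsPsh.dn_of_conn [FiniteDimensional ℂ E] (h : IsPsh D u) (hD : IsOpen D)
    (hc : IsPreconnected D) (h0 : ∃ x ∈ D, u x ≠ ⊥) : Dn D u := by
  borelize E
  exact Dn.of_ae Measure.addHaar hD (h.ae_ne_bot _ hD hc h0)

theorem Dn.add [FiniteDimensional ℂ E] (h : IsPsh D u) (h' : IsPsh D u') (hD : IsOpen D)
    (hd : Dn D u) (hd' : Dn D u') : Dn D fun x => u x + u' x := by
  borelize E
  refine Dn.of_ae Measure.addHaar hD ?_
  filter_upwards [h.dn_ae Measure.addHaar hD hd, h'.dn_ae Measure.addHaar hD hd'] with x h1 h2 hx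
  simp [h1 hx, h2 hx]

/-! ### integrals of `EReal` valued functions -/

section eint

variable {T : Type*} [MeasurableSpace T] {ν : Measure T} {F G : T → EReal}

/-- integral of an `EReal` valued function -/
def eint (ν : Measure T) (F : T → EReal) : EReal :=
  ((∫⁻ t, (F t).toENNReal ∂ν : ℝ≥0∞) : EReal) - ((∫⁻ t, (-F t).toENNReal ∂ν : ℝ≥0∞) : EReal)

theorem eint_mono (h : ∀ᵐ t ∂ν, F t ≤ G t) : eint ν F ≤ eint ν G := by
  refine EReal.sub_le_sub (EReal.coe_ennreal_le_coe_ennreal_iff.2 (lintegral_mono_ae ?_))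
    (EReal.coe_ennreal_le_coe_ennreal_iff.2 (lintegral_mono_ae ?_))
  · exact h.mono fun t ht => EReal.toENNReal_le_toENNReal ht
  · exact h.mono fun t ht => EReal.toENNReal_le_toENNReal (EReal.neg_le_neg_iff.2 ht)

theorem eint_congr (h : F =ᵐ[ν] G) : eint ν F = eint ν G :=
  le_antisymm (eint_mono (h.mono fun _ ht => ht.le)) (eint_mono (h.mono fun _ ht => ht.ge))

theorem eint_coe {f : T → ℝ} (hf : Integrable f ν) :
    eint ν (fun t => (f t : EReal)) = (∫ t, f t ∂ν : ℝ) := by
  have h1 : ∫⁻ t, ENNReal.ofReal (f t) ∂ν ≠ ⊤ := hf.lintegral_lt_top.ne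
  have h2 : ∫⁻ t, ENNReal.ofReal (-f t) ∂ν ≠ ⊤ := hf.neg.lintegral_lt_top.ne
  rw [integral_eq_lintegral_pos_part_sub_lintegral_neg_part hf, EReal.coe_sub,
    EReal.coe_ennreal_toReal h1, EReal.coe_ennreal_toReal h2]
  rfl

theorem eint_eq_integral (h1 : ∀ᵐ t ∂ν, F t ≠ ⊥) (h2 : ∀ᵐ t ∂ν, F t ≠ ⊤)
    (hi : Integrable (fun t => (F t).toReal) ν) : eint ν F = (∫ t, (F t).toReal ∂ν : ℝ) := by
  rw [← eint_coe hi]
  refine eint_congr ?_
  filter_upwards [h1, h2] with t a b
  exact (EReal.coe_toReal b a).symm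

variable [IsProbabilityMeasure ν]

theorem eint_const (a : EReal) : eint ν (fun _ => a) = a := by
  induction a with
  | bot => simp [eint]
  | top => simp [eint]
  | coe a => rw [eint_coe (integrable_const a)]; simp

theorem eint_le {a : EReal} (h : ∀ᵐ t ∂ν, F t ≤ a) : eint ν F ≤ a :=
  (eint_mono h).trans (eint_const a).le

theorem le_eint {a : EReal} (h : ∀ᵐ t ∂ν, a ≤ F t) : a ≤ eint ν F :=
  (eint_const a).ge.trans (eint_mono h)

theorem cst_add_pos {C : ℝ} (hC : 0 ≤ C) {a : EReal} (ha : a ≤ C) :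
    cst C a + a.toENNReal = ENNReal.ofReal C + (-a).toENNReal := by
  induction a with
  | bot => simp
  | top => exact absurd ha (EReal.coe_lt_top _).not_ge
  | coe a =>
    have ha' := EReal.coe_le_coe_iff.1 ha
    rw [cst_coe, ← EReal.coe_neg, EReal.real_coe_toENNReal, EReal.real_coe_toENNReal]
    rcases le_total 0 a with h | h
    · rw [← ENNReal.ofReal_add (by linarith) h, ENNReal.ofReal_of_nonpos (neg_nonpos.2 h)]
      simp
    · rw [← ENNReal.ofReal_add hC (neg_nonneg.2 h), ENNReal.ofReal_of_nonpos h, add_zero,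
        sub_eq_add_neg]

theorem cst_eint (hF : AEMeasurable F ν) {C : ℝ} (hC : ∀ᵐ t ∂ν, F t ≤ C) :
    cst C (eint ν F) = ∫⁻ t, cst C (F t) ∂ν := by
  have key : ∀ C : ℝ, 0 ≤ C → (∀ᵐ t ∂ν, F t ≤ C) → cst C (eint ν F) = ∫⁻ t, cst C (F t) ∂ν := by
    intro C h0 hC
    set L := ∫⁻ t, cst C (F t) ∂ν with hL
    set P := ∫⁻ t, (F t).toENNReal ∂ν with hP
    set N := ∫⁻ t, (-F t).toENNReal ∂ν with hN
    have h1 : L + P = ENNReal.ofReal C + N := by
      rw [hL, hP, hN, ← lintegral_add_right' _ hF.ereal_toENNReal,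
        lintegral_congr_ae (hC.mono fun t ht => cst_add_pos h0 ht),
        lintegral_add_left measurable_const, lintegral_const, measure_univ, mul_one]
    have hPt : P ≠ ⊤ := by
      refine ne_top_of_le_ne_top ENNReal.ofReal_ne_top (b := ENNReal.ofReal C) ?_
      calc P ≤ ∫⁻ _, ENNReal.ofReal C ∂ν := lintegral_mono_ae (hC.mono fun t ht =>
            (EReal.toENNReal_le_toENNReal ht).trans (EReal.real_coe_toENNReal C).le)
        _ = _ := by rw [lintegral_const, measure_univ, mul_one]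
    have e : eint ν F = (P : EReal) - (N : EReal) := rfl
    by_cases hNt : N = ⊤
    · have hLt : L = ⊤ := by
        rw [hNt, add_top, ENNReal.add_eq_top] at h1
        exact h1.resolve_right hPt
      rw [e, hNt, hLt]
      simp
    · have hLt : L ≠ ⊤ := fun h => by
        rw [h, top_add] at h1
        exact ENNReal.add_ne_top.2 ⟨ENNReal.ofReal_ne_top, hNt⟩ h1.symm
      have h2 := congrArg ENNReal.toReal h1
      rw [ENNReal.toReal_add hLt hPt, ENNReal.toReal_add ENNReal.ofReal_ne_top hNt,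
        ENNReal.toReal_ofReal h0] at h2
      rw [e, ← EReal.coe_ennreal_toReal hPt, ← EReal.coe_ennreal_toReal hNt, ← EReal.coe_sub,
        cst_coe, ← ENNReal.ofReal_toReal hLt]
      congr 1; linarith
  have h1 := key (max C 0) (le_max_right _ _)
    (hC.mono fun t ht => ht.trans (EReal.coe_le_coe_iff.2 (le_max_left _ _)))
  rw [cst_add (le_max_left C 0) (eint_le hC),
    lintegral_congr_ae (hC.mono fun t ht => cst_add (le_max_left C 0) ht),
    lintegral_add_right _ measurable_const, lintegral_const, measure_univ, mul_one] at h1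
  exact (ENNReal.add_left_inj ENNReal.ofReal_ne_top).1 h1

end eint

theorem Sub.of_lint' (hlt : ∀ x ∈ D, u x < ⊤)
    (h : ∀ z v : E, DiscIn D z v → ∃ C₀ : ℝ, ∀ C : ℝ, C₀ ≤ C →
      ∫⁻ t in Ioo (0 : ℝ) 1, cst C (u (z + cir t • v)) ≤ cst C (u z)) : Sub D u := by
  refine Sub.of_lint hlt fun z v hz C h1 h2 => ?_
  obtain ⟨C₀, h0⟩ := h z v hz
  have h3 := h0 (max C C₀) (le_max_right _ _)
  rw [cst_add (le_max_left C C₀) h2,
    lintegral_congr fun t => cst_add (le_max_left C C₀) (h1 _ (norm_cir t)),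
    lintegral_add_right _ measurable_const, lintegral_const, measure_univ, mul_one] at h3
  exact (ENNReal.add_le_add_iff_right ENNReal.ofReal_ne_top).1 h3

theorem lt_of_ofReal_lt_cst {C a : ℝ} {b : EReal} (h : ENNReal.ofReal (C - a) < cst C b) :
    b < a := lt_of_not_ge fun h1 => h.not_ge (cst_le_ofReal h1)

theorem isCompact_disc (z v : E) : IsCompact ((fun w : ℂ => z + w • v) '' closedBall 0 1) :=
  (isCompact_closedBall _ _).image (continuous_disc z v)

/-- **integrals of families of psh functions are psh** -/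
theorem isPsh_eint [MeasurableSpace E] [BorelSpace E] {T : Type*} [MeasurableSpace T]
    (ν : Measure T) [IsProbabilityMeasure ν] {U : T → E → EReal} (hD : IsOpen D)
    (hm : Measurable (Function.uncurry U)) (h : ∀ᵐ t ∂ν, IsPsh D (U t))
    (hb : ∀ x ∈ D, ∃ V ∈ 𝓝 x, ∃ C : ℝ, ∀ᵐ t ∂ν, ∀ y ∈ V, U t y ≤ C) :
    IsPsh D fun x => eint ν fun t => U t x := by
  have hmx : ∀ x, Measurable fun t => U t x := fun x => hm.of_uncurry_right
  have hlt : ∀ x ∈ D, (eint ν fun t => U t x) < ⊤ := fun x hx => by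
    obtain ⟨V, hV, C, hC⟩ := hb x hx
    exact (eint_le (hC.mono fun t ht => ht x (mem_of_mem_nhds hV))).trans_lt (EReal.coe_lt_top C)
  refine ⟨fun x hx a ha => nhdsWithin_le_nhds ?_, hlt, Sub.of_lint' hlt fun z v hz => ?_⟩
  · obtain ⟨V, hV, C, hC⟩ := hb x hx
    obtain ⟨a', h1, h2⟩ := EReal.lt_iff_exists_real_btwn.1 ha
    set C' : ℝ := max C a' + 1 with hC'
    have hCC : C ≤ C' := by have := le_max_left C a'; linarith
    have haC : a' < C' := by have := le_max_right C a'; linarith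
    have hC2 : ∀ y ∈ V, ∀ᵐ t ∂ν, U t y ≤ C' := fun y hy =>
      hC.mono fun t ht => (ht y hy).trans (EReal.coe_le_coe_iff.2 hCC)
    have h3 : ENNReal.ofReal (C' - a') < cst C' (eint ν fun t => U t x) := by
      obtain ⟨b, h4, h5⟩ := EReal.lt_iff_exists_real_btwn.1 h1
      have h6 := EReal.coe_lt_coe_iff.1 h5
      exact lt_of_lt_of_le ((ENNReal.ofReal_lt_ofReal_iff (by linarith)).2 (by linarith))
        (ofReal_le_cst h4.le)
    have h4 : cst C' (eint ν fun t => U t x) ≤
        liminf (fun y => ∫⁻ t, cst C' (U t y) ∂ν) (𝓝 x) := by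
      rw [cst_eint (hmx x).aemeasurable (hC2 x (mem_of_mem_nhds hV))]
      refine le_trans (lintegral_mono_ae ?_)
        (lintegral_liminf_le fun y => (measurable_cst C').comp (hmx y))
      filter_upwards [h] with t ht
      refine le_of_forall_lt_imp_le_of_dense fun b hb => le_liminf_of_le (by isBoundedDefault) ?_
      have hbt : b ≠ ⊤ := ne_top_of_lt hb
      rw [← ENNReal.ofReal_toReal hbt] at hb ⊢
      have h5 : U t x < ((C' - b.toReal : ℝ) : EReal) :=
        lt_of_ofReal_lt_cst (C := C') (by rwa [sub_sub_cancel])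
      filter_upwards [ht.uscAt hD hx _ h5] with y hy
      have := ofReal_le_cst (C := C') (le_of_lt hy)
      rwa [sub_sub_cancel] at this
    filter_upwards [eventually_lt_of_lt_liminf (h3.trans_le h4), hV] with y hy hyV
    rw [← cst_eint (hmx y).aemeasurable (hC2 y hyV)] at hy
    exact (lt_of_ofReal_lt_cst hy).trans h2
  · obtain ⟨C₀, h0⟩ := (isCompact_disc z v).induction_on
      (p := fun s => ∃ C : ℝ, ∀ᵐ t ∂ν, ∀ y ∈ s, U t y ≤ C) ⟨0, by simp⟩
      (fun s s' hs ⟨C, hC⟩ => ⟨C, hC.mono fun t ht y hy => ht y (hs hy)⟩)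
      (fun s s' ⟨C, hC⟩ ⟨C', hC'⟩ => ⟨max C C', by
        filter_upwards [hC, hC'] with t h1 h2 y hy
        rcases hy with hy | hy
        · exact (h1 y hy).trans (EReal.coe_le_coe_iff.2 (le_max_left _ _))
        · exact (h2 y hy).trans (EReal.coe_le_coe_iff.2 (le_max_right _ _))⟩)
      (by
        rintro _ ⟨w, hw, rfl⟩
        obtain ⟨V, hV, h1⟩ := hb _ (hz w (by simpa using hw))
        exact ⟨V, mem_nhdsWithin_of_mem_nhds hV, h1⟩)
    refine ⟨C₀, fun C hC => ?_⟩
    have h1 : ∀ᵐ t ∂ν, ∀ w : ℂ, ‖w‖ ≤ 1 → U t (z + w • v) ≤ C := h0.mono fun t ht w hw =>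
      (ht _ ⟨w, by simpa using hw, rfl⟩).trans (EReal.coe_le_coe_iff.2 hC)
    have h2 : ∀ᵐ t ∂ν, U t z ≤ C := h1.mono fun t ht => by simpa using ht 0 (by simp)
    rw [cst_eint (hmx z).aemeasurable h2, lintegral_congr fun θ =>
      cst_eint (hmx _).aemeasurable (h1.mono fun t ht => ht _ (norm_cir θ).le),
      lintegral_lintegral_swap]
    · refine lintegral_mono_ae ?_
      filter_upwards [h, h1] with t ht ht1
      exact ht.lint_circle hz fun w hw => ht1 w hw.le
    · have hc : Continuous fun θ : ℝ => z + cir θ • v := by have := continuous_cir; fun_prop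
      exact ((measurable_cst C).comp
        (hm.comp (measurable_snd.prodMk (hc.measurable.comp measurable_fst)))).aemeasurable

end Crest.Agent.X261.Psh
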