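import Crest.Agent.X261.Psh.Mean

/-!
# Row 261, package PSH (helper78), file `Loc`

Harmonic majorants, maximum principle, locality and gluing, `Re F`, `log ‖f‖`,
Poisson–Harnack inequality, three circles and Schwarz lemma.
-/

set_option autoImplicit false
set_option linter.dupNamespace false

open Set Filter Topology Metric MeasureTheory
open scoped ENNReal ComplexConjugate

noncomputable section

namespace Crest.Agent.X261.Psh

open Crest.Agent.R275.FL884 (DiscIn discIn_of_closedBall)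

/-! ### one variable -/

/-- real parts of entire functions are dense on the circle -/
theorem exists_entire_approx {g : ℂ → ℝ} (hg : Continuous g) {ε : ℝ} (hε : 0 < ε) :
    ∃ F : ℂ → ℂ, Differentiable ℂ F ∧ ∀ w : ℂ, ‖w‖ = 1 → |(F w).re - g w| < ε := by
  have : Fact ((0 : ℝ) < 1) := ⟨one_pos⟩
  let f : C(AddCircle (1 : ℝ), ℂ) := ⟨fun x => (g (AddCircle.toCircle x : Circle) : ℂ),
    Complex.continuous_ofReal.comp (hg.comp (continuous_subtype_val.comp
      AddCircle.continuous_toCircle))⟩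
  have hf : f ∈ (Submodule.span ℂ (range (@fourier 1))).topologicalClosure := by
    rw [span_fourier_closure_eq_top]; trivial
  obtain ⟨p, hp, hd⟩ := Metric.mem_closure_iff.1 hf ε hε
  have key : ∀ c : ℂ, ∃ F : ℂ → ℂ, Differentiable ℂ F ∧
      ∀ x, (c * p x).re = (F (AddCircle.toCircle x : Circle)).re := by
    clear hd
    induction hp using Submodule.span_induction with
    | mem q hq =>
      obtain ⟨k, rfl⟩ := hq
      intro c
      have hn : ∀ (m : ℕ) (x : AddCircle (1 : ℝ)),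
          fourier m x = ((AddCircle.toCircle x : Circle) : ℂ) ^ m := by
        intro m x
        rw [fourier_apply, natCast_zsmul, AddCircle.toCircle_nsmul]
        simp
      rcases Int.eq_nat_or_neg k with ⟨m, rfl | rfl⟩
      · exact ⟨fun w => c * w ^ m, by fun_prop, fun x => by rw [hn]⟩
      · refine ⟨fun w => conj c * w ^ m, by fun_prop, fun x => ?_⟩
        rw [fourier_neg, hn, ← Complex.conj_re (c * _), map_mul, Complex.conj_conj]
    | zero => exact fun c => ⟨fun _ => 0, by fun_prop, fun x => by simp⟩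
    | add q q' _ _ ih ih' =>
      intro c
      obtain ⟨F, hF, h⟩ := ih c
      obtain ⟨F', hF', h'⟩ := ih' c
      exact ⟨fun w => F w + F' w, hF.add hF', fun x => by
        simp only [ContinuousMap.add_apply, mul_add, Complex.add_re, h, h']⟩
    | smul a q _ ih =>
      intro c
      obtain ⟨F, hF, h⟩ := ih (c * a)
      exact ⟨F, hF, fun x => by rw [← h, ContinuousMap.smul_apply, smul_eq_mul, mul_assoc]⟩
  obtain ⟨F, hF, h⟩ := key 1
  refine ⟨F, hF, fun w hw => ?_⟩
  obtain ⟨x, hx⟩ := (AddCircle.homeomorphCircle (T := 1) one_ne_zero).surjective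
    ⟨w, by simpa [Submonoid.unitSphere] using hw⟩
  rw [AddCircle.homeomorphCircle_apply] at hx
  have hx' : ((AddCircle.toCircle x : Circle) : ℂ) = w := by rw [hx]
  have h1 := h x
  rw [one_mul, hx'] at h1
  have h2 : ‖f x - p x‖ < ε := by
    rw [← dist_eq_norm]; exact (ContinuousMap.dist_apply_le_dist x).trans_lt hd
  have h3 : (f x).re = g w := by simp [f, hx']
  rw [← h1, ← h3, abs_sub_comm, ← Complex.sub_re]
  exact (Complex.abs_re_le_norm _).trans_lt h2

theorem cint_of_dcc {F : ℂ → ℂ} (hF : DiffContOnCl ℂ F (ball 0 1)) : CircleIntegrable F 0 1 := by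
  refine ContinuousOn.circleIntegrable zero_le_one (hF.continuousOn.mono ?_)
  rw [closure_ball _ one_ne_zero]
  exact sphere_subset_closedBall

theorem avg_re' {F : ℂ → ℂ} (hF : DiffContOnCl ℂ F (ball 0 1)) :
    Real.circleAverage (fun w => (F w).re) 0 1 = (F 0).re := by
  have h1 := Complex.reCLM.circleAverage_comp_comm (cint_of_dcc hF)
  rw [DiffContOnCl.circleAverage (R := 1) (by simpa using hF)] at h1
  exact h1

theorem avg_re {F : ℂ → ℂ} (hF : Differentiable ℂ F) :
    Real.circleAverage (fun w => (F w).re) 0 1 = (F 0).re := avg_re' hF.diffContOnCl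

/-- maximum principle in one variable, local form -/
theorem max1 {K S : Set ℂ} (hK : IsCompact K) {φ : ℂ → EReal} (hφ : UpperSemicontinuousOn φ K)
    (hlt : ∀ z ∈ K, φ z < ⊤) {F : ℂ → ℂ} (hF : Differentiable ℂ F)
    (hloc : ∀ z ∈ K, z ∉ S → ∃ r : ℂ, r ≠ 0 ∧ (∀ w : ℂ, ‖w‖ = 1 → z + w • r ∈ K) ∧
      ∀ g : ℂ → ℝ, Continuous g → (∀ w : ℂ, ‖w‖ = 1 → φ (z + w • r) ≤ g w) →
        φ z ≤ (Real.circleAverage g 0 1 : ℝ))
    (hS : ∀ z ∈ K, z ∈ S → φ z ≤ (F z).re) : ∀ z ∈ K, φ z ≤ (F z).re := by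
  intro z hz
  obtain ⟨R, hR⟩ := hK.isBounded.exists_norm_le
  have hR0 : 0 ≤ R := (norm_nonneg _).trans (hR z hz)
  refine le_coe_of_forall fun ε hε => ?_
  set δ : ℝ := ε / (R ^ 2 + 1) with hδ
  have hδ0 : 0 < δ := by positivity
  have hδR : δ * R ^ 2 ≤ ε := by
    rw [hδ, div_mul_eq_mul_div, div_le_iff₀ (by positivity)]; nlinarith
  set p : ℂ → ℝ := fun z => δ * ‖z‖ ^ 2 - (F z).re with hp
  have hpc : Continuous p := by have := hF.continuous; fun_prop
  obtain ⟨z0, hz0, hm⟩ := (usc_add hφ (usc_coe hpc.continuousOn) hlt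
    fun _ _ => EReal.coe_lt_top _).exists_isMaxOn ⟨z, hz⟩ hK
  have hm' : ∀ y ∈ K, φ y + p y ≤ φ z0 + p z0 := fun y hy => hm hy
  by_cases hz0S : z0 ∈ S
  · have h1 := (hm' z hz).trans (add_le_coe (hS z0 hz0 hz0S) le_rfl)
    rw [add_coe_le_iff] at h1
    refine h1.trans (EReal.coe_le_coe_iff.2 ?_)
    have h2 : δ * ‖z0‖ ^ 2 ≤ δ * R ^ 2 := by have := hR z0 hz0; gcongr
    have h3 : 0 ≤ δ * ‖z‖ ^ 2 := by positivity
    simp only [hp]; linarith
  · obtain ⟨r, hr, hrK, hsub⟩ := hloc z0 hz0 hz0S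
    induction h0 : φ z0 with
    | top => exact absurd (h0 ▸ hlt z0 hz0) (lt_irrefl _)
    | bot =>
      have h1 := hm' z hz
      rw [h0, EReal.bot_add, le_bot_iff, EReal.add_eq_bot_iff] at h1
      rcases h1 with h1 | h1
      · rw [h1]; exact bot_le
      · exact absurd h1 (EReal.coe_ne_bot _)
    | coe a =>
      exfalso
      set G : ℂ → ℂ := fun w => ((a + p z0 - δ * (‖z0‖ ^ 2 + ‖r‖ ^ 2) : ℝ) : ℂ) -
        2 * δ * (conj z0 * r) * w + F (z0 + w • r) with hG
      have hGd : Differentiable ℂ G := by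
        have : Differentiable ℂ fun w : ℂ => F (z0 + w • r) := hF.comp (by fun_prop)
        fun_prop
      have h1 := hsub (fun w => (G w).re) (by have := hGd.continuous; fun_prop) fun w hw => by
        have h2 := hm' _ (hrK w hw)
        rw [h0, ← EReal.coe_add, add_coe_le_iff] at h2
        refine h2.trans (le_of_eq ?_)
        congr 1
        have h3 : ‖z0 + w • r‖ ^ 2 = ‖z0‖ ^ 2 + ‖r‖ ^ 2 + 2 * (conj z0 * r * w).re := by
          have h4 : ‖r‖ ^ 2 = ‖w • r‖ ^ 2 := by rw [norm_smul, hw, one_mul]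
          rw [h4, ← Complex.normSq_eq_norm_sq, ← Complex.normSq_eq_norm_sq,
            ← Complex.normSq_eq_norm_sq, Complex.normSq_add, smul_eq_mul]
          simp only [Complex.mul_re, Complex.mul_im, Complex.conj_re, Complex.conj_im, map_mul]
          ring
        have h5 : (2 * δ * (conj z0 * r) * w : ℂ).re = 2 * δ * (conj z0 * r * w).re := by
          have : (2 * δ * (conj z0 * r) * w : ℂ) = ((2 * δ : ℝ) : ℂ) * (conj z0 * r * w) := by
            push_cast; ring
          rw [this, Complex.re_ofReal_mul]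
        simp only [hG, hp, Complex.add_re, Complex.sub_re, Complex.ofReal_re, h5, h3]
        ring
      rw [avg_re hGd, h0, EReal.coe_le_coe_iff] at h1
      have h6 : 0 < δ * ‖r‖ ^ 2 := by have := norm_pos_iff.2 hr; positivity
      simp only [hG, hp, Complex.add_re, Complex.sub_re, Complex.ofReal_re, mul_zero,
        Complex.zero_re, zero_smul, add_zero] at h1
      linarith

variable {E : Type*} [NormedAddCommGroup E] [NormedSpace ℂ E] {D : Set E} {u : E → EReal}

/-- it is enough to test harmonic majorants -/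
theorem Sub.of_re (h : ∀ z v : E, DiscIn D z v → ∀ F : ℂ → ℂ, Differentiable ℂ F →
    (∀ w : ℂ, ‖w‖ = 1 → u (z + w • v) ≤ (F w).re) → u z ≤ (F 0).re) : Sub D u := by
  intro z v hz g hg hle
  refine le_coe_of_forall fun ε hε => ?_
  obtain ⟨F, hF, hFg⟩ := exists_entire_approx hg (half_pos hε)
  have hFc : Continuous fun w => (F w).re := by have := hF.continuous; fun_prop
  have h1 := h z v hz (fun w => F w + (ε / 2 : ℝ)) (hF.add_const _) fun w hw => by
    refine (hle w hw).trans (EReal.coe_le_coe_iff.2 ?_)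
    have := abs_lt.1 (hFg w hw)
    simp only [Complex.add_re, Complex.ofReal_re]; linarith
  refine h1.trans (EReal.coe_le_coe_iff.2 ?_)
  have h2 := avg_mono hFc (hg.add continuous_const) (g' := fun w => g w + ε / 2) fun w hw => by
    have := abs_lt.1 (hFg w hw); linarith
  rw [avg_re hF, avg_add_const hg] at h2
  simp only [Complex.add_re, Complex.ofReal_re]; linarith

/-- sub-mean values on arbitrarily small discs -/
def LSub (D : Set E) (u : E → EReal) : Prop :=
  ∀ z ∈ D, ∀ v : E, ∃ᶠ r : ℝ in 𝓝[>] (0 : ℝ), ∀ g : ℂ → ℝ, Continuous g →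
    (∀ w : ℂ, ‖w‖ = 1 → u (z + w • ((r : ℂ) • v)) ≤ g w) → u z ≤ (Real.circleAverage g 0 1 : ℝ)

theorem le_re_disc (h1 : UpperSemicontinuousOn u D) (h2 : ∀ x ∈ D, u x < ⊤) (h3 : LSub D u)
    {z v : E} (hz : DiscIn D z v) {F : ℂ → ℂ} (hF : Differentiable ℂ F)
    (hle : ∀ w : ℂ, ‖w‖ = 1 → u (z + w • v) ≤ (F w).re) {w : ℂ} (hw : ‖w‖ ≤ 1) :
    u (z + w • v) ≤ (F w).re := by
  have hm : MapsTo (fun w : ℂ => z + w • v) (closedBall 0 1) D := fun w hw =>
    hz w (by simpa using hw)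
  refine max1 (K := closedBall 0 1) (S := sphere 0 1) (isCompact_closedBall _ _)
    (φ := fun w => u (z + w • v)) (h1.comp (continuous_disc z v).continuousOn hm)
    (fun w hw => h2 _ (hm hw)) hF (fun w0 hw0 hS => ?_) (fun w _ hw => hle w (by simpa using hw))
    w (by simpa using hw)
  have hlt : ‖w0‖ < 1 := lt_of_le_of_ne (by simpa using hw0) (by simpa using hS)
  obtain ⟨r, hr, hr1⟩ := ((h3 _ (hm hw0) v).and_eventually
    (Ioo_mem_nhdsGT (show (0 : ℝ) < 1 - ‖w0‖ by linarith))).exists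
  refine ⟨r, by exact_mod_cast hr1.1.ne', fun w hw => ?_, fun g hg hle => hr g hg fun w hw => ?_⟩
  · rw [mem_closedBall_zero_iff]
    refine (norm_add_le _ _).trans ?_
    rw [norm_smul, hw, one_mul, Complex.norm_real, Real.norm_of_nonneg hr1.1.le]
    linarith [hr1.2]
  · have := hle w hw
    rwa [add_smul, ← add_assoc, smul_assoc] at this

/-- **locality** -/
theorem IsPsh.of_lsub (h1 : UpperSemicontinuousOn u D) (h2 : ∀ x ∈ D, u x < ⊤) (h3 : LSub D u) :
    IsPsh D u :=
  ⟨h1, h2, Sub.of_re fun z v hz F hF hle => by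
    simpa using le_re_disc h1 h2 h3 hz hF hle (w := 0) (by simp)⟩

theorem ev_discIn {V : Set E} {z : E} (hV : V ∈ 𝓝 z) (v : E) :
    ∀ᶠ r : ℝ in 𝓝[>] (0 : ℝ), DiscIn V z ((r : ℂ) • v) := by
  obtain ⟨ρ, hρ, hB⟩ := nhds_basis_closedBall.mem_iff.1 hV
  have t : Tendsto (fun r : ℝ => ‖(r : ℂ) • v‖) (𝓝 0) (𝓝 0) := by
    have : Continuous fun r : ℝ => ‖(r : ℂ) • v‖ := by fun_prop
    simpa using this.tendsto 0
  filter_upwards [nhdsWithin_le_nhds (t.eventually (ge_mem_nhds hρ))] with r hr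
  exact discIn_of_closedBall hB hr

theorem Sub.freq {V : Set E} (h : Sub V u) {z : E} (hV : V ∈ 𝓝 z) (v : E) :
    ∃ᶠ r : ℝ in 𝓝[>] (0 : ℝ), ∀ g : ℂ → ℝ, Continuous g →
      (∀ w : ℂ, ‖w‖ = 1 → u (z + w • ((r : ℂ) • v)) ≤ g w) →
        u z ≤ (Real.circleAverage g 0 1 : ℝ) :=
  ((ev_discIn hV v).mono fun _ hr => h _ _ hr).frequently

theorem IsPsh.lsub (h : IsPsh D u) (hD : IsOpen D) : LSub D u := fun _ hz v =>
  h.sub.freq (hD.mem_nhds hz) v

theorem IsPsh.of_nhds (h : ∀ x ∈ D, ∃ V ∈ 𝓝 x, IsPsh V u) : IsPsh D u := by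
  refine IsPsh.of_lsub (fun x hx y hy => ?_) (fun x hx => ?_) fun x hx v => ?_
  · obtain ⟨V, hV, h'⟩ := h x hx
    have := h'.usc x (mem_of_mem_nhds hV) y hy
    rw [nhdsWithin_eq_nhds.2 hV] at this
    exact nhdsWithin_le_nhds this
  · obtain ⟨V, hV, h'⟩ := h x hx
    exact h'.lt_top x (mem_of_mem_nhds hV)
  · obtain ⟨V, hV, h'⟩ := h x hx
    exact h'.sub.freq hV v

/-- **gluing**: `max u v` on `W`, `u` elsewhere -/
theorem IsPsh.glue {W : Set E} [DecidablePred (· ∈ W)] {v : E → EReal} (h : IsPsh D u)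
    (hD : IsOpen D) (hW : IsOpen W) (hv : IsPsh (D ∩ W) v)
    (hb : ∀ x ∈ D, x ∉ W → ∀ a : EReal, u x < a → ∀ᶠ y in 𝓝[W] x, v y < a) :
    IsPsh D (W.piecewise (fun x => max (u x) (v x)) u) := by
  set w := W.piecewise (fun x => max (u x) (v x)) u with hw
  have hin : IsPsh (D ∩ W) w :=
    ((h.mono inter_subset_left).sup hv).congr fun x hx => by simp [hw, hx.2]
  have hge : ∀ x, u x ≤ w x := fun x => by by_cases hx : x ∈ W <;> simp [hw, hx]
  have hout : ∀ x, x ∉ W → w x = u x := fun x hx => by simp [hw, hx]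
  refine IsPsh.of_lsub (fun x hx a ha => ?_) (fun x hx => ?_) fun x hx y => ?_
  · by_cases hxW : x ∈ W
    · exact nhdsWithin_le_nhds (hin.uscAt (hD.inter hW) ⟨hx, hxW⟩ a ha)
    · have ha' : u x < a := hout x hxW ▸ ha
      filter_upwards [h.usc x hx a ha',
        nhdsWithin_le_nhds (eventually_nhdsWithin_iff.1 (hb x hx hxW a ha'))] with y h1 h2
      by_cases hy : y ∈ W
      · simpa [hw, hy] using ⟨h1, h2 hy⟩
      · exact (hout y hy).symm ▸ h1
  · by_cases hxW : x ∈ W
    · exact hin.lt_top x ⟨hx, hxW⟩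
    · exact (hout x hxW).symm ▸ h.lt_top x hx
  · by_cases hxW : x ∈ W
    · exact hin.sub.freq ((hD.inter hW).mem_nhds ⟨hx, hxW⟩) y
    · refine (h.lsub hD x hx y).mono fun r hr g hg hle => ?_
      rw [hout x hxW]
      exact hr g hg fun w' hw' => (hge _).trans (hle w' hw')

/-- gluing when `v ≤ u` near the boundary of `W` -/
theorem IsPsh.glue' {W : Set E} [DecidablePred (· ∈ W)] {v : E → EReal} (h : IsPsh D u)
    (hD : IsOpen D) (hW : IsOpen W) (hv : IsPsh (D ∩ W) v)
    (hb : ∀ x ∈ D, x ∉ W → ∀ᶠ y in 𝓝[W] x, v y ≤ u y) :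
    IsPsh D (W.piecewise (fun x => max (u x) (v x)) u) :=
  h.glue hD hW hv fun x hx hxW a ha => by
    filter_upwards [hb x hx hxW, nhdsWithin_le_nhds (h.uscAt hD hx a ha)] with y h1 h2
    exact h1.trans_lt h2

/-! ### holomorphic functions -/

theorem dcc_disc {F : Type*} [NormedAddCommGroup F] [NormedSpace ℂ F] {f : E → F} (hD : IsOpen D)
    (hf : DifferentiableOn ℂ f D) {z v : E} (hz : DiscIn D z v) :
    DiffContOnCl ℂ (fun w : ℂ => f (z + w • v)) (ball 0 1) := by
  refine DifferentiableOn.diffContOnCl fun w hw => ?_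
  rw [closure_ball _ one_ne_zero] at hw
  have h1 : DifferentiableAt ℂ (fun w : ℂ => z + w • v) w := by fun_prop
  exact ((hf.differentiableAt (hD.mem_nhds (hz w (by simpa using hw)))).comp w
    h1).differentiableWithinAt

theorem isPsh_re {f : E → ℂ} (hD : IsOpen D) (hf : DifferentiableOn ℂ f D) :
    IsPsh D fun x => ((f x).re : EReal) :=
  (isPsh_coe_iff (Complex.continuous_re.comp_continuousOn hf.continuousOn)).2 fun z v hz => by
    have := avg_re' (dcc_disc hD hf hz)
    simp only [zero_smul, add_zero] at this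
    exact this.ge

theorem log_enorm_le_iff {F : Type*} [NormedAddCommGroup F] {y : F} {t : ℝ} :
    ENNReal.log ‖y‖ₑ ≤ t ↔ ‖y‖ ≤ Real.exp t := by
  rw [← EReal.exp_le_exp_iff, ENNReal.exp_log, EReal.exp_coe, ← ofReal_norm,
    ENNReal.ofReal_le_ofReal_iff (Real.exp_pos t).le]

theorem log_enorm_of_ne {F : Type*} [NormedAddCommGroup F] {y : F} (hy : y ≠ 0) :
    ENNReal.log ‖y‖ₑ = (Real.log ‖y‖ : ℝ) := by
  rw [← ofReal_norm, ENNReal.log_ofReal_of_pos (norm_pos_iff.2 hy)]

/-- `log ‖f‖` for `f` holomorphic with values in any complex normed space -/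
theorem isPsh_log_norm {F : Type*} [NormedAddCommGroup F] [NormedSpace ℂ F] {f : E → F}
    (hD : IsOpen D) (hf : DifferentiableOn ℂ f D) : IsPsh D fun x => ENNReal.log ‖f x‖ₑ := by
  refine ⟨(ENNReal.continuous_log.comp_continuousOn hf.continuousOn.enorm).upperSemicontinuousOn,
    fun x _ => by simp, Sub.of_re fun z v hz P hP hle => ?_⟩
  have h1 : DiffContOnCl ℂ (fun w : ℂ => Complex.exp (-P w) • f (z + w • v)) (ball 0 1) :=
    (Differentiable.diffContOnCl (by fun_prop)).smul (dcc_disc hD hf hz)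
  have key : ∀ w, ‖Complex.exp (-P w) • f (z + w • v)‖ ≤ 1 ↔
      ‖f (z + w • v)‖ ≤ Real.exp (P w).re := fun w => by
    rw [norm_smul, Complex.norm_exp, Complex.neg_re, Real.exp_neg,
      inv_mul_le_iff₀ (Real.exp_pos _), mul_one]
  have h2 := Complex.norm_le_of_forall_mem_frontier_norm_le isBounded_ball h1 (C := 1)
    (fun w hw => by
      rw [frontier_ball _ one_ne_zero] at hw
      exact (key w).2 (log_enorm_le_iff.1 (hle w (by simpa using hw))))
    (subset_closure (mem_ball_self one_pos))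
  rw [key, zero_smul, add_zero] at h2
  exact log_enorm_le_iff.2 h2

theorem isPsh_log_dist (D : Set E) (y : E) : IsPsh D fun x => ENNReal.log ‖x - y‖ₑ :=
  (isPsh_log_norm (f := fun x => x - y) isOpen_univ (by fun_prop)).mono (subset_univ _)

/-- `s log |w|` is subharmonic off the origin for every real `s` -/
theorem isPsh_mul_log (s : ℝ) : IsPsh {w : ℂ | w ≠ 0} fun w => ((s * Real.log ‖w‖ : ℝ) : EReal) := by
  have hO : IsOpen {w : ℂ | w ≠ 0} := isOpen_ne
  rcases le_total 0 s with hs | hs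
  · refine ((isPsh_log_norm (f := fun w : ℂ => w) hO (by fun_prop)).smul hs).congr fun w hw => ?_
    simp only [log_enorm_of_ne hw, EReal.coe_mul]
  · refine ((isPsh_log_norm (f := fun w : ℂ => w⁻¹) hO
      (differentiableOn_inv (𝕜 := ℂ))).smul (neg_nonneg.2 hs)).congr fun w hw => ?_
    simp only [log_enorm_of_ne (inv_ne_zero hw), norm_inv, Real.log_inv, ← EReal.coe_mul,
      neg_mul_neg]

/-! ### maximum principles -/

theorem IsPsh.le_re_disc (h : IsPsh D u) {z v : E} (hz : DiscIn D z v) {F : ℂ → ℂ}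
    (hF : Differentiable ℂ F) (hle : ∀ w : ℂ, ‖w‖ = 1 → u (z + w • v) ≤ (F w).re) {w : ℂ}
    (hw : ‖w‖ ≤ 1) : u (z + w • v) ≤ (F w).re := by
  have hm : MapsTo (fun w : ℂ => z + w • v) (closedBall 0 1) D := fun w hw =>
    hz w (by simpa using hw)
  have hl := (h.line z v).mono (D' := closedBall 0 1) hm
  refine max1 (K := closedBall 0 1) (S := sphere 0 1) (isCompact_closedBall _ _) hl.usc
    hl.lt_top hF (fun w0 hw0 hS => ?_) (fun w _ hw => hle w (by simpa using hw))
    w (by simpa using hw)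
  have hlt : ‖w0‖ < 1 := lt_of_le_of_ne (by simpa using hw0) (by simpa using hS)
  have hd : DiscIn (closedBall (0 : ℂ) 1) w0 ((1 - ‖w0‖ : ℝ) : ℂ) :=
    discIn_of_closedBall (r := 1 - ‖w0‖) (closedBall_subset_closedBall' (by simp))
      (by rw [Complex.norm_real, Real.norm_of_nonneg (by linarith)])
  exact ⟨_, by exact_mod_cast (sub_pos.2 hlt).ne', fun w hw => disc_circle hd hw, hl.sub _ _ hd⟩

/-- maximum principle on a compact subset of `ℂ` -/
theorem IsPsh.max1 {K : Set ℂ} (hK : IsCompact K) {φ : ℂ → EReal}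
    (hφ : UpperSemicontinuousOn φ K) (h : IsPsh (interior K) φ) {c : ℝ}
    (hc : ∀ z ∈ K, z ∉ interior K → φ z ≤ c) : ∀ z ∈ K, φ z ≤ c := by
  have := Psh.max1 (S := (interior K)ᶜ) hK hφ (fun z hz => by
      by_cases h1 : z ∈ interior K
      · exact h.lt_top z h1
      · exact (hc z hz h1).trans_lt (EReal.coe_lt_top _))
    (F := fun _ => (c : ℂ)) (differentiable_const _) (fun z _ hz => by
      obtain ⟨r, hr, hr0⟩ := ((ev_discIn (isOpen_interior.mem_nhds (not_not.1 hz)) (1 : ℂ)).and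
        self_mem_nhdsWithin).exists
      exact ⟨(r : ℂ) • 1, by simpa using (mem_Ioi.1 hr0).ne',
        fun w hw => interior_subset (disc_circle hr hw), h.sub _ _ hr⟩) (fun z hz hS => hc z hz hS)
  simpa using this

/-- **maximum principle** on a bounded open set -/
theorem IsPsh.max_principle [Nontrivial E] {Ω : Set E} (hΩ : IsOpen Ω) (hb : Bornology.IsBounded Ω)
    (h : IsPsh Ω u) (hu : UpperSemicontinuousOn u (closure Ω)) {c : ℝ}
    (hc : ∀ x ∈ frontier Ω, u x ≤ c) : ∀ x ∈ Ω, u x ≤ c := by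
  intro z hz
  obtain ⟨v, hv⟩ := exists_ne (0 : E)
  set O : Set ℂ := {w | z + w • v ∈ Ω} with hO
  have hOo : IsOpen O := hΩ.preimage (continuous_disc z v)
  have hOb : Bornology.IsBounded O := by
    obtain ⟨R, hR⟩ := hb.exists_norm_le
    refine (isBounded_closedBall (x := (0 : ℂ)) (r := (R + ‖z‖) / ‖v‖)).subset fun w hw => ?_
    rw [mem_closedBall_zero_iff, le_div_iff₀ (norm_pos_iff.2 hv), ← norm_smul]
    have h1 := hR _ hw
    have h2 : ‖w • v‖ ≤ ‖z + w • v‖ + ‖z‖ := by simpa using norm_sub_le (z + w • v) z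
    linarith
  have hm : MapsTo (fun w : ℂ => z + w • v) (closure O) (closure Ω) :=
    MapsTo.closure (fun w hw => hw) (continuous_disc z v)
  have hl := h.line z v
  have := Psh.max1 (S := Oᶜ) hOb.isCompact_closure (φ := fun w => u (z + w • v))
    (hu.comp (continuous_disc z v).continuousOn hm) (fun w hw => by
      by_cases h1 : w ∈ O
      · exact h.lt_top _ h1
      · exact (hc _ ⟨hm hw, by rwa [hΩ.interior_eq]⟩).trans_lt (EReal.coe_lt_top _))
    (F := fun _ => (c : ℂ)) (differentiable_const _) (fun w _ hw => by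
      obtain ⟨r, hr, hr0⟩ := ((ev_discIn (hOo.mem_nhds (not_not.1 hw)) (1 : ℂ)).and
        self_mem_nhdsWithin).exists
      exact ⟨(r : ℂ) • 1, by simpa using (mem_Ioi.1 hr0).ne',
        fun w hw => subset_closure (disc_circle hr hw), hl.sub _ _ hr⟩)
    (fun w hw hS => hc _ ⟨hm hw, by rwa [hΩ.interior_eq]⟩) 0
    (subset_closure (by simpa [hO] using hz))
  simpa using this

/-! ### Poisson–Harnack -/

/-- Poisson integral majorant -/
theorem IsPsh.le_poisson (h : IsPsh D u) {z v : E} (hz : DiscIn D z v) {g : ℂ → ℝ}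
    (hg : Continuous g) (hle : ∀ w : ℂ, ‖w‖ = 1 → u (z + w • v) ≤ g w) {w : ℂ} (hw : ‖w‖ < 1) :
    u (z + w • v) ≤ (Real.circleAverage (fun ζ => ((ζ + w) / (ζ - w)).re * g ζ) 0 1 : ℝ) := by
  have hwb : w ∈ ball (0 : ℂ) 1 := by simpa using hw
  have hPc : ContinuousOn (fun ζ : ℂ => ((ζ + w) / (ζ - w)).re) (sphere 0 1) := by
    refine Complex.continuous_re.comp_continuousOn (ContinuousOn.div (by fun_prop) (by fun_prop)
      fun ζ hζ h0 => ?_)
    rw [sub_eq_zero] at h0
    rw [h0, mem_sphere_zero_iff_norm] at hζ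
    exact hw.ne hζ
  have hP0 : ∀ ζ ∈ sphere (0 : ℂ) 1, 0 ≤ ((ζ + w) / (ζ - w)).re := fun ζ hζ => by
    have := le_re_herglotzRieszKernel hζ hwb
    simp only [sub_zero] at this
    exact le_trans (div_nonneg (by linarith) (by positivity)) this
  have hint : ∀ {f : ℂ → ℝ}, Continuous f →
      CircleIntegrable (fun ζ => ((ζ + w) / (ζ - w)).re * f ζ) 0 1 := fun hf =>
    (hPc.mul hf.continuousOn).circleIntegrable zero_le_one
  have hrep : ∀ {F : ℂ → ℂ}, Differentiable ℂ F →
      Real.circleAverage (fun ζ => ((ζ + w) / (ζ - w)).re * (F ζ).re) 0 1 = (F w).re := by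
    intro F hF
    have h1 := hF.diffContOnCl.circleAverage_re_herglotzRieszKernel_smul' hwb
    simp only [sub_zero] at h1
    have h2 := Complex.reCLM.circleAverage_comp_comm
      (f := fun ζ => ((ζ + w) / (ζ - w)).re • F ζ) (c := 0) (R := 1)
      ((hPc.smul hF.continuous.continuousOn).circleIntegrable zero_le_one)
    rw [h1] at h2
    rw [← show _ = (F w).re from h2]
    congr 1
    funext ζ
    simp
  refine le_coe_of_forall fun ε hε => ?_
  obtain ⟨F, hF, hFg⟩ := exists_entire_approx hg (half_pos hε)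
  have hFc : Continuous fun w => (F w).re := by have := hF.continuous; fun_prop
  have h1 := h.le_re_disc hz (F := fun w => F w + (ε / 2 : ℝ)) (hF.add_const _) (fun w hw => by
    refine (hle w hw).trans (EReal.coe_le_coe_iff.2 ?_)
    have := abs_lt.1 (hFg w hw)
    simp only [Complex.add_re, Complex.ofReal_re]; linarith) hw.le
  refine h1.trans (EReal.coe_le_coe_iff.2 ?_)
  have h2 := hrep (F := fun w => F w - (ε / 2 : ℝ)) (hF.sub_const _)
  have h3 := Real.circleAverage_mono (hint (f := fun ζ => (F ζ - (ε / 2 : ℝ)).re)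
    (by have := hF.continuous; fun_prop)) (hint hg) fun ζ hζ => by
      have hζ' : ζ ∈ sphere (0 : ℂ) 1 := by simpa using hζ
      refine mul_le_mul_of_nonneg_left ?_ (hP0 ζ hζ')
      have := abs_lt.1 (hFg ζ (by simpa using hζ'))
      simp only [Complex.sub_re, Complex.ofReal_re]; linarith
  rw [h2] at h3
  simp only [Complex.add_re, Complex.sub_re, Complex.ofReal_re] at h3 ⊢
  linarith

/-- **Harnack inequality**: `C - u(z + w v) ≥ (1-|w|)/(1+|w|) · (C - mean of a majorant)` -/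
theorem IsPsh.harnack (h : IsPsh D u) {z v : E} (hz : DiscIn D z v) {g : ℂ → ℝ}
    (hg : Continuous g) (hle : ∀ w : ℂ, ‖w‖ = 1 → u (z + w • v) ≤ g w) {C : ℝ}
    (hC : ∀ w : ℂ, ‖w‖ = 1 → g w ≤ C) {w : ℂ} (hw : ‖w‖ < 1) :
    u (z + w • v) ≤
      ((C - (1 - ‖w‖) / (1 + ‖w‖) * (C - Real.circleAverage g 0 1) : ℝ) : EReal) := by
  have hwb : w ∈ ball (0 : ℂ) 1 := by simpa using hw
  refine (h.le_poisson hz hg hle hw).trans (EReal.coe_le_coe_iff.2 ?_)
  have hPc : ContinuousOn (fun ζ : ℂ => ((ζ + w) / (ζ - w)).re) (sphere 0 1) := by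
    refine Complex.continuous_re.comp_continuousOn (ContinuousOn.div (by fun_prop) (by fun_prop)
      fun ζ hζ h0 => ?_)
    rw [sub_eq_zero] at h0
    rw [h0, mem_sphere_zero_iff_norm] at hζ
    exact hw.ne hζ
  set a : ℝ := (1 - ‖w‖) / (1 + ‖w‖) with ha
  have h1 : Real.circleAverage (fun ζ : ℂ => ((ζ + w) / (ζ - w)).re * C) 0 1 = C := by
    have h1 := (differentiable_const (𝕜 := ℂ) (C : ℂ)).diffContOnCl
      |>.circleAverage_re_herglotzRieszKernel_smul' hwb
    simp only [sub_zero] at h1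
    have h2 := Complex.reCLM.circleAverage_comp_comm
      (f := fun ζ => ((ζ + w) / (ζ - w)).re • (C : ℂ)) (c := 0) (R := 1)
      ((hPc.smul continuousOn_const).circleIntegrable zero_le_one)
    rw [h1] at h2
    refine Eq.trans ?_ (h2.trans (by simp))
    congr 1
    funext ζ
    simp
  have i1 : CircleIntegrable (fun ζ : ℂ => ((ζ + w) / (ζ - w)).re * C) 0 1 :=
    (hPc.mul continuousOn_const).circleIntegrable zero_le_one
  have i2 : CircleIntegrable (fun ζ : ℂ => a * g ζ + -(a * C)) 0 1 := cint (by fun_prop)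
  have h3 := Real.circleAverage_mono ((hPc.mul hg.continuousOn).circleIntegrable zero_le_one)
    (i1.add i2) (f₁ := fun ζ => ((ζ + w) / (ζ - w)).re * g ζ) fun ζ hζ => by
      have hζ' : ζ ∈ sphere (0 : ℂ) 1 := by simpa using hζ
      have h4 := le_re_herglotzRieszKernel hζ' hwb
      simp only [sub_zero] at h4
      have h5 := hC ζ (by simpa using hζ')
      simp only [Pi.add_apply]
      nlinarith
  rw [Real.circleAverage_add i1 i2, h1, avg_add_const (by fun_prop), avg_const_mul] at h3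
  linarith

/-! ### three circles, Schwarz lemma -/

theorem IsPsh.annulus (h : IsPsh D u) (y : E) {r R : ℝ} (hr : 0 < r)
    (hD : ∀ x, r ≤ ‖x - y‖ → ‖x - y‖ ≤ R → x ∈ D) {s m : ℝ}
    (h1 : ∀ x, ‖x - y‖ = r → u x ≤ ((m + s * Real.log r : ℝ) : EReal))
    (h2 : ∀ x, ‖x - y‖ = R → u x ≤ ((m + s * Real.log R : ℝ) : EReal)) {x : E}
    (hx1 : r ≤ ‖x - y‖) (hx2 : ‖x - y‖ ≤ R) :
    u x ≤ ((m + s * Real.log ‖x - y‖ : ℝ) : EReal) := by
  set ρ := ‖x - y‖ with hρ
  have hρ0 : 0 < ρ := hr.trans_le hx1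
  set v : E := ((ρ⁻¹ : ℝ) : ℂ) • (x - y) with hv
  have hv1 : ‖v‖ = 1 := by
    rw [hv, norm_smul, Complex.norm_real, Real.norm_of_nonneg (by positivity),
      inv_mul_cancel₀ hρ0.ne']
  have hn : ∀ w : ℂ, ‖y + w • v - y‖ = ‖w‖ := fun w => by
    rw [add_sub_cancel_left, norm_smul, hv1, mul_one]
  set K : Set ℂ := closedBall 0 R \ ball 0 r with hK
  have hKc : IsCompact K := (isCompact_closedBall _ _).diff isOpen_ball
  have hKm : ∀ w, w ∈ K ↔ ‖w‖ ≤ R ∧ r ≤ ‖w‖ := fun w => by simp [hK]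
  have hl : IsPsh K fun w => u (y + w • v) + ((-s * Real.log ‖w‖ : ℝ) : EReal) := by
    refine ((h.line y v).mono fun w hw => ?_).add ((isPsh_mul_log (-s)).mono fun w hw => ?_)
    · exact hD _ (by rw [hn]; exact ((hKm w).1 hw).2) (by rw [hn]; exact ((hKm w).1 hw).1)
    · exact norm_pos_iff.1 (hr.trans_le ((hKm w).1 hw).2)
  have key := IsPsh.max1 hKc hl.usc (hl.mono interior_subset) (c := m) (fun w hw hi => by
    obtain ⟨a, b⟩ := (hKm w).1 hw
    rw [add_coe_le_iff]
    rcases b.eq_or_lt with b | b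
    · have := h1 _ ((hn w).trans b.symm)
      rwa [← b, neg_mul, sub_neg_eq_add]
    rcases a.eq_or_lt with a | a
    · have := h2 _ ((hn w).trans a)
      rwa [a, neg_mul, sub_neg_eq_add]
    refine absurd (mem_interior_iff_mem_nhds.2 ?_) hi
    filter_upwards [continuous_norm.continuousAt.eventually (lt_mem_nhds b),
      continuous_norm.continuousAt.eventually (gt_mem_nhds a)] with w' h3 h4
    exact (hKm w').2 ⟨h4.le, h3.le⟩) (ρ : ℂ)
    ((hKm _).2 (by rw [Complex.norm_real, Real.norm_of_nonneg hρ0.le]; exact ⟨hx2, hx1⟩))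
  have e : y + (ρ : ℂ) • v = x := by
    rw [hv, smul_smul, ← Complex.ofReal_mul, mul_inv_cancel₀ hρ0.ne']; simp
  rwa [e, add_coe_le_iff, Complex.norm_real, Real.norm_of_nonneg hρ0.le, neg_mul,
    sub_neg_eq_add] at key

/-- **three circles** -/
theorem IsPsh.three_circles (h : IsPsh D u) (y : E) {r R : ℝ} (hr : 0 < r) (hrR : r < R)
    (hD : ∀ x, r ≤ ‖x - y‖ → ‖x - y‖ ≤ R → x ∈ D) {a b : ℝ}
    (h1 : ∀ x, ‖x - y‖ = r → u x ≤ a) (h2 : ∀ x, ‖x - y‖ = R → u x ≤ b) {x : E}
    (hx1 : r ≤ ‖x - y‖) (hx2 : ‖x - y‖ ≤ R) :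
    u x ≤ ((b - (b - a) / (Real.log R - Real.log r) * (Real.log R - Real.log ‖x - y‖) : ℝ) :
      EReal) := by
  have hl : 0 < Real.log R - Real.log r := sub_pos.2 (Real.log_lt_log hr hrR)
  set s := (b - a) / (Real.log R - Real.log r) with hs
  have := h.annulus y hr hD (s := s) (m := b - s * Real.log R) (fun x hx => by
    refine (h1 x hx).trans (le_of_eq ?_)
    congr 1
    have : s * (Real.log R - Real.log r) = b - a := div_mul_cancel₀ _ hl.ne'
    linarith) (fun x hx => by simpa using h2 x hx) hx1 hx2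
  refine this.trans (le_of_eq ?_)
  congr 1; ring

/-- **Schwarz lemma**: a logarithmic pole of order `c` at `y` and the bound `b` on the sphere
of radius `R` give `u x ≤ b + c log (‖x - y‖ / R)` -/
theorem IsPsh.schwarz (h : IsPsh D u) (y : E) {R : ℝ} (hD : closedBall y R \ {y} ⊆ D) {b c : ℝ}
    (h1 : ∀ c' < c, ∀ m : ℝ, ∃ᶠ r : ℝ in 𝓝[>] (0 : ℝ),
      ∀ x, ‖x - y‖ = r → u x ≤ ((m + c' * Real.log r : ℝ) : EReal))
    (h2 : ∀ x, ‖x - y‖ = R → u x ≤ b) {x : E} (hx : x ≠ y) (hx2 : ‖x - y‖ ≤ R) :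
    u x ≤ ((b + c * (Real.log ‖x - y‖ - Real.log R) : ℝ) : EReal) := by
  have hρ : 0 < ‖x - y‖ := norm_pos_iff.2 (sub_ne_zero.2 hx)
  have hl : 0 ≤ Real.log R - Real.log ‖x - y‖ := sub_nonneg.2 (Real.log_le_log hρ hx2)
  refine le_coe_of_forall fun ε hε => ?_
  set L := Real.log R - Real.log ‖x - y‖ with hL
  set c' := c - ε / (L + 1) with hc'
  have hε' : 0 < ε / (L + 1) := by positivity
  obtain ⟨r, hr, hr1⟩ := ((h1 c' (by linarith) (b - c' * Real.log R)).and_eventually
    (Ioo_mem_nhdsGT hρ)).exists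
  have := h.annulus y hr1.1 (R := R) (fun x' a a' => hD ⟨by rwa [mem_closedBall, dist_eq_norm],
    fun h0 => by rw [mem_singleton_iff.1 h0, sub_self, norm_zero] at a; linarith [hr1.1]⟩)
    hr (fun x hx => by simpa using h2 x hx) hr1.2.le hx2
  refine this.trans (EReal.coe_le_coe_iff.2 ?_)
  have h3 : ε / (L + 1) * L ≤ ε := by
    rw [div_mul_eq_mul_div, div_le_iff₀ (by positivity)]; nlinarith
  have h4 : Real.log ‖x - y‖ = Real.log R - L := by rw [hL]; ring
  rw [h4, hc']
  nlinarith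

/-- Schwarz lemma, hypothesis `u ≤ c log ‖x - y‖ + C'` near `y` -/
theorem IsPsh.schwarz' (h : IsPsh D u) (y : E) {R : ℝ} (hD : closedBall y R \ {y} ⊆ D)
    {b c C' : ℝ} (h1 : ∀ᶠ x in 𝓝[≠] y, u x ≤ ((C' + c * Real.log ‖x - y‖ : ℝ) : EReal))
    (h2 : ∀ x, ‖x - y‖ = R → u x ≤ b) {x : E} (hx : x ≠ y) (hx2 : ‖x - y‖ ≤ R) :
    u x ≤ ((b + c * (Real.log ‖x - y‖ - Real.log R) : ℝ) : EReal) := by
  refine h.schwarz y hD (fun c' hc' m => Eventually.frequently ?_) h2 hx hx2
  obtain ⟨δ, hδ, hb⟩ := Metric.mem_nhdsWithin_iff.1 h1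
  have t : Tendsto (fun r : ℝ => (c - c') * Real.log r) (𝓝[>] 0) atBot :=
    Real.tendsto_log_nhdsGT_zero.const_mul_atBot (sub_pos.2 hc')
  filter_upwards [t.eventually (eventually_le_atBot (m - C')), Ioo_mem_nhdsGT hδ] with r hr1 hr2
    x hx
  have := hb (a := x) ⟨by rw [mem_ball, dist_eq_norm, hx]; exact hr2.2, fun h0 => by
    rw [mem_singleton_iff.1 h0, sub_self, norm_zero] at hx; linarith [hr2.1]⟩
  refine le_trans this (EReal.coe_le_coe_iff.2 ?_)
  rw [hx]; linarith

end Crest.Agent.X261.Psh
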