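import Crest.Agent.X261.Psh.Reg
import Crest.Agent.R281.Rich2_710

/-!
# Row 261, package PSH (helper78), file `Cvx`

* `isPsh_cext` : convex increasing functions of finitely many psh functions (values in `EReal`);
  one variable version `IsPsh.cx1`, real valued versions `isPsh_comp`, `IsPsh.comp_real`;
* `exp`, log-sum-exp, `log ∫ exp`;
* convex functions are psh;
* `C²` functions : psh iff Levi form `≥ 0`; bridge to `PshL` of R281.
-/

set_option autoImplicit false
set_option linter.dupNamespace false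
set_option linter.unusedSectionVars false

open Set Filter Topology Metric MeasureTheory
open scoped ENNReal ContDiff

noncomputable section

namespace Crest.Agent.X261.Psh

open Crest.Agent.R275.FL884 (DiscIn cir norm_cir continuous_cir)
open Crest.Agent.R257.HoB_843 (lvE)
open Crest.Agent.R281.Rich_710 (dav PshL le_dav_of_lvE lvE_nonneg_of_le lvE_ge_of_le)

/-- the mean of a function with values in an open convex set -/
theorem integral_mem_open {α V : Type*} [MeasurableSpace α] {ν : Measure α}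
    [IsProbabilityMeasure ν] [NormedAddCommGroup V] [NormedSpace ℝ V] [CompleteSpace V]
    {O : Set V} (hO : IsOpen O) (hc : Convex ℝ O) {Y : α → V} (hY : ∀ᵐ x ∂ν, Y x ∈ O)
    (hi : Integrable Y ν) : ∫ x, Y x ∂ν ∈ O := by
  by_contra hcon
  obtain ⟨f, hf⟩ := geometric_hahn_banach_open_point hc hO hcon
  have h1 : Integrable (fun x => f (∫ x, Y x ∂ν) - f (Y x)) ν :=
    (integrable_const _).sub (f.integrable_comp hi)
  have h2 : ∫ x, (f (∫ x, Y x ∂ν) - f (Y x)) ∂ν = 0 := by
    rw [integral_sub (integrable_const _) (f.integrable_comp hi), f.integral_comp_comm hi]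
    simp
  have h3 := (integral_eq_zero_iff_of_nonneg_ae
    (hY.mono fun x hx => (sub_pos.2 (hf _ hx)).le) h1).1 h2
  obtain ⟨x, hx1, hx2⟩ := (h3.and hY).exists
  exact (sub_pos.2 (hf _ hx2)).ne' hx1

variable {E : Type*} [NormedAddCommGroup E] [NormedSpace ℂ E] {D : Set E}

/-! ### convex functions of several psh functions -/

section cext

variable {ι : Type*} [Fintype ι] {S : Set (ι → ℝ)} {χ : (ι → ℝ) → ℝ} {a a' : ι → EReal}

/-- monotone extension of `χ` to vectors of extended reals -/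
def cext (S : Set (ι → ℝ)) (χ : (ι → ℝ) → ℝ) (a : ι → EReal) : EReal :=
  ⨅ (y : ι → ℝ) (_ : y ∈ S ∧ ∀ i, a i ≤ y i), (χ y : EReal)

theorem cext_le {y : ι → ℝ} (hy : y ∈ S) (h : ∀ i, a i ≤ y i) : cext S χ a ≤ χ y :=
  iInf₂_le y ⟨hy, h⟩

theorem le_cext {b : EReal} (h : ∀ y ∈ S, (∀ i, a i ≤ y i) → b ≤ χ y) : b ≤ cext S χ a :=
  le_iInf₂ fun y hy => h y hy.1 hy.2

theorem cext_mono (h : ∀ i, a i ≤ a' i) : cext S χ a ≤ cext S χ a' :=
  le_cext fun _ hy h1 => cext_le hy fun i => (h i).trans (h1 i)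

theorem cext_coe (hm : MonotoneOn χ S) {y : ι → ℝ} (hy : y ∈ S) :
    cext S χ (fun i => (y i : EReal)) = χ y :=
  le_antisymm (cext_le hy fun _ => le_rfl) (le_cext fun _ hy' h =>
    EReal.coe_le_coe_iff.2 (hm hy hy' fun i => EReal.coe_le_coe_iff.1 (h i)))

theorem exists_lt_of_cext_lt (hS : IsOpen S) (hχ : ContinuousOn χ S) {b : EReal}
    (h : cext S χ a < b) : ∃ y ∈ S, (∀ i, a i < y i) ∧ (χ y : EReal) < b := by
  simp only [cext, iInf_lt_iff] at h
  obtain ⟨y, ⟨hy, h1⟩, h2⟩ := h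
  have ht : Tendsto (fun δ : ℝ => fun i => y i + δ) (𝓝 0) (𝓝 y) := by
    have : Continuous fun δ : ℝ => fun i => y i + δ := by fun_prop
    simpa using this.tendsto 0
  have h3 := (continuous_coe_real_ereal.tendsto _).comp
    ((hχ.continuousAt (hS.mem_nhds hy)).tendsto.comp ht)
  obtain ⟨δ, ⟨h4, h5⟩, h6⟩ := ((((ht.eventually (hS.mem_nhds hy)).and
    (h3.eventually (gt_mem_nhds h2))).filter_mono nhdsWithin_le_nhds).and
      (self_mem_nhdsWithin (s := Ioi (0 : ℝ)))).exists
  exact ⟨_, h4, fun i => lt_coe_add (h1 i) h6, h5⟩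

/-- **convex functions of psh functions** -/
theorem isPsh_cext (hS : IsOpen S) (hχ : ConvexOn ℝ S χ) {u : ι → E → EReal}
    (hu : ∀ i, IsPsh D (u i)) (hm : ∀ x ∈ D, ∃ y ∈ S, ∀ i, u i x ≤ y i) :
    IsPsh D fun x => cext S χ fun i => u i x := by
  have hc := hχ.continuousOn hS
  refine ⟨fun x hx b hb => ?_, fun x hx => ?_, Sub.of_lt fun z v hz g hg hlt => ?_⟩
  · obtain ⟨y, hy, h1, h2⟩ := exists_lt_of_cext_lt hS hc hb
    filter_upwards [eventually_all.2 fun i => (hu i).usc x hx _ (h1 i)] with x' hx'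
    exact (cext_le hy fun i => (hx' i).le).trans_lt h2
  · obtain ⟨y, hy, h1⟩ := hm x hx
    exact (cext_le hy h1).trans_lt (EReal.coe_lt_top _)
  obtain ⟨Y, hY⟩ := exists_continuous_forall_mem_convex_of_local_const (X := ℂ) (E := ι → ℝ)
    (t := fun w => {y | ‖w‖ = 1 → (y ∈ S ∧ χ y < g w) ∧ ∀ i, u i (z + w • v) ≤ y i})
    (fun w => by
      by_cases hw : ‖w‖ = 1
      · simp only [hw, true_imp_iff]
        refine (hχ.convex_lt (g w)).inter fun y hy y' hy' s t hs ht hst i => ?_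
        have h1 := hy i
        have h2 := hy' i
        have hle : ((min (y i) (y' i) : ℝ) : EReal) ≤ ((s • y + t • y') i : ℝ) := by
          refine EReal.coe_le_coe_iff.2 ?_
          have e : s * min (y i) (y' i) + t * min (y i) (y' i) = min (y i) (y' i) := by
            rw [← add_mul, hst, one_mul]
          simp only [Pi.add_apply, Pi.smul_apply, smul_eq_mul]
          linarith [mul_le_mul_of_nonneg_left (min_le_left (y i) (y' i)) hs,
            mul_le_mul_of_nonneg_left (min_le_right (y i) (y' i)) ht]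
        refine le_trans ?_ hle
        rw [EReal.coe_strictMono.monotone.map_min]
        exact le_min h1 h2
      · simpa [hw] using convex_univ)
    (fun w => by
      by_cases hw : ‖w‖ = 1
      · obtain ⟨y, hy, h1, h2⟩ := exists_lt_of_cext_lt hS hc (hlt w hw)
        refine ⟨y, ?_⟩
        have h3 := eventually_all.2 fun i =>
          usc_circle (hu i).usc hz w (by simpa using hw) _ (h1 i)
        rw [eventually_nhdsWithin_iff] at h3
        filter_upwards [h3, hg.continuousAt.eventually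
          (lt_mem_nhds (EReal.coe_lt_coe_iff.1 h2))] with w' h4 h5 hw'
        exact ⟨⟨hy, h5⟩, fun i => (h4 (by simpa using hw') i).le⟩
      · refine ⟨0, ?_⟩
        filter_upwards [(continuous_norm.continuousAt (x := w)).eventually_ne hw] with w' h1 h2
        exact absurd h2 h1)
  have hO : IsOpen {p : (ι → ℝ) × ℝ | p.1 ∈ S ∧ χ p.1 < p.2} := by
    have h1 : ContinuousOn (fun p : (ι → ℝ) × ℝ => p.2 - χ p.1) (Prod.fst ⁻¹' S) :=
      continuous_snd.continuousOn.sub (hc.comp continuous_fst.continuousOn fun _ hp => hp)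
    simpa [preimage, inter_def] using
      h1.isOpen_inter_preimage (hS.preimage continuous_fst) (isOpen_Ioi (a := (0 : ℝ)))
  have hYi : IntegrableOn (fun t => Y (cir t)) (Ioo (0 : ℝ) 1) :=
    ((Y.continuous.comp continuous_cir).integrableOn_Icc).mono_set Ioo_subset_Icc_self
  have hgi : IntegrableOn (fun t => g (cir t)) (Ioo (0 : ℝ) 1) := integrableOn_cir (cint hg)
  have key := integral_mem_open hO hχ.convex_strict_epigraph
    (ν := volume.restrict (Ioo (0 : ℝ) 1)) (Y := fun t => (Y (cir t), g (cir t)))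
    (Eventually.of_forall fun t => (hY _ (norm_cir t)).1) (hYi.prodMk hgi)
  rw [integral_pair hYi hgi] at key
  refine (cext_le key.1 fun i => ?_).trans (EReal.coe_le_coe_iff.2 (avg_eq g ▸ key.2.le))
  have h1 := (hu i).sub z v hz (fun w => Y w i) ((continuous_apply i).comp Y.continuous)
    fun w hw => (hY w hw).2 i
  rw [avg_eq] at h1
  exact h1.trans_eq (congrArg _ ((ContinuousLinearMap.proj (R := ℝ) (φ := fun _ : ι => ℝ)
    i).integral_comp_comm hYi))

/-- real valued version -/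
theorem isPsh_comp (hS : IsOpen S) (hχ : ConvexOn ℝ S χ) (hm : MonotoneOn χ S) {f : ι → E → ℝ}
    (hf : ∀ i, IsPsh D fun x => (f i x : EReal)) (hS' : ∀ x ∈ D, (fun i => f i x) ∈ S) :
    IsPsh D fun x => (χ (fun i => f i x) : EReal) :=
  (isPsh_cext hS hχ hf fun x hx => ⟨_, hS' x hx, fun _ => le_rfl⟩).congr fun x hx =>
    cext_coe hm (hS' x hx)

end cext

/-! ### one variable -/

section cx1

variable {S : Set ℝ} {χ : ℝ → ℝ} {a a' : EReal} {u : E → EReal}

/-- monotone extension of `χ` to extended reals -/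
def cx1 (S : Set ℝ) (χ : ℝ → ℝ) (a : EReal) : EReal :=
  ⨅ (y : ℝ) (_ : y ∈ S ∧ a ≤ y), (χ y : EReal)

theorem cx1_le {y : ℝ} (hy : y ∈ S) (h : a ≤ y) : cx1 S χ a ≤ χ y := iInf₂_le y ⟨hy, h⟩

theorem le_cx1 {b : EReal} (h : ∀ y ∈ S, a ≤ y → b ≤ χ y) : b ≤ cx1 S χ a :=
  le_iInf₂ fun y hy => h y hy.1 hy.2

theorem cx1_mono (h : a ≤ a') : cx1 S χ a ≤ cx1 S χ a' :=
  le_cx1 fun _ hy h1 => cx1_le hy (h.trans h1)

theorem cx1_coe (hm : MonotoneOn χ S) {y : ℝ} (hy : y ∈ S) : cx1 S χ y = χ y :=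
  le_antisymm (cx1_le hy le_rfl) (le_cx1 fun _ hy' h =>
    EReal.coe_le_coe_iff.2 (hm hy hy' (EReal.coe_le_coe_iff.1 h)))

theorem IsPsh.cx1 (h : IsPsh D u) (hS : IsOpen S) (hχ : ConvexOn ℝ S χ)
    (hm : ∀ x ∈ D, ∃ y ∈ S, u x ≤ y) : IsPsh D fun x => cx1 S χ (u x) := by
  have h1 := isPsh_cext (ι := Unit) (S := {y | y () ∈ S}) (χ := fun y => χ (y ()))
    (hS.preimage (continuous_apply ())) 
    (hχ.comp_linearMap (LinearMap.proj (R := ℝ) (φ := fun _ : Unit => ℝ) ()))
    (u := fun _ => u) (fun _ => h) fun x hx =>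
      let ⟨y, h1, h2⟩ := hm x hx; ⟨fun _ => y, h1, fun _ => h2⟩
  exact h1.congr fun x _ => le_antisymm
    (le_cx1 fun y hy h2 => cext_le (y := fun _ => y) hy fun _ => h2)
    (le_cext fun y hy h2 => cx1_le hy (h2 ()))

/-- real valued version -/
theorem IsPsh.comp_real {f : E → ℝ} (h : IsPsh D fun x => (f x : EReal)) (hS : IsOpen S)
    (hχ : ConvexOn ℝ S χ) (hm : MonotoneOn χ S) (hS' : ∀ x ∈ D, f x ∈ S) :
    IsPsh D fun x => (χ (f x) : EReal) :=
  (h.cx1 hS hχ fun x hx => ⟨_, hS' x hx, le_rfl⟩).congr fun x hx => cx1_coe hm (hS' x hx)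

/-- any extension `ψ` of a convex increasing function which is continuous at `-∞` -/
theorem IsPsh.comp_ereal (h : IsPsh D u) (hχ : ConvexOn ℝ univ χ) (hm : Monotone χ)
    {ψ : EReal → EReal} (h1 : ∀ y : ℝ, ψ y = χ y) (h2 : ψ ⊥ = ⨅ y : ℝ, (χ y : EReal)) :
    IsPsh D fun x => ψ (u x) := by
  refine (h.cx1 isOpen_univ hχ fun x hx =>
    let ⟨y, hy⟩ := exists_real_ge (h.lt_top x hx); ⟨y, trivial, hy⟩).congr fun x hx => ?_
  have := h.lt_top x hx
  change Psh.cx1 univ χ (u x) = ψ (u x)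
  induction hu : u x with
  | bot => simp [Psh.cx1, h2]
  | top => simp [hu] at this
  | coe y => rw [h1, cx1_coe (hm.monotoneOn _) (mem_univ y)]

/-- `exp` of a psh function -/
theorem IsPsh.exp (h : IsPsh D u) : IsPsh D fun x => ((EReal.exp (u x) : ℝ≥0∞) : EReal) := by
  refine h.comp_ereal convexOn_exp Real.exp_monotone (ψ := fun a => (EReal.exp a : ℝ≥0∞))
    (fun y => by simp [(Real.exp_pos y).le]) (le_antisymm (le_iInf fun y => ?_) ?_)
  · simpa using (Real.exp_pos y).le
  · have := (continuous_coe_real_ereal.tendsto _).comp Real.tendsto_exp_atBot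
    simpa using ge_of_tendsto' (b := ⨅ y : ℝ, ((Real.exp y : ℝ) : EReal)) this
      fun y => iInf_le (fun y : ℝ => ((Real.exp y : ℝ) : EReal)) y

theorem coe_toReal_ennreal {a : ℝ≥0∞} (ha : a ≠ ⊤) : ((a.toReal : ℝ) : EReal) = a := by
  lift a to NNReal using ha
  rfl

theorem IsPsh.exp_toReal (h : IsPsh D u) :
    IsPsh D fun x => (((EReal.exp (u x)).toReal : ℝ) : EReal) :=
  h.exp.congr fun x hx => (coe_toReal_ennreal (by simpa using (h.lt_top x hx).ne)).symm

end cx1

/-! ### log-sum-exp -/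

section lse

variable {u : E → EReal}

theorem log_le_coe_iff {a : ℝ≥0∞} {t : ℝ} : ENNReal.log a ≤ t ↔ a ≤ ENNReal.ofReal (Real.exp t) := by
  rw [← EReal.exp_coe, ← EReal.exp_le_exp_iff, ENNReal.exp_log]

/-- a function `Φ ≥ 0` such that `Φ · e^{- Re F}` has the sub-mean value property on discs for all
entire `F` has a psh logarithm -/
theorem sub_log {Φ : E → ℝ≥0∞}
    (h : ∀ z v : E, DiscIn D z v → ∀ F : ℂ → ℂ, Differentiable ℂ F →
      (∀ w : ℂ, ‖w‖ = 1 → Φ (z + w • v) * ENNReal.ofReal (Real.exp (-(F w).re)) ≤ 1) →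
        Φ z * ENNReal.ofReal (Real.exp (-(F 0).re)) ≤ 1) : Sub D fun x => ENNReal.log (Φ x) := by
  have e : ∀ (a : ℝ≥0∞) (t : ℝ), ENNReal.log a ≤ t ↔ a * ENNReal.ofReal (Real.exp (-t)) ≤ 1 := by
    intro a t
    rw [log_le_coe_iff, Real.exp_neg, ENNReal.ofReal_inv_of_pos (Real.exp_pos t),
      ← div_eq_mul_inv, ENNReal.div_le_iff (by simpa using Real.exp_pos t) ENNReal.ofReal_ne_top,
      one_mul]
  exact Sub.of_re fun z v hz F hF hle => (e _ _).2 (h z v hz F hF fun w hw => (e _ _).1 (hle w hw))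

/-- sub-mean value inequality for `exp (u - Re F)` -/
theorem IsPsh.exp_le_lint (h : IsPsh D u) {z v : E} (hz : DiscIn D z v) {F : ℂ → ℂ}
    (hF : Differentiable ℂ F) :
    EReal.exp (u z) * ENNReal.ofReal (Real.exp (-(F 0).re)) ≤ ∫⁻ t in Ioo (0 : ℝ) 1,
      EReal.exp (u (z + cir t • v)) * ENNReal.ofReal (Real.exp (-(F (cir t)).re)) := by
  have h1 := ((h.line z v).add ((isPsh_re isOpen_univ hF.neg.differentiableOn).mono
    (subset_univ _))).exp_toReal
  have hd : DiscIn {w : ℂ | z + w • v ∈ D} 0 1 := fun w hw => by simpa using hz w hw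
  have e : ∀ w : ℂ, EReal.exp (u (z + w • v) + (((-F) w).re : ℝ)) =
      EReal.exp (u (z + w • v)) * ENNReal.ofReal (Real.exp (-(F w).re)) := fun w => by
    simp [EReal.exp_add, -EReal.coe_neg]
  simp only [e] at h1
  set G : ℂ → ℝ≥0∞ := fun w => EReal.exp (u (z + w • v)) * ENNReal.ofReal (Real.exp (-(F w).re))
    with hG
  have hfin : ∀ w : ℂ, ‖w‖ ≤ 1 → G w ≠ ⊤ := fun w hw =>
    ENNReal.mul_ne_top (by simpa using (h.lt_top _ (hz w hw)).ne) ENNReal.ofReal_ne_top
  obtain ⟨C, hC⟩ := h1.exists_bound_circle hd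
  have h2 := h1.lint_circle hd hC
  simp only [zero_add, smul_eq_mul, mul_one, cst_coe] at h2 hC
  have h0 : (G 0).toReal ≤ C := by
    have := h1.sub.le_const hd (c := C) (by simpa using hC)
    exact EReal.coe_le_coe_iff.1 this
  have hC' : ∀ t, (G (cir t)).toReal ≤ C := fun t => EReal.coe_le_coe_iff.1 (hC _ (norm_cir t))
  have e0 : G 0 = EReal.exp (u z) * ENNReal.ofReal (Real.exp (-(F 0).re)) := by simp [hG]
  rw [← e0]
  change G 0 ≤ ∫⁻ t in Ioo (0 : ℝ) 1, G (cir t)
  have hm : AEMeasurable (fun t => G (cir t)) (volume.restrict (Ioo (0 : ℝ) 1)) := by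
    have h3 : UpperSemicontinuous fun t => u (z + cir t • v) := by
      rw [← upperSemicontinuousOn_univ_iff]
      exact (usc_circle h.usc hz).comp continuous_cir.continuousOn fun t _ => by
        simpa using norm_cir t
    exact ((EReal.measurable_exp.comp h3.measurable).mul
      (Continuous.measurable (by
        have := hF.continuous
        have := continuous_cir
        fun_prop)).ennreal_ofReal).aemeasurable
  have h4 : ∫⁻ t in Ioo (0 : ℝ) 1, (G (cir t) + ENNReal.ofReal (C - (G (cir t)).toReal)) =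
      ENNReal.ofReal C := by
    have : ∀ t, G (cir t) + ENNReal.ofReal (C - (G (cir t)).toReal) = ENNReal.ofReal C := by
      intro t
      conv_lhs => rw [← ENNReal.ofReal_toReal (hfin _ (norm_cir t).le)]
      rw [ENNReal.toReal_ofReal ENNReal.toReal_nonneg,
        ← ENNReal.ofReal_add ENNReal.toReal_nonneg (sub_nonneg.2 (hC' t)), add_sub_cancel]
    simp [this]
  rw [lintegral_add_left' hm] at h4
  have h5 : G 0 + ENNReal.ofReal (C - (G 0).toReal) = ENNReal.ofReal C := by
    conv_lhs => rw [← ENNReal.ofReal_toReal (hfin 0 (by simp))]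
    rw [ENNReal.toReal_ofReal ENNReal.toReal_nonneg,
      ← ENNReal.ofReal_add ENNReal.toReal_nonneg (sub_nonneg.2 h0), add_sub_cancel]
  refine (ENNReal.add_le_add_iff_right (a := ENNReal.ofReal (C - (G 0).toReal))
    ENNReal.ofReal_ne_top).1 ?_
  rw [h5, ← h4]
  exact add_le_add_right h2 _

/-- **`log ∫ exp`** of a measurable family of psh functions (any s-finite measure; sums over
countable sets with `Measure.count`) : the sub-mean value property -/
theorem sub_log_lint {T : Type*} [MeasurableSpace T] (ν : Measure T) [SFinite ν]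
    [MeasurableSpace E] [BorelSpace E] {U : T → E → EReal}
    (hm : Measurable (Function.uncurry U)) (h : ∀ᵐ t ∂ν, IsPsh D (U t)) :
    Sub D fun x => ENNReal.log (∫⁻ t, EReal.exp (U t x) ∂ν) := by
  refine sub_log fun z v hz F hF hle => ?_
  have hc := hF.continuous
  have hc' := continuous_cir
  have hm1 : Measurable fun p : T × ℝ => EReal.exp (U p.1 (z + cir p.2 • v)) *
      ENNReal.ofReal (Real.exp (-(F (cir p.2)).re)) :=
    (EReal.measurable_exp.comp (hm.comp (measurable_fst.prodMk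
      ((Continuous.measurable (f := fun s : ℝ => z + cir s • v) (by fun_prop)).comp
        measurable_snd)))).mul ((Continuous.measurable
          (f := fun s : ℝ => Real.exp (-(F (cir s)).re)) (by fun_prop)).comp
            measurable_snd).ennreal_ofReal
  rw [← lintegral_mul_const' _ _ ENNReal.ofReal_ne_top]
  refine (lintegral_mono_ae (h.mono fun t ht => ht.exp_le_lint hz hF)).trans ?_
  rw [lintegral_lintegral_swap hm1.aemeasurable]
  refine (lintegral_mono fun s => ?_ : _ ≤ ∫⁻ _ in Ioo (0 : ℝ) 1, 1).trans (by simp)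
  simpa only [lintegral_mul_const' _ _ ENNReal.ofReal_ne_top] using hle _ (norm_cir s)

/-- **log-sum-exp** -/
theorem isPsh_lse {ι : Type*} (s : Finset ι) {u : ι → E → EReal} (h : ∀ i ∈ s, IsPsh D (u i)) :
    IsPsh D fun x => ENNReal.log (∑ i ∈ s, EReal.exp (u i x)) := by
  refine ⟨?_, fun x hx => ?_, sub_log fun z v hz F hF hle => ?_⟩
  · have h1 : UpperSemicontinuousOn (fun x => ∑ i ∈ s, EReal.exp (u i x)) D :=
      upperSemicontinuousOn_sum fun i hi x hx =>
        ENNReal.continuous_exp.continuousAt.comp_upperSemicontinuousWithinAt ((h i hi).usc x hx)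
          EReal.exp_monotone
    exact fun x hx => ENNReal.continuous_log.continuousAt.comp_upperSemicontinuousWithinAt
      (h1 x hx) ENNReal.log_monotone
  · simpa using fun i hi => (h i hi).lt_top x hx
  · rw [Finset.sum_mul]
    refine (Finset.sum_le_sum fun i hi => (h i hi).exp_le_lint hz hF).trans ?_
    have hc := hF.continuous
    have hc' := continuous_cir
    rw [← lintegral_finsetSum' s fun i hi => ?_]
    · refine (lintegral_mono fun t => ?_ : _ ≤ ∫⁻ _ in Ioo (0 : ℝ) 1, 1).trans (by simp)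
      simpa only [Finset.sum_mul] using hle _ (norm_cir t)
    · have h3 : UpperSemicontinuous fun t => u i (z + cir t • v) := by
        rw [← upperSemicontinuousOn_univ_iff]
        exact (usc_circle (h i hi).usc hz).comp continuous_cir.continuousOn fun t _ => by
          simpa using norm_cir t
      exact ((EReal.measurable_exp.comp h3.measurable).mul
        (Continuous.measurable (by fun_prop)).ennreal_ofReal).aemeasurable

/-- real form of log-sum-exp with non-negative coefficients -/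
theorem isPsh_lse_real {ι : Type*} (s : Finset ι) {c : ι → ℝ} {f : ι → E → ℝ}
    (hc : ∀ i ∈ s, 0 ≤ c i) (h0 : ∃ i ∈ s, 0 < c i)
    (h : ∀ i ∈ s, IsPsh D fun x => (f i x : EReal)) :
    IsPsh D fun x => (Real.log (∑ i ∈ s, c i * Real.exp (f i x)) : EReal) := by
  have h1 := isPsh_lse s (u := fun i x => ENNReal.log (ENNReal.ofReal (c i)) + f i x)
    fun i hi => (IsPsh.const D (ENNReal.log_lt_top_iff.2 ENNReal.ofReal_lt_top)).add (h i hi)
  refine h1.congr fun x _ => ?_
  obtain ⟨j, hj, hj0⟩ := h0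
  have hpos : 0 < ∑ i ∈ s, c i * Real.exp (f i x) := Finset.sum_pos'
    (fun i hi => mul_nonneg (hc i hi) (Real.exp_pos _).le) ⟨j, hj, mul_pos hj0 (Real.exp_pos _)⟩
  simp only
  rw [← ENNReal.log_ofReal_of_pos hpos, ENNReal.ofReal_sum_of_nonneg
    fun i hi => mul_nonneg (hc i hi) (Real.exp_pos _).le]
  congr 1
  refine Finset.sum_congr rfl fun i hi => ?_
  rw [EReal.exp_add, ENNReal.exp_log, EReal.exp_coe, ENNReal.ofReal_mul (hc i hi)]

/-- `log ∑ ‖f i‖ ^ α` -/
theorem isPsh_log_sum_rpow {ι F : Type*} [NormedAddCommGroup F] [NormedSpace ℂ F] (s : Finset ι)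
    {f : ι → E → F} (hD : IsOpen D) (hf : ∀ i ∈ s, DifferentiableOn ℂ (f i) D) {α : ℝ}
    (hα : 0 ≤ α) : IsPsh D fun x => ENNReal.log (∑ i ∈ s, ‖f i x‖ₑ ^ α) := by
  have h1 := isPsh_lse s fun i hi => (isPsh_log_norm hD (hf i hi)).smul hα
  simpa only [← ENNReal.log_rpow, ENNReal.exp_log] using h1

end lse

/-! ### convex functions -/

theorem isPsh_of_convex {f : E → ℝ} (hf : ConvexOn ℝ D f) (hc : ContinuousOn f D) :
    IsPsh D fun x => (f x : EReal) := by
  refine (isPsh_coe_iff hc).2 fun z v hz => ?_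
  have hz' : DiscIn D z (-v) := fun w hw => by simpa using hz (-w) (by simpa using hw)
  have h1 := cint_disc hc hz
  have h2 := cint_disc hc hz'
  have e : Real.circleAverage (fun w : ℂ => f (z + w • -v)) 0 1 =
      Real.circleAverage (fun w : ℂ => f (z + w • v)) 0 1 := by
    rw [← Real.circleAverage_neg_radius (f := fun w : ℂ => f (z + w • v))]
    simp [Real.circleAverage, circleMap]
  have h3 : Real.circleAverage (fun _ : ℂ => 2 * f z) 0 1 ≤
      Real.circleAverage (fun w : ℂ => f (z + w • v) + f (z + w • -v)) 0 1 := by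
    refine Real.circleAverage_mono (cint continuous_const) (h1.add h2) fun w hw => ?_
    have hw' : ‖w‖ ≤ 1 := by simpa using le_of_eq (mem_sphere_zero_iff_norm.1 hw)
    have := hf.2 (hz w hw') (hz' w hw') (by norm_num : (0 : ℝ) ≤ 1 / 2)
      (by norm_num : (0 : ℝ) ≤ 1 / 2) (by norm_num)
    have e1 : (1 / 2 : ℝ) • (z + w • v) + (1 / 2 : ℝ) • (z + w • -v) = z := by
      rw [← smul_add, smul_neg, add_add_add_comm, add_neg_cancel, add_zero, ← two_smul ℝ, smul_smul]
      norm_num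
    rw [e1] at this
    simp only [smul_eq_mul] at this ⊢
    linarith
  rw [Real.circleAverage_const, Real.circleAverage_fun_add h1 h2, e] at h3
  linarith

theorem isPsh_norm_sub (D : Set E) (y : E) : IsPsh D fun x => ((‖x - y‖ : ℝ) : EReal) :=
  (isPsh_log_dist D y).exp_toReal.congr fun x _ => by simp

theorem isPsh_norm_pow {F : Type*} [NormedAddCommGroup F] [NormedSpace ℂ F] {f : E → F}
    (hD : IsOpen D) (hf : DifferentiableOn ℂ f D) (k : ℕ) :
    IsPsh D fun x => ((‖f x‖ ^ k : ℝ) : EReal) :=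
  ((isPsh_log_norm hD hf).smul (c := k) k.cast_nonneg).exp_toReal.congr fun x _ => by
    simp only [← ENNReal.log_rpow, ENNReal.exp_log, ENNReal.rpow_natCast, ENNReal.toReal_pow,
      toReal_enorm]

/-! ### `C²` functions -/

section smooth

variable [NormedSpace ℝ E] [IsScalarTower ℝ ℂ E] {f : E → ℝ}

theorem IsPsh.le_dav (h : IsPsh D fun x => (f x : EReal)) {z v : E} (hz : DiscIn D z v)
    (hc : ∀ w : ℂ, ‖w‖ = 1 → ContinuousAt f (z + w • v)) : f z ≤ dav f z v :=
  EReal.coe_le_coe_iff.1 (h.le_avg hz (ContinuousOn.circleIntegrable zero_le_one fun w hw =>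
    (ContinuousAt.comp (f := fun w : ℂ => z + w • v) (hc w (by simpa using hw))
      (continuous_disc z v).continuousAt).continuousWithinAt) fun _ _ => le_rfl)

theorem IsPsh.lvE_nonneg (h : IsPsh D fun x => (f x : EReal)) {z : E} (hz : D ∈ 𝓝 z)
    (hf : ContDiffAt ℝ 2 f z) (v : E) : 0 ≤ lvE f z v := by
  have h1 := ev_discIn (inter_mem hz ((hf.eventually (by simp)).mono
    fun _ hy => hy.continuousAt)) v
  obtain ⟨r, hr, h2⟩ := (nhdsGT_basis (0 : ℝ)).eventually_iff.1 h1
  refine lvE_nonneg_of_le hf ⟨r, hr, fun s h3 h4 => ?_⟩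
  have h5 := h2 ⟨h3, h4⟩
  rw [show (s : ℂ) • v = s • v from algebraMap_smul ℂ s v] at h5
  exact h.le_dav (h5.mono inter_subset_left) fun w hw => (h5 w hw.le).2

theorem isPsh_of_lvE (h : ∀ z ∈ D, ContDiffAt ℝ 2 f z ∧ ∀ v, 0 ≤ lvE f z v) :
    IsPsh D fun x => (f x : EReal) :=
  (isPsh_coe_iff fun z hz => (h z hz).1.continuousAt.continuousWithinAt).2 fun z v hz => by
    simpa [dav] using le_dav_of_lvE (c := 0) fun w hw => ⟨(h _ (hz w hw)).1, (h _ (hz w hw)).2 v⟩

theorem isPsh_iff_lvE (hD : IsOpen D) (hf : ContDiffOn ℝ 2 f D) :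
    IsPsh D (fun x => (f x : EReal)) ↔ ∀ z ∈ D, ∀ v, 0 ≤ lvE f z v :=
  ⟨fun h _ hz => h.lvE_nonneg (hD.mem_nhds hz) (hf.contDiffAt (hD.mem_nhds hz)),
    fun h => isPsh_of_lvE fun z hz => ⟨hf.contDiffAt (hD.mem_nhds hz), h z hz⟩⟩

theorem IsPsh.pshL (h : IsPsh D fun x => (f x : EReal)) (hD : IsOpen D) (hf : ContinuousOn f D) :
    PshL D f := by
  intro z hz
  obtain ⟨r, hr, h1⟩ := Metric.isOpen_iff.1 hD z hz
  refine ⟨r / 2, half_pos hr, fun x hx v hv => (isPsh_coe_iff hf).1 h x v fun w hw => h1 ?_⟩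
  simpa [mul_div_cancel₀] using R281.Rich_710.disc_subset hx hv hw

theorem isPsh_of_pshL (hD : IsOpen D) (hf : ContinuousOn f D) (h : PshL D f) :
    IsPsh D fun x => (f x : EReal) := by
  refine IsPsh.of_lsub (usc_coe hf) (fun _ _ => EReal.coe_lt_top _) fun z hz v => ?_
  obtain ⟨r, hr, h1⟩ := h z hz
  have h2 : ∀ᶠ s : ℝ in 𝓝[>] 0, ‖(s : ℂ) • v‖ < r := by
    have : Continuous fun s : ℝ => ‖(s : ℂ) • v‖ := by fun_prop
    exact nhdsWithin_le_nhds (this.continuousAt.eventually (gt_mem_nhds (by simpa using hr)))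
  refine ((ev_discIn (hD.mem_nhds hz) v).and h2).frequently.mono fun s hs g hg hle => ?_
  exact EReal.coe_le_coe_iff.2 ((h1 z (mem_ball_self hr) _ hs.2).trans
    (Real.circleAverage_mono (cint_disc hf hs.1) (cint hg) fun w hw =>
      EReal.coe_le_coe_iff.1 (hle w (by simpa using hw))))

theorem isPsh_iff_pshL (hD : IsOpen D) (hf : ContinuousOn f D) :
    IsPsh D (fun x => (f x : EReal)) ↔ PshL D f :=
  ⟨fun h => h.pshL hD hf, isPsh_of_pshL hD hf⟩

/-- smooth functions with non-negative Levi form decreasing to `u` -/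
theorem IsPsh.exists_smooth_lvE [FiniteDimensional ℂ E] {u : E → EReal} (h : IsPsh D u)
    (hD : IsOpen D) {K : Set E} (hK : IsCompact K) (hKD : K ⊆ D) :
    ∃ U : Set E, IsOpen U ∧ K ⊆ U ∧ U ⊆ D ∧ ∃ φ : ℕ → E → ℝ,
      (∀ k, ∀ x ∈ U, ContDiffAt ℝ ∞ (φ k) x ∧ ∀ v, 0 ≤ lvE (φ k) x v) ∧
      (∀ x ∈ U, Antitone fun k => φ k x) ∧ (∀ k, ∀ x ∈ U, u x ≤ φ k x) ∧
        ∀ x ∈ U, Tendsto (fun k => (φ k x : EReal)) atTop (𝓝 (u x)) := by
  obtain ⟨U, hU, h1, h2, φ, h3, h4, h5, h6⟩ := h.exists_smooth hD hK hKD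
  refine ⟨U, hU, h1, h2, φ, fun k x hx => ?_, h5, fun k x hx => ?_, h6⟩
  · have := (h3 k).contDiffAt (hU.mem_nhds hx)
    exact ⟨this, (h4 k).lvE_nonneg (hU.mem_nhds hx) (this.of_le (WithTop.coe_le_coe.2 (le_top : (2 : ℕ∞) ≤ ⊤)))⟩
  · exact (EReal.coe_strictMono.monotone.comp_antitone (h5 x hx)).le_of_tendsto (h6 x hx) k

end smooth

end Crest.Agent.X261.Psh
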