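import Crest.Agent.X261.Psh.Cvx
import Crest.Agent.R273.ExpI2_772

/-!
# Row 261, package PSH (helper71), file `Sko71`: uniform exponential integrability

* `skoda`, `skoda'` : `u ≤ b` on a ball, `b - c ≤ u` at (a point near) the centre ⟹
  `∫ exp (-(η / c) u) ≤ C μ(ball) exp (-(η / c) b)` on a smaller ball;
* `vol_lt` : `μ {u < b - t} ≤ C μ(ball) exp (-(η / c) t)`;
* `exists_nhds` : `u x ≠ -∞` ⟹ `exp (-k u)` is integrable near `x` for every `k`;
* `exists_nhds` : `exp (-(k u))` is integrable near every point where `u` is finite.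
-/

set_option autoImplicit false
set_option linter.dupNamespace false
set_option linter.unusedSectionVars false

open Set Filter Topology Metric MeasureTheory
open scoped ENNReal NNReal ContDiff

noncomputable section

namespace Crest.Agent.X261.Psh.Sk

open Crest.Agent.R273.C0d_390 (V lv)
open Crest.Agent.R257.HoB_843 (lvE)

theorem continuous_ew {k : ℝ} (hk : k ≠ 0) :
    Continuous fun a : EReal => EReal.exp (-((k : EReal) * a)) := by
  refine ENNReal.continuous_exp.comp (continuous_neg.comp ?_)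
  refine continuous_iff_continuousAt.2 fun a => ?_
  have h0 : (k : EReal) ≠ 0 := by exact_mod_cast hk
  exact (EReal.continuousAt_mul (p := ((k : EReal), a)) (Or.inl h0) (Or.inl h0)
    (Or.inl (EReal.coe_ne_bot k)) (Or.inl (EReal.coe_ne_top k))).comp
    (f := fun a : EReal => ((k : EReal), a)) (by fun_prop)

theorem ew_coe (k x : ℝ) :
    EReal.exp (-((k : EReal) * (x : EReal))) = ENNReal.ofReal (Real.exp (-(k * x))) := by
  rw [← EReal.coe_mul, ← EReal.coe_neg, EReal.exp_coe]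

theorem ew_anti {k : ℝ} (hk : 0 ≤ k) {a b : EReal} (h : a ≤ b) :
    EReal.exp (-((k : EReal) * b)) ≤ EReal.exp (-((k : EReal) * a)) :=
  EReal.exp_monotone (EReal.neg_le_neg_iff.2
    (mul_le_mul_of_nonneg_left h (EReal.coe_nonneg.2 hk)))

/-- affine normalisation of the weight -/
theorem ew_aff {η c : ℝ} (hη : 0 < η) (hc : 0 < c) (b : ℝ) {a : EReal} (ha : a ≠ ⊤) :
    EReal.exp (-(((η / c : ℝ) : EReal) * a)) = ENNReal.ofReal (Real.exp (-(η / c * b))) *
      EReal.exp (-((η : EReal) * (((c⁻¹ : ℝ) : EReal) * (a + ((-b : ℝ) : EReal))))) := by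
  induction a with
  | top => exact absurd rfl ha
  | bot =>
    rw [EReal.bot_add, EReal.coe_mul_bot_of_pos (inv_pos.2 hc), EReal.coe_mul_bot_of_pos hη,
      EReal.coe_mul_bot_of_pos (div_pos hη hc), EReal.neg_bot, EReal.exp_top,
      ENNReal.mul_top (by simp [Real.exp_pos])]
  | coe a =>
    rw [← EReal.coe_add, ← EReal.coe_mul c⁻¹, ew_coe, ew_coe,
      ← ENNReal.ofReal_mul (Real.exp_pos _).le, ← Real.exp_add]
    congr 2; field_simp; ring

theorem ew_le_of_le {k k' : ℝ} (hk : 0 ≤ k) (hkk : k ≤ k') {a : EReal} {b : ℝ} (h : a ≤ b) :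
    EReal.exp (-((k : EReal) * a)) ≤
      ENNReal.ofReal (Real.exp ((k' - k) * b)) * EReal.exp (-((k' : EReal) * a)) := by
  induction a with
  | top => exact absurd h (by simp)
  | bot =>
    rcases (hk.trans hkk).eq_or_lt with h0 | h0
    · obtain rfl : k = 0 := le_antisymm (h0 ▸ hkk) hk
      subst h0; simp
    · rw [EReal.coe_mul_bot_of_pos h0, EReal.neg_bot, EReal.exp_top,
        ENNReal.mul_top (by simp [Real.exp_pos])]
      exact le_top
  | coe a =>
    rw [ew_coe, ew_coe, ← ENNReal.ofReal_mul (Real.exp_pos _).le, ← Real.exp_add]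
    refine ENNReal.ofReal_le_ofReal (Real.exp_le_exp.2 ?_)
    have := EReal.coe_le_coe_iff.1 h
    nlinarith

theorem unitV {n : ℕ} (μ : Measure (V n)) [μ.IsAddHaarMeasure] :
    ∃ (η : ℝ) (C : ℝ≥0∞), 0 < η ∧ C ≠ ⊤ ∧ ∀ (D : Set (V n)) (u : V n → EReal), IsOpen D →
      IsPsh D u → closedBall 0 1 ⊆ D → (∀ x ∈ closedBall (0 : V n) 1, u x ≤ (0 : ℝ)) →
      ((-1 : ℝ) : EReal) ≤ u 0 →
      ∫⁻ x in ball 0 (1 / 16), EReal.exp (-((η : EReal) * u x)) ∂μ ≤ C := by
  obtain ⟨η, C, hη, -, H⟩ := R273.ExpI2_772.exp_ball_gen μ (R := 1) (Λ := 0) (c := 2) one_pos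
    le_rfl (by norm_num)
  refine ⟨η, ENNReal.ofReal C, hη, ENNReal.ofReal_ne_top, fun D u hD hu hB h0 h1 => ?_⟩
  have hK := isCompact_closedBall (0 : V n) 1
  obtain ⟨U, hU, hKU, -, φ, hφ, hanti, hge, hlim⟩ := hu.exists_smooth_lvE hD hK hB
  have hc : ∀ k, ContinuousOn (φ k) (closedBall 0 1) := fun k x hx =>
    (hφ k x (hKU hx)).1.continuousAt.continuousWithinAt
  obtain ⟨k0, hk0⟩ := dini hK (f := fun k x => (φ k x : EReal)) (fun k => usc_coe (hc k))
    (fun i j => ⟨max i j, fun x hx =>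
      ⟨EReal.coe_le_coe_iff.2 (hanti x (hKU hx) (le_max_left _ _)),
        EReal.coe_le_coe_iff.2 (hanti x (hKU hx) (le_max_right _ _))⟩⟩)
    (g := fun _ => 1) continuousOn_const fun x hx =>
      ((hlim x (hKU hx)).eventually
        (gt_mem_nhds ((h0 x hx).trans_lt (EReal.coe_lt_coe_iff.2 one_pos)))).exists
  have hsub : ball (0 : V n) (1 / 16) ⊆ closedBall 0 1 :=
    ball_subset_closedBall.trans (closedBall_subset_closedBall (by norm_num))
  have hce : ∀ k, ContinuousOn (fun x => Real.exp (-(η * (φ k x - 1)))) (closedBall 0 1) :=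
    fun k => by have := hc k; fun_prop
  have key : ∀ k ≥ k0, ∫⁻ x in ball 0 (1 / 16), EReal.exp (-((η : EReal) * (φ k x : ℝ))) ∂μ ≤
      ENNReal.ofReal C := fun k hk => by
    have h2 := H 0 U (fun x => φ k x - 1) hU hKU
      (fun x hx => ((hφ k x hx).1.sub contDiffAt_const).contDiffWithinAt)
      (fun x hx w => by
        have h3 := (hφ k x (hKU hx)).2 w
        have e : fderiv ℝ (fun x => φ k x - 1) = fderiv ℝ (φ k) := by
          funext y; exact fderiv_sub_const 1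
        unfold lvE at h3
        unfold lv
        rw [e]
        simp only [zero_mul, neg_zero]
        linarith)
      (fun x hx => by
        have h3 := EReal.coe_lt_coe_iff.1 (hk0 x hx)
        have h4 := hanti x (hKU hx) hk
        simp only at h4
        linarith)
      (by
        have := EReal.coe_le_coe_iff.1 (h1.trans (hge k 0 (hKU (by simp))))
        linarith)
    refine le_trans ?_ (ENNReal.ofReal_le_ofReal h2)
    rw [ofReal_integral_eq_lintegral_ofReal
      (((hce k).integrableOn_compact hK).mono_set hsub)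
      (Eventually.of_forall fun x => (Real.exp_pos _).le)]
    refine lintegral_mono fun x => ?_
    rw [ew_coe]
    exact ENNReal.ofReal_le_ofReal (Real.exp_le_exp.2 (by nlinarith))
  calc ∫⁻ x in ball 0 (1 / 16), EReal.exp (-((η : EReal) * u x)) ∂μ
      = ∫⁻ x in ball 0 (1 / 16),
          liminf (fun k => EReal.exp (-((η : EReal) * (φ k x : ℝ)))) atTop ∂μ :=
        setLIntegral_congr_fun measurableSet_ball fun x hx =>
          (((continuous_ew hη.ne').tendsto _).comp (hlim x (hKU (hsub hx)))).liminf_eq.symm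
    _ ≤ liminf (fun k => ∫⁻ x in ball 0 (1 / 16),
          EReal.exp (-((η : EReal) * (φ k x : ℝ))) ∂μ) atTop :=
        lintegral_liminf_le' fun k => ((continuous_ew hη.ne').comp_continuousOn
          (continuous_coe_real_ereal.comp_continuousOn ((hc k).mono hsub))).aemeasurable
            measurableSet_ball
    _ ≤ ENNReal.ofReal C :=
        liminf_le_of_frequently_le' ((eventually_ge_atTop k0).mono key).frequently

variable {E : Type*} [NormedAddCommGroup E] [NormedSpace ℂ E] [FiniteDimensional ℂ E]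
  [MeasurableSpace E] [BorelSpace E] (μ : Measure E) [μ.IsAddHaarMeasure]

theorem lint_aff {F : Type*} [NormedAddCommGroup F] [NormedSpace ℂ F] [FiniteDimensional ℂ F]
    [MeasurableSpace F] [BorelSpace F] (ν : Measure F) [ν.IsAddHaarMeasure] (L : F ≃L[ℂ] E)
    (b : E) : ∃ s : ℝ≥0, s ≠ 0 ∧ ∀ (w : E → ℝ≥0∞) (S : Set E),
    ∫⁻ y in (fun y => b + L y) ⁻¹' S, w (b + L y) ∂ν = s * ∫⁻ x in S, w x ∂μ := by
  have : ProperSpace E := FiniteDimensional.proper ℂ E
  set A : F ≃ₜ E := L.toHomeomorph.trans (Homeomorph.addLeft b) with hA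
  refine ⟨Measure.addHaarScalarFactor (ν.map L) μ,
    (Measure.addHaarScalarFactor_pos_of_isAddHaarMeasure _ _).ne', fun w S => ?_⟩
  have hs : Measure.map A ν = Measure.addHaarScalarFactor (ν.map L) μ • μ := by
    have e : (A : F → E) = (fun y => b + y) ∘ L := rfl
    rw [e, ← Measure.map_map (measurable_const_add b) L.continuous.measurable,
      map_add_left_eq_self]
    exact Measure.isAddLeftInvariant_eq_smul _ μ
  have e := A.measurableEmbedding.lintegral_map (μ := ν.restrict (A ⁻¹' S)) w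
  rw [← A.measurableEmbedding.restrict_map, hs, Measure.restrict_smul,
    lintegral_smul_measure] at e
  exact e.symm

theorem unitE : ∃ (θ η : ℝ) (C : ℝ≥0∞), 0 < θ ∧ θ ≤ 1 ∧ 0 < η ∧ C ≠ ⊤ ∧
    ∀ (D : Set E) (u : E → EReal), IsOpen D →
      IsPsh D u → closedBall 0 1 ⊆ D → (∀ x ∈ closedBall (0 : E) 1, u x ≤ (0 : ℝ)) →
      ((-1 : ℝ) : EReal) ≤ u 0 →
      ∫⁻ x in ball 0 θ, EReal.exp (-((η : EReal) * u x)) ∂μ ≤ C := by
  let e0 : V (Module.finrank ℂ E) ≃L[ℂ] E := ContinuousLinearEquiv.ofFinrankEq (by simp)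
  set a : ℝ := (‖(e0 : V (Module.finrank ℂ E) →L[ℂ] E)‖ + 1)⁻¹ with ha
  have ha0 : 0 < a := by positivity
  let e : V (Module.finrank ℂ E) ≃L[ℂ] E :=
    e0.trans (ContinuousLinearEquiv.smulLeft (R₁ := ℂ) (M₁ := E)
      (Units.mk0 (a : ℂ) (by exact_mod_cast ha0.ne')))
  have he : ∀ y, ‖e y‖ ≤ ‖y‖ := fun y => by
    have h1 : e y = (a : ℂ) • e0 y := rfl
    have h2 := (e0 : V (Module.finrank ℂ E) →L[ℂ] E).le_opNorm y
    rw [h1, norm_smul, Complex.norm_real, Real.norm_of_nonneg ha0.le, ha,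
      inv_mul_le_iff₀ (by positivity)]
    simp only [ContinuousLinearEquiv.coe_coe] at h2
    nlinarith [norm_nonneg y]
  set q : ℝ := ‖(e.symm : E →L[ℂ] V (Module.finrank ℂ E))‖ + 1 with hq
  have hq1 : 1 ≤ q := by rw [hq]; linarith [norm_nonneg (e.symm : E →L[ℂ] V (Module.finrank ℂ E))]
  obtain ⟨η, C, hη, hC, H⟩ := unitV (volume : Measure (V (Module.finrank ℂ E)))
  obtain ⟨s, hs, hS⟩ := lint_aff μ volume e 0
  have hs' : (s : ℝ≥0∞) ≠ 0 := by exact_mod_cast hs
  refine ⟨1 / 16 / q, η, C / s, by positivity, ?_, hη, ENNReal.div_ne_top hC hs',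
    fun D u hD hu hB h0 h1 => ?_⟩
  · rw [div_le_one (by positivity)]; linarith
  have hm : ∀ y ∈ closedBall (0 : V (Module.finrank ℂ E)) 1, (0 : E) + e y ∈ closedBall (0 : E) 1 :=
    fun y hy => by
      rw [zero_add, mem_closedBall_zero_iff]
      exact (he y).trans (mem_closedBall_zero_iff.1 hy)
  have h2 := H _ _ (hD.preimage (by fun_prop))
    (hu.comp_affine (e : V (Module.finrank ℂ E) →L[ℂ] E) 0) (fun y hy => hB (hm y hy))
    (fun y hy => h0 _ (hm y hy)) (by simpa using h1)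
  rw [ENNReal.le_div_iff_mul_le (Or.inl hs') (Or.inl ENNReal.coe_ne_top), mul_comm,
    ← hS (fun x => EReal.exp (-((η : EReal) * u x)))]
  refine le_trans (lintegral_mono_set fun y hy => ?_) h2
  rw [mem_preimage, zero_add, mem_ball_zero_iff, lt_div_iff₀ (by positivity)] at hy
  have h3 := (e.symm : E →L[ℂ] V (Module.finrank ℂ E)).le_opNorm (e y)
  simp only [ContinuousLinearEquiv.coe_coe, ContinuousLinearEquiv.symm_apply_apply] at h3
  rw [mem_ball_zero_iff]
  nlinarith [norm_nonneg (e y)]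

/-- **Hörmander–Skoda** -/
theorem skoda : ∃ (θ η : ℝ) (C : ℝ≥0∞), 0 < θ ∧ θ ≤ 1 ∧ 0 < η ∧ C ≠ ⊤ ∧
    ∀ (D : Set E) (u : E → EReal) (z : E) (r b c : ℝ), IsOpen D → IsPsh D u → 0 < r →
      closedBall z r ⊆ D → 0 < c → (∀ x ∈ closedBall z r, u x ≤ b) →
      ((b - c : ℝ) : EReal) ≤ u z →
      ∫⁻ x in ball z (θ * r), EReal.exp (-(((η / c : ℝ) : EReal) * u x)) ∂μ ≤
        C * μ (ball z r) * ENNReal.ofReal (Real.exp (-(η / c * b))) := by
  have : ProperSpace E := FiniteDimensional.proper ℂ E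
  obtain ⟨θ, η, C, hθ, hθ1, hη, hC, H⟩ := unitE μ
  have hm0 : μ (ball (0 : E) 1) ≠ 0 := (measure_ball_pos μ 0 one_pos).ne'
  refine ⟨θ, η, C / μ (ball 0 1), hθ, hθ1, hη, ENNReal.div_ne_top hC hm0,
    fun D u z r b c hD hu hr hB hc h0 h1 => ?_⟩
  let L : E ≃L[ℂ] E := ContinuousLinearEquiv.smulLeft (R₁ := ℂ) (M₁ := E)
    (Units.mk0 (r : ℂ) (by exact_mod_cast hr.ne'))
  have hL : ∀ y, ‖z + L y - z‖ = r * ‖y‖ := fun y => by
    have h1 : L y = (r : ℂ) • y := rfl
    rw [add_sub_cancel_left, h1, norm_smul, Complex.norm_real, Real.norm_of_nonneg hr.le]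
  have hpre : ∀ t : ℝ, (fun y => z + L y) ⁻¹' ball z (t * r) = ball 0 t := fun t => by
    ext y
    rw [mem_preimage, mem_ball_iff_norm, hL, mem_ball_zero_iff, mul_comm t,
      mul_lt_mul_iff_right₀ hr]
  have hm : ∀ y ∈ closedBall (0 : E) 1, z + L y ∈ closedBall z r := fun y hy => by
    rw [mem_closedBall_iff_norm, hL]
    exact mul_le_of_le_one_right hr.le (mem_closedBall_zero_iff.1 hy)
  obtain ⟨s, hs, hS⟩ := lint_aff μ μ L z
  have hs' : (s : ℝ≥0∞) ≠ 0 := by exact_mod_cast hs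
  have hv : IsPsh D fun x => ((c⁻¹ : ℝ) : EReal) * (u x + ((-b : ℝ) : EReal)) :=
    (hu.add_const (-b)).smul (inv_pos.2 hc).le
  have h2 := H _ _ (hD.preimage (by fun_prop)) (hv.comp_affine (L : E →L[ℂ] E) z)
    (fun y hy => hB (hm y hy))
    (fun y hy => by
      have := coe_mul_le (inv_pos.2 hc).le (add_le_coe (h0 _ (hm y hy)) (le_refl ((-b : ℝ) : EReal)))
      simpa using this)
    (by
      simp only [map_zero, add_zero]
      refine le_trans (le_of_eq ?_) (mul_le_mul_of_nonneg_left (add_le_add h1 le_rfl)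
        (EReal.coe_nonneg.2 (inv_pos.2 hc).le))
      rw [← EReal.coe_add, ← EReal.coe_mul]
      congr 1; field_simp; ring)
  have h3 := hS (fun x => EReal.exp (-((η : EReal) *
    (((c⁻¹ : ℝ) : EReal) * (u x + ((-b : ℝ) : EReal)))))) (ball z (θ * r))
  have h4 := hS (fun _ => 1) (ball z (1 * r))
  rw [hpre] at h3 h4
  simp only [lintegral_const, MeasurableSet.univ, Measure.restrict_apply, univ_inter, one_mul] at h4
  have h5 : ∫⁻ x in ball z (θ * r), EReal.exp (-((η : EReal) *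
      (((c⁻¹ : ℝ) : EReal) * (u x + ((-b : ℝ) : EReal))))) ∂μ ≤
        C / μ (ball 0 1) * μ (ball z r) := by
    rw [← ENNReal.mul_le_mul_iff_right hs' ENNReal.coe_ne_top, ← h3, mul_left_comm, ← h4,
      ENNReal.div_mul_cancel hm0 measure_ball_lt_top.ne]
    exact h2
  have hsub : ball z (θ * r) ⊆ D := ball_subset_closedBall.trans
    ((closedBall_subset_closedBall (mul_le_of_le_one_left hr.le hθ1)).trans hB)
  rw [setLIntegral_congr_fun measurableSet_ball fun x hx =>
    ew_aff hη hc b (hu.lt_top x (hsub hx)).ne, lintegral_const_mul' _ _ ENNReal.ofReal_ne_top,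
    mul_comm]
  exact mul_le_mul_left h5 _

/-- the lower bound holds at some point of the small ball -/
theorem skoda' : ∃ (θ η : ℝ) (C : ℝ≥0∞), 0 < θ ∧ θ ≤ 1 ∧ 0 < η ∧ C ≠ ⊤ ∧
    ∀ (D : Set E) (u : E → EReal) (z : E) (r b c : ℝ), IsOpen D → IsPsh D u → 0 < r →
      closedBall z r ⊆ D → 0 < c → (∀ x ∈ closedBall z r, u x ≤ b) →
      (∃ y ∈ closedBall z (θ * r), ((b - c : ℝ) : EReal) ≤ u y) →
      ∫⁻ x in closedBall z (θ * r), EReal.exp (-(((η / c : ℝ) : EReal) * u x)) ∂μ ≤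
        C * μ (ball z r) * ENNReal.ofReal (Real.exp (-(η / c * b))) := by
  obtain ⟨θ, η, C, hθ, hθ1, hη, hC, H⟩ := skoda μ
  refine ⟨θ / 8, η, C, by positivity, by linarith, hη, hC,
    fun D u z r b c hD hu hr hB hc h0 ⟨y, hy, h1⟩ => ?_⟩
  rw [mem_closedBall] at hy
  have h2 : θ * r ≤ r := mul_le_of_le_one_left hr.le hθ1
  have h3 : 0 < θ * r := mul_pos hθ hr
  have hsub : closedBall y (r / 2) ⊆ closedBall z r :=
    closedBall_subset_closedBall' (by linarith)
  refine le_trans (lintegral_mono_set ?_) ((H D u y (r / 2) b c hD hu (half_pos hr) (hsub.trans hB)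
    hc (fun x hx => h0 x (hsub hx)) h1).trans ?_)
  · exact closedBall_subset_ball' (by rw [dist_comm]; linarith)
  · gcongr
    exact ball_subset_ball' (by linarith)

/-- Chebyshev -/
theorem meas_lt_le {D S : Set E} {u : E → EReal} (hD : IsOpen D) (hu : IsPsh D u)
    (hS : MeasurableSet S) (hSD : S ⊆ D) {k : ℝ} (hk : 0 < k) (t : ℝ) :
    μ (S ∩ {x | u x ≤ t}) ≤ (∫⁻ x in S, EReal.exp (-((k : EReal) * u x)) ∂μ) *
      ENNReal.ofReal (Real.exp (k * t)) := by
  have h1 := mul_meas_ge_le_lintegral₀ (μ := μ.restrict S)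
    ((continuous_ew hk.ne').measurable.comp_aemeasurable (hu.aemeasurable hD μ hS hSD))
    (ENNReal.ofReal (Real.exp (-(k * t))))
  rw [Measure.restrict_apply' hS] at h1
  calc μ (S ∩ {x | u x ≤ t}) = ENNReal.ofReal (Real.exp (-(k * t))) * μ (S ∩ {x | u x ≤ t}) *
        ENNReal.ofReal (Real.exp (k * t)) := by
        rw [mul_right_comm, ← ENNReal.ofReal_mul (Real.exp_pos _).le, ← Real.exp_add]; simp
    _ ≤ _ := by
        refine mul_le_mul_left (le_trans (mul_le_mul_right (measure_mono fun x hx => ?_) _) h1) _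
        have := ew_anti hk.le (show (u x ≤ t) from hx.2)
        rw [ew_coe] at this
        exact ⟨this, hx.1⟩

/-- volume of sublevel sets -/
theorem vol_lt : ∃ (θ η : ℝ) (C : ℝ≥0∞), 0 < θ ∧ θ ≤ 1 ∧ 0 < η ∧ C ≠ ⊤ ∧
    ∀ (D : Set E) (u : E → EReal) (z : E) (r b c t : ℝ), IsOpen D → IsPsh D u → 0 < r →
      closedBall z r ⊆ D → 0 < c → (∀ x ∈ closedBall z r, u x ≤ b) →
      (∃ y ∈ closedBall z (θ * r), ((b - c : ℝ) : EReal) ≤ u y) →
      μ (closedBall z (θ * r) ∩ {x | u x ≤ (b - t : ℝ)}) ≤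
        C * μ (ball z r) * ENNReal.ofReal (Real.exp (-(η / c * t))) := by
  obtain ⟨θ, η, C, hθ, hθ1, hη, hC, H⟩ := skoda' μ
  refine ⟨θ, η, C, hθ, hθ1, hη, hC, fun D u z r b c t hD hu hr hB hc h0 h1 => ?_⟩
  refine (meas_lt_le μ hD hu measurableSet_closedBall
    ((closedBall_subset_closedBall (mul_le_of_le_one_left hr.le hθ1)).trans hB)
    (div_pos hη hc) _).trans ?_
  refine (mul_le_mul_left (H D u z r b c hD hu hr hB hc h0 h1) _).trans (le_of_eq ?_)
  rw [mul_assoc, ← ENNReal.ofReal_mul (Real.exp_pos _).le, ← Real.exp_add]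
  congr 3; ring

/-- at a point where `u` is finite all the weights `exp (-k u)` are integrable -/
theorem exists_nhds {D : Set E} {u : E → EReal} (hu : IsPsh D u) {x : E} (hD : D ∈ 𝓝 x)
    (hx : u x ≠ ⊥) {k : ℝ} (hk : 0 ≤ k) :
    ∃ W ∈ 𝓝 x, ∫⁻ y in W, EReal.exp (-((k : EReal) * u y)) ∂μ < ⊤ := by
  have : ProperSpace E := FiniteDimensional.proper ℂ E
  obtain ⟨θ, η, C, hθ, hθ1, hη, hC, H⟩ := skoda μ
  have hu' := hu.mono (interior_subset (s := D))
  have hx' : x ∈ interior D := mem_interior_iff_mem_nhds.2 hD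
  obtain ⟨a, ha⟩ : ∃ a : ℝ, u x = a := ⟨_, (EReal.coe_toReal (hu'.lt_top x hx').ne hx).symm⟩
  have hc : 0 < η / (k + 1) := by positivity
  have h1 := hu'.uscAt isOpen_interior hx' ((a + η / (k + 1) : ℝ) : EReal) (lt_coe_add ha.le hc)
  obtain ⟨r, hr, hB⟩ := nhds_basis_closedBall.mem_iff.1
    (inter_mem h1 (isOpen_interior.mem_nhds hx'))
  have h2 := H _ u x r (a + η / (k + 1)) (η / (k + 1)) isOpen_interior hu' hr
    (fun y hy => (hB hy).2) hc (fun y hy => le_of_lt (hB hy).1) (by rw [ha]; simp)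
  have e : η / (η / (k + 1)) = k + 1 := by field_simp
  rw [e] at h2
  refine ⟨ball x (θ * r), ball_mem_nhds _ (mul_pos hθ hr), ?_⟩
  refine (setLIntegral_mono' measurableSet_ball fun y hy => ew_le_of_le hk (k' := k + 1)
    (by linarith) (le_of_lt (hB (ball_subset_closedBall.trans (closedBall_subset_closedBall
      (mul_le_of_le_one_left hr.le hθ1)) hy)).1)).trans_lt ?_
  rw [lintegral_const_mul' _ _ ENNReal.ofReal_ne_top]
  exact ENNReal.mul_lt_top ENNReal.ofReal_lt_top (h2.trans_lt (ENNReal.mul_lt_top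
    (ENNReal.mul_lt_top hC.lt_top measure_ball_lt_top) ENNReal.ofReal_lt_top))

theorem exists_nhds_one {D : Set E} {u : E → EReal} (hu : IsPsh D u) {x : E} (hD : D ∈ 𝓝 x)
    (hx : u x ≠ ⊥) : ∃ W ∈ 𝓝 x, ∫⁻ y in W, EReal.exp (-u y) ∂μ < ⊤ := by
  simpa using exists_nhds μ hu hD hx zero_le_one

end Crest.Agent.X261.Psh.Sk
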