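import Crest.Agent.X261.Psh.Cvx
import Crest.Agent.X261.Ans.Cov
import Crest.Agent.X261.Ans.Cut

/-!
# Row 261, package PSH (helper78), file `Ext`

Removable sets.  `rext Z u x` is the `limsup` of `u` at `x` off `Z`.
* `PPol D Z` : locally pluripolar sets; analytic sets without interior are pluripolar;
* `isPsh_rext`, `isPsh_rext_sth`, `isPsh_rext_an` : psh functions off a relatively closed
  pluripolar (`σ`-thin, analytic) set which are locally bounded above extend;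
* `isPsh_of_off`, `isPsh_of_cont_off` ... : criteria for a given function.
-/

set_option autoImplicit false
set_option linter.dupNamespace false
set_option linter.unusedSectionVars false

open Set Filter Topology Metric MeasureTheory Module
open scoped ENNReal

noncomputable section

namespace Crest.Agent.X261.Psh

open Crest.Agent.R275.FL884 (DiscIn)
open Crest.Agent.R281.Thn_280 (STh)

section top

variable {X : Type*} [TopologicalSpace X] {Z Z' : Set X} {u u' : X → EReal} {x : X}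

/-- upper limit off `Z` -/
def rext (Z : Set X) (u : X → EReal) (x : X) : EReal := limsup u (𝓝[Zᶜ] x)

theorem rext_le {a : EReal} (h : ∀ᶠ y in 𝓝 x, y ∉ Z → u y ≤ a) : rext Z u x ≤ a :=
  limsup_le_of_le (by isBoundedDefault) (eventually_nhdsWithin_iff.2 h)

theorem ev_lt_of_rext_lt {a : EReal} (h : rext Z u x < a) : ∀ᶠ y in 𝓝 x, y ∉ Z → u y < a :=
  eventually_nhdsWithin_iff.1 (eventually_lt_of_limsup_lt h)

theorem usc_rext : UpperSemicontinuous (rext Z u) := by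
  intro x a ha
  obtain ⟨b, h1, h2⟩ := exists_between ha
  filter_upwards [(ev_lt_of_rext_lt h1).eventually_nhds] with y hy
  exact (rext_le (hy.mono fun z hz hzZ => (hz hzZ).le)).trans_lt h2

theorem le_rext (hx : x ∉ Z) : u x ≤ rext Z u x :=
  le_of_forall_gt_imp_ge_of_dense fun _ ha => ((ev_lt_of_rext_lt ha).self_of_nhds hx).le

theorem rext_le_of_usc (hu : UpperSemicontinuousAt u' x) (h : ∀ᶠ y in 𝓝 x, y ∉ Z → u y ≤ u' y) :
    rext Z u x ≤ u' x :=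
  le_of_forall_gt_imp_ge_of_dense fun a ha => rext_le (by
    filter_upwards [hu a ha, h] with y h1 h2 hy using (h2 hy).trans h1.le)

theorem rext_eq (hu : UpperSemicontinuousAt u x) (hx : x ∉ Z) : rext Z u x = u x :=
  le_antisymm (rext_le_of_usc hu (Eventually.of_forall fun _ _ => le_rfl)) (le_rext hx)

theorem rext_mono (h : ∀ᶠ y in 𝓝 x, y ∉ Z → y ∉ Z' ∧ u y ≤ u' y) : rext Z u x ≤ rext Z' u' x :=
  le_of_forall_gt_imp_ge_of_dense fun _ ha => rext_le (by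
    filter_upwards [ev_lt_of_rext_lt ha, h] with y h1 h2 hy using
      (h2 hy).2.trans (h1 (h2 hy).1).le)

theorem rext_lt_top {C : ℝ} (h : ∀ᶠ y in 𝓝 x, y ∉ Z → u y ≤ C) : rext Z u x < ⊤ :=
  (rext_le h).trans_lt (EReal.coe_lt_top C)

theorem le_rext_of_cont {g : X → EReal} (hg : LowerSemicontinuousAt g x)
    (hd : ∃ᶠ y in 𝓝 x, y ∉ Z) (h : ∀ᶠ y in 𝓝 x, y ∉ Z → g y ≤ u y) : g x ≤ rext Z u x := by
  by_contra hcon
  obtain ⟨b, h1, h2⟩ := exists_between (lt_of_not_ge hcon)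
  obtain ⟨y, h3, ⟨h4, h5⟩, h6⟩ :=
    (hd.and_eventually (((ev_lt_of_rext_lt h1).and h).and (hg b h2))).exists
  exact lt_irrefl _ (h6.trans ((h5 h3).trans_lt (h4 h3)))

end top

variable {E : Type*} [NormedAddCommGroup E] [NormedSpace ℂ E] [FiniteDimensional ℂ E]
  {D D' Z Z' : Set E} {u : E → EReal}

/-- a psh function is the upper limit of its values off a null set -/
theorem IsPsh.rext_eq_of_null [MeasurableSpace E] [BorelSpace E] (μ : Measure E)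
    [μ.IsAddHaarMeasure] (h : IsPsh D u) (hD : IsOpen D) (hZ : ∀ᵐ y ∂μ, y ∈ D → y ∉ Z) {x : E}
    (hx : x ∈ D) : rext Z u x = u x := by
  refine le_antisymm (rext_le_of_usc (h.uscAt hD hx) (Eventually.of_forall fun _ _ => le_rfl))
    (le_of_forall_gt_imp_ge_of_dense fun a ha => ?_)
  exact h.le_of_ae μ hD hx (g := fun _ => a) upperSemicontinuousAt_const
    (inter_mem (ev_lt_of_rext_lt ha) (hD.mem_nhds hx))
    (hZ.mono fun y hy hyV => (hyV.1 (hy hyV.2)).le)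

/-- locally pluripolar sets -/
def PPol (D Z : Set E) : Prop :=
  ∀ x ∈ D, ∃ (V : Set E) (v : E → EReal), IsOpen V ∧ x ∈ V ∧ IsPsh V v ∧ Dn V v ∧
    ∀ y ∈ V, y ∈ Z → v y = ⊥

theorem PPol.mono (h : PPol D Z) (hD : D' ⊆ D) (hZ : Z' ⊆ Z) : PPol D' Z' := fun x hx =>
  let ⟨V, v, h1, h2, h3, h4, h5⟩ := h x (hD hx)
  ⟨V, v, h1, h2, h3, h4, fun y hy hyZ => h5 y hy (hZ hyZ)⟩

theorem PPol.congr (h : PPol D Z) (hD : IsOpen D) (hZ : ∀ y ∈ D, y ∈ Z' → y ∈ Z) : PPol D Z' :=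
  fun x hx =>
    let ⟨V, v, h1, h2, h3, h4, h5⟩ := h x hx
    ⟨V ∩ D, v, h1.inter hD, ⟨h2, hx⟩, h3.mono inter_subset_left, h4.mono inter_subset_left,
      fun y hy hyZ => h5 y hy.1 (hZ y hy.2 hyZ)⟩

theorem PPol.union (h : PPol D Z) (h' : PPol D Z') : PPol D (Z ∪ Z') := fun x hx => by
  obtain ⟨V, v, h1, h2, h3, h4, h5⟩ := h x hx
  obtain ⟨V', v', h1', h2', h3', h4', h5'⟩ := h' x hx
  have a := h3.mono (inter_subset_left (t := V'))
  have b := h3'.mono (inter_subset_right (s := V))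
  refine ⟨V ∩ V', _, h1.inter h1', ⟨h2, h2'⟩, a.add b, Dn.add a b (h1.inter h1')
    (h4.mono inter_subset_left) (h4'.mono inter_subset_right), fun y hy hyZ => ?_⟩
  rcases hyZ with hyZ | hyZ
  · simp [h5 y hy.1 hyZ]
  · simp [h5' y hy.2 hyZ]

theorem ppol_bot (h : IsPsh D u) (hD : IsOpen D) (hd : Dn D u) : PPol D {y | u y = ⊥} :=
  fun _ hx => ⟨D, u, hD, hx, h, hd, fun _ _ hy => hy⟩

theorem ppol_zero {F : Type*} [NormedAddCommGroup F] [NormedSpace ℂ F] {f : E → F}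
    (hD : IsOpen D) (hf : DifferentiableOn ℂ f D) (h0 : ∀ x ∈ D, ∃ᶠ y in 𝓝 x, f y ≠ 0) :
    PPol D {y | f y = 0} := fun _ hx =>
  ⟨D, _, hD, hx, isPsh_log_norm hD hf, fun x hx => (h0 x hx).mono fun _ hy => by simpa using hy,
    fun _ _ hy => by simpa using hy⟩

theorem PPol.ae [MeasurableSpace E] [BorelSpace E] (μ : Measure E) [μ.IsAddHaarMeasure]
    (h : PPol D Z) : ∀ᵐ y ∂μ, y ∈ D → y ∉ Z := by
  have : ProperSpace E := FiniteDimensional.proper ℂ E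
  have h1 : μ (D ∩ Z) = 0 := measure_null_of_locally_null _ fun x hx => by
    obtain ⟨V, v, h1, h2, h3, h4, h5⟩ := h x hx.1
    refine ⟨V ∩ (D ∩ Z), inter_mem (mem_nhdsWithin_of_mem_nhds (h1.mem_nhds h2))
      self_mem_nhdsWithin, measure_mono_null ?_ (ae_iff.1 (h3.dn_ae μ h1 h4))⟩
    exact fun y hy hy' => hy' hy.1 (h5 y hy.1 hy.2.2)
  filter_upwards [compl_mem_ae_iff.2 h1] with y hy h2 h3 using hy ⟨h2, h3⟩

theorem PPol.freq (h : PPol D Z) {x : E} (hx : x ∈ D) : ∃ᶠ y in 𝓝 x, y ∉ Z := by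
  obtain ⟨V, v, h1, h2, -, h4, h5⟩ := h x hx
  exact ((h4 x h2).and_eventually (h1.mem_nhds h2)).mono fun y hy hyZ => hy.1 (h5 y hy.2 hyZ)

/-- **extension across a relatively closed pluripolar set** -/
theorem isPsh_rext (hD : IsOpen D) (hZ : PPol D Z) (ho : IsOpen (D \ Z)) (hu : IsPsh (D \ Z) u)
    (hb : ∀ x ∈ D, ∃ C : ℝ, ∀ᶠ y in 𝓝 x, y ∉ Z → u y ≤ C) : IsPsh D (rext Z u) := by
  classical
  have : ProperSpace E := FiniteDimensional.proper ℂ E
  borelize E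
  refine IsPsh.of_nhds fun x₀ hx₀ => ?_
  obtain ⟨V₀, v₀, g1, g2, g3, g4, g5⟩ := hZ x₀ hx₀
  obtain ⟨C, hC⟩ := hb x₀ hx₀
  obtain ⟨c, hc, -⟩ := EReal.lt_iff_exists_real_btwn.1 (g3.lt_top x₀ g2)
  obtain ⟨V, hV1, hV, hx⟩ := _root_.eventually_nhds_iff.1 ((hC.and (g3.uscAt g1 g2 _ hc)).and
    (inter_mem (g1.mem_nhds g2) (hD.mem_nhds hx₀)))
  refine ⟨V, hV.mem_nhds hx, ?_⟩
  set v : E → EReal := fun y => v₀ y + ((-c : ℝ) : EReal) with hv
  have hVV : V ⊆ V₀ := fun y hy => (hV1 y hy).2.1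
  have v1 : IsPsh V v := (g3.mono hVV).add_const _
  have v2 : ∀ y ∈ V, v y ≤ (0 : ℝ) := fun y hy => add_coe_le_iff.2 (by simpa using (hV1 y hy).1.2.le)
  have hO : IsOpen (V \ Z) := by
    have : V \ Z = V ∩ (D \ Z) := by
      ext y; exact ⟨fun h => ⟨h.1, (hV1 y h.1).2.2, h.2⟩, fun h => ⟨h.1, h.2.2⟩⟩
    rw [this]; exact hV.inter ho
  have hu' : IsPsh (V \ Z) u := hu.mono fun y hy => ⟨(hV1 y hy.1).2.2, hy.2⟩
  set e : ℕ → ℝ := fun k => 1 / ((k : ℝ) + 1) with he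
  have e0 : ∀ k, 0 < e k := fun k => by positivity
  set w : ℕ → E → EReal := fun k y => if y ∈ Z then ⊥ else u y + (e k : EReal) * v y with hw
  have w1 : ∀ k, IsPsh (V \ Z) (w k) := fun k =>
    (hu'.add ((v1.mono sdiff_subset).smul (e0 k).le)).congr fun y hy => by simp [hw, hy.2]
  have w2 : ∀ k, ∀ y ∈ V, y ∉ Z → w k y ≤ u y := fun k y hy hyZ => by
    simp only [hw, hyZ, if_false]
    simpa using add_le_add (le_refl (u y)) (coe_mul_le (e0 k).le (v2 y hy))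
  have w3 : ∀ k, ∀ y ∈ V, w k y ≤ C := fun k y hy => by
    by_cases hyZ : y ∈ Z
    · simp [hw, hyZ]
    · exact (w2 k y hy hyZ).trans ((hV1 y hy).1.1 hyZ)
  have w4 : ∀ k, IsPsh V (w k) := by
    intro k
    refine IsPsh.of_lsub (fun y hy a ha => ?_) (fun y hy => (w3 k y hy).trans_lt
      (EReal.coe_lt_top C)) fun y hy d => ?_
    · by_cases hyZ : y ∈ Z
      · obtain ⟨b, -, hb⟩ := EReal.lt_iff_exists_real_btwn.1 (bot_le.trans_lt ha)
        have h1 : v y < (((b - C) / e k : ℝ) : EReal) := by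
          simp only [hv, g5 y (hVV hy) hyZ, EReal.bot_add]; exact EReal.bot_lt_coe _
        filter_upwards [v1.usc y hy _ h1, self_mem_nhdsWithin] with z h2 hz
        by_cases hzZ : z ∈ Z
        · simpa [hw, hzZ] using bot_le.trans_lt hb
        · simp only [hw, hzZ, if_false]
          refine (add_le_coe ((hV1 z hz).1.1 hzZ) (coe_mul_le (e0 k).le h2.le)).trans_lt ?_
          rwa [mul_div_cancel₀ _ (e0 k).ne', add_sub_cancel]
      · exact nhdsWithin_le_nhds ((w1 k).uscAt hO ⟨hy, hyZ⟩ a ha)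
    · by_cases hyZ : y ∈ Z
      · exact Eventually.frequently (Eventually.of_forall fun _ _ _ _ => by simp [hw, hyZ])
      · exact (w1 k).sub.freq (hO.mem_nhds ⟨hy, hyZ⟩) d
  have hU : IsPsh V (rlim ⊤ w) := isPsh_rlim hV (Eventually.of_forall fun k => (w4 k).sub)
    fun y hy => rlim_lt_top (hV.mem_nhds hy) (Eventually.of_forall w3)
  have h1 : ∀ y ∈ V \ Z, u y ≤ rlim ⊤ w y := fun y hy => by
    refine hu'.le_of_ae_on Measure.addHaar hO (usc_rlim.upperSemicontinuousOn _) ?_ hy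
    filter_upwards [g3.dn_ae Measure.addHaar g1 g4] with z h2 hz
    have h3 : v z = ((v₀ z).toReal - c : ℝ) := by
      rw [sub_eq_add_neg, EReal.coe_add, EReal.coe_toReal (g3.lt_top z (hVV hz.1)).ne
        (h2 (hVV hz.1))]
    have h4 : ∀ k, u z + ((e k * ((v₀ z).toReal - c) : ℝ) : EReal) ≤ rlim ⊤ w z := fun k => by
      have := le_rlim_top (u := w) k z
      simp only [hw, hz.2, if_false, h3] at this
      rwa [EReal.coe_mul]
    have h5 : Tendsto (fun k => e k * ((v₀ z).toReal - c)) atTop (𝓝 0) := by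
      simpa [he] using tendsto_one_div_add_atTop_nhds_zero_nat.mul_const ((v₀ z).toReal - c)
    induction hz' : u z with
    | bot => exact bot_le
    | top => exact absurd (hu'.lt_top z hz) (by simp [hz'])
    | coe a =>
      have h6 := (continuous_coe_real_ereal.tendsto _).comp (h5.const_add a)
      rw [add_zero] at h6
      refine le_of_tendsto' h6 fun k => ?_
      simpa [hz'] using h4 k
  refine hU.congr fun y hy => le_antisymm (le_of_forall_gt_imp_ge_of_dense fun a ha => ?_) ?_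
  · refine rlim_le_of (inter_mem (ev_lt_of_rext_lt ha) (hV.mem_nhds hy))
      (Eventually.of_forall fun k z hz => ?_)
    by_cases hzZ : z ∈ Z
    · simp [hw, hzZ]
    · exact (w2 k z hz.2 hzZ).trans (hz.1 hzZ).le
  · refine rext_le_of_usc (usc_rlim y) ?_
    filter_upwards [hV.mem_nhds hy] with z hz hzZ using h1 z ⟨hz, hzZ⟩

theorem IsPsh.rext_eqOn (hu : IsPsh (D \ Z) u) (ho : IsOpen (D \ Z)) :
    EqOn (rext Z u) u (D \ Z) := fun _ hx => rext_eq (hu.uscAt ho hx) hx.2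

theorem bdd_of_usc (h1 : UpperSemicontinuousOn u D) (h2 : ∀ x ∈ D, u x < ⊤) (hD : IsOpen D)
    {x : E} (hx : x ∈ D) : ∃ C : ℝ, ∀ᶠ y in 𝓝 x, y ∉ Z → u y ≤ C := by
  obtain ⟨c, hc, -⟩ := EReal.lt_iff_exists_real_btwn.1 (h2 x hx)
  have := h1 x hx _ hc
  rw [hD.nhdsWithin_eq hx] at this
  exact ⟨c, this.mono fun _ hy _ => hy.le⟩

/-- from the extension to a given function -/
theorem isPsh_of_rext (hD : IsOpen D) (h : IsPsh D (rext Z u)) (h1 : UpperSemicontinuousOn u D)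
    (h3 : ∀ x ∈ D, x ∈ Z → u x ≤ rext Z u x) : IsPsh D u :=
  h.congr fun x hx => le_antisymm (rext_le_of_usc (fun a ha => by
    have := h1 x hx a ha
    rwa [hD.nhdsWithin_eq hx] at this)
    (Eventually.of_forall fun _ _ => le_rfl)) (by
      by_cases hxZ : x ∈ Z
      exacts [h3 x hx hxZ, le_rext hxZ])

theorem isPsh_of_off (hD : IsOpen D) (hZ : PPol D Z) (ho : IsOpen (D \ Z)) (hu : IsPsh (D \ Z) u)
    (h1 : UpperSemicontinuousOn u D) (h2 : ∀ x ∈ D, u x < ⊤)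
    (h3 : ∀ x ∈ D, x ∈ Z → u x ≤ rext Z u x) : IsPsh D u :=
  isPsh_of_rext hD (isPsh_rext hD hZ ho hu fun _ hx => bdd_of_usc h1 h2 hD hx) h1 h3

/-- continuous (in `EReal`) functions which are psh off a closed pluripolar set -/
theorem isPsh_of_cont_off (hD : IsOpen D) (hZ : PPol D Z) (ho : IsOpen (D \ Z))
    (hu : IsPsh (D \ Z) u) (h1 : ContinuousOn u D) (h2 : ∀ x ∈ D, u x < ⊤) : IsPsh D u :=
  isPsh_of_off hD hZ ho hu h1.upperSemicontinuousOn h2 fun _ hx _ =>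
    le_rext_of_cont (h1.continuousAt (hD.mem_nhds hx)).lowerSemicontinuousAt (hZ.freq hx)
      (Eventually.of_forall fun _ _ => le_rfl)

/-! ### `σ`-thin sets -/

theorem sth_baire {S B : Set E} (hS : STh S) (hB : IsLocallyClosed B) (hne : B.Nonempty)
    (hBS : B ⊆ S) : ∃ a ∈ B, ∃ (N : Set E) (g : E → ℂ), IsOpen N ∧ a ∈ N ∧
      AnalyticOnNhd ℂ g N ∧ (∀ b ∈ N, ∃ᶠ z in 𝓝 b, g z ≠ 0) ∧ ∀ z ∈ N, z ∈ B → g z = 0 := by
  have : ProperSpace E := FiniteDimensional.proper ℂ E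
  obtain ⟨U', g, h1, h2⟩ := hS
  have : LocallyCompactSpace B := hB.locallyCompactSpace
  have : Nonempty B := hne.to_subtype
  have hWo : ∀ j, IsOpen {z | z ∈ U' j ∧ fderiv ℂ (g j) z ≠ 0} := fun j =>
    (h1 j).2.fderiv.continuousOn.isOpen_inter_preimage (h1 j).1
      (isOpen_ne : IsOpen {w : E →L[ℂ] ℂ | w ≠ 0})
  choose Fk hFc hFW hFu hFm using fun j => (hWo j).exists_iUnion_isClosed
  obtain ⟨⟨j, k⟩, ⟨a, haB⟩, ha⟩ := nonempty_interior_of_iUnion_of_closed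
    (X := B) (ι := ℕ × ℕ) (f := fun p => {x : B | (x : E) ∈ Fk p.1 p.2 ∧ g p.1 x = 0})
    (fun p => (ContinuousOn.preimage_isClosed_of_isClosed (fun z hz =>
      ((h1 p.1).2 z (hFW p.1 p.2 hz).1).continuousAt.continuousWithinAt) (hFc p.1 p.2)
        isClosed_singleton).preimage continuous_subtype_val)
    (eq_univ_of_forall fun x => by
      obtain ⟨j, hj1, hj2, hj3⟩ := h2 x (hBS x.2)
      obtain ⟨k, hk⟩ := mem_iUnion.1 (show (x : E) ∈ ⋃ k, Fk j k by rw [hFu j]; exact ⟨hj1, hj3⟩)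
      exact mem_iUnion.2 ⟨(j, k), hk, hj2⟩)
  rw [mem_interior_iff_mem_nhds, nhds_subtype_eq_comap, mem_comap] at ha
  obtain ⟨N₀, hN₀, hN₀s⟩ := ha
  have haj := hN₀s (a := ⟨a, haB⟩) (show a ∈ N₀ from mem_of_mem_nhds hN₀)
  obtain ⟨N, hNs, hNo, haN⟩ := _root_.mem_nhds_iff.1
    (inter_mem hN₀ ((hWo j).mem_nhds (hFW j k haj.1)))
  refine ⟨a, haB, N, g j, hNo, haN, fun z hz => (h1 j).2 z (hNs hz).2.1, fun b hb hcon => ?_,
    fun z hz hzB => (hN₀s (a := ⟨z, hzB⟩) (hNs hz).1).2⟩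
  have h4 : g j =ᶠ[𝓝 b] fun _ => (0 : ℂ) := hcon.mono fun w hw => not_not.1 hw
  exact (hNs hb).2.2 (by rw [h4.fderiv_eq (𝕜 := ℂ)]; simp)

/-- **extension across a relatively closed `σ`-thin set** -/
theorem isPsh_rext_sth (hD : IsOpen D) (hZ : STh Z) (ho : IsOpen (D \ Z)) (hu : IsPsh (D \ Z) u)
    (hb : ∀ x ∈ D, ∃ C : ℝ, ∀ᶠ y in 𝓝 x, y ∉ Z → u y ≤ C) : IsPsh D (rext Z u) := by
  set G : Set E := {x | ∃ V ∈ 𝓝 x, IsPsh V (rext Z u)} with hG
  have hGo : IsOpen G := isOpen_iff_mem_nhds.2 fun x ⟨V, hV, h⟩ =>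
    mem_of_superset (eventually_mem_nhds_iff.2 hV) fun y hy => ⟨V, hy, h⟩
  refine IsPsh.of_nhds fun x hx => ?_
  by_contra hcon
  obtain ⟨a, ha, N, g, h1, h2, h3, h4, h5⟩ := sth_baire hZ
    (hD.isLocallyClosed.inter hGo.isClosed_compl.isLocallyClosed) ⟨x, hx, hcon⟩
    fun y hy => by_contra fun hyZ => hy.2 ⟨_, ho.mem_nhds ⟨hy.1, hyZ⟩,
      hu.congr (hu.rext_eqOn ho).symm⟩
  have hN : IsOpen (N ∩ D) := h1.inter hD
  refine ha.2 ⟨N ∩ D, hN.mem_nhds ⟨h2, ha.1⟩, isPsh_of_off (Z := Gᶜ) hN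
    ((ppol_zero hN (h3.differentiableOn.mono inter_subset_left) fun y hy => h4 y hy.1).congr hN
      fun y hy hyG => h5 y hy.1 ⟨hy.2, hyG⟩) (by rw [sdiff_compl]; exact hN.inter hGo)
    (IsPsh.of_nhds fun y hy => not_not.1 hy.2) (usc_rext.upperSemicontinuousOn _)
    (fun y hy => let ⟨_, hC⟩ := hb y hy.2; rext_lt_top hC) fun y hy _ => rext_mono ?_⟩
  filter_upwards [hD.mem_nhds hy.2] with z hz hzZ
  exact ⟨not_not.2 ⟨_, ho.mem_nhds ⟨hz, hzZ⟩, hu.congr (hu.rext_eqOn ho).symm⟩, le_rext hzZ⟩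

theorem isPsh_of_off_sth (hD : IsOpen D) (hZ : STh Z) (ho : IsOpen (D \ Z))
    (hu : IsPsh (D \ Z) u) (h1 : UpperSemicontinuousOn u D) (h2 : ∀ x ∈ D, u x < ⊤)
    (h3 : ∀ x ∈ D, x ∈ Z → u x ≤ rext Z u x) : IsPsh D u :=
  isPsh_of_rext hD (isPsh_rext_sth hD hZ ho hu fun _ hx => bdd_of_usc h1 h2 hD hx) h1 h3

theorem isPsh_of_cont_off_sth (hD : IsOpen D) (hZ : STh Z) (ho : IsOpen (D \ Z))
    (hu : IsPsh (D \ Z) u) (h1 : ContinuousOn u D) (h2 : ∀ x ∈ D, u x < ⊤) : IsPsh D u := by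
  borelize E
  exact isPsh_of_off_sth hD hZ ho hu h1.upperSemicontinuousOn h2 fun x hx _ =>
    le_rext_of_cont (h1.continuousAt (hD.mem_nhds hx)).lowerSemicontinuousAt
      (mem_closure_iff_frequently.1 (hZ.dense_compl x)) (Eventually.of_forall fun _ _ => le_rfl)

/-- upper bounds from discs (sets of codimension two) -/
theorem IsPsh.bdd_of_discs (hu : IsPsh D u) {C N : Set E} (hC : IsCompact C) (hCD : C ⊆ D)
    (h : ∀ z ∈ N, ∃ v : E, DiscIn D z v ∧ ∀ t : ℂ, ‖t‖ = 1 → z + t • v ∈ C) :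
    ∃ M : ℝ, ∀ z ∈ N, u z ≤ M := by
  obtain ⟨M, hM⟩ := hu.bdd hC hCD
  refine ⟨M, fun z hz => ?_⟩
  obtain ⟨v, h1, h2⟩ := h z hz
  exact hu.sub.le_const h1 fun w hw => hM _ (h2 w hw)

section an

variable {E : Type} [NormedAddCommGroup E] [NormedSpace ℂ E] [FiniteDimensional ℂ E]
  {D Z : Set E} {u : E → EReal}

/-- analytic sets without interior points are pluripolar -/
theorem ppol_an (h : Ans.An D Z) (hd : ∀ x ∈ D, ∃ᶠ y in 𝓝 x, y ∉ Z) : PPol D Z := by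
  intro x hx
  obtain ⟨r, hr, -, hc⟩ := (h x hx).exists_ball univ_mem
  obtain ⟨y, hyZ, hy⟩ := ((hd x hx).and_eventually (ball_mem_nhds x hr)).exists
  obtain ⟨f, hf, hf0⟩ := hc y hy hyZ
  have h1 := isPsh_log_norm isOpen_ball hf.1.differentiableOn
  exact ⟨_, _, isOpen_ball, mem_ball_self hr, h1, h1.dn_of_conn isOpen_ball
    (convex_ball x r).isPreconnected ⟨y, hy, by simpa using hf0⟩,
    fun z hz hzZ => by simp [hf.2 z hz hzZ]⟩

theorem isOpen_diff_an (hD : IsOpen D) (h : Ans.An D Z) : IsOpen (D \ Z) := by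
  refine isOpen_iff_mem_nhds.2 fun x hx => inter_mem (hD.mem_nhds hx.1) ?_
  obtain ⟨W, h1, h2, h3⟩ := h x hx.1
  by_contra hcon
  exact hx.2 (h3.mem_of_closure (h1.mem_nhds h2) (mem_closure_iff_frequently.2 hcon))

/-- **extension across an analytic set** -/
theorem isPsh_rext_an (hD : IsOpen D) (h : Ans.An D Z) (hd : ∀ x ∈ D, ∃ᶠ y in 𝓝 x, y ∉ Z)
    (hu : IsPsh (D \ Z) u) (hb : ∀ x ∈ D, ∃ C : ℝ, ∀ᶠ y in 𝓝 x, y ∉ Z → u y ≤ C) :
    IsPsh D (rext Z u) := isPsh_rext hD (ppol_an h hd) (isOpen_diff_an hD h) hu hb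

theorem isPsh_rext_cov (hD : IsOpen D) (hZ : Ans.Cov (finrank ℂ E) Z) (ho : IsOpen (D \ Z))
    (hu : IsPsh (D \ Z) u) (hb : ∀ x ∈ D, ∃ C : ℝ, ∀ᶠ y in 𝓝 x, y ∉ Z → u y ≤ C) :
    IsPsh D (rext Z u) := isPsh_rext_sth hD (Ans.cov_iff_sth.1 hZ) ho hu hb

end an

end Crest.Agent.X261.Psh
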