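import Crest.Agent.X261.Psh.Int
import Crest.Agent.R275.FLc_606

/-!
# Row 261, package PSH (helper78), file `Reg`

Regularisation by convolution with a rotation invariant kernel (`FL606.Ker`).
* `rg μ κ u z ζ : EReal` jointly psh in `(z, ζ)`, increasing in `‖ζ‖`, `→ u z`;
* `cv μ κ ε f z : ℝ` the real convolution, smooth; `rg = cv` when `{u > -∞}` is dense;
* `IsPsh.exists_smooth` : smooth psh functions decreasing to `u` near a compact set.
-/

set_option autoImplicit false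
set_option linter.dupNamespace false
set_option linter.unusedSectionVars false

open Set Filter Topology Metric MeasureTheory
open scoped ENNReal ContDiff

noncomputable section

namespace Crest.Agent.X261.Psh

open Crest.Agent.R275.FL884 (DiscIn measurePreserving_rot)
open Crest.Agent.R275.FL606 (Ker)

variable {E : Type*} [NormedAddCommGroup E] [NormedSpace ℂ E] [FiniteDimensional ℂ E]

/-- the `ε`-interior -/
def inn (D : Set E) (ε : ℝ) : Set E := {z | closedBall z ε ⊆ D}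

theorem exists_cball_add {D : Set E} (hD : IsOpen D) {z : E} {r : ℝ} (hr : 0 ≤ r)
    (h : closedBall z r ⊆ D) : ∃ δ > 0, closedBall z (r + δ) ⊆ D := by
  obtain ⟨δ, hδ, h1⟩ := (isCompact_closedBall z r).exists_cthickening_subset_open hD h
  rw [cthickening_closedBall hδ.le hr, add_comm] at h1
  exact ⟨δ, hδ, h1⟩

theorem isOpen_innW {D : Set E} (hD : IsOpen D) :
    IsOpen {p : E × ℂ | closedBall p.1 ‖p.2‖ ⊆ D} := by
  refine Metric.isOpen_iff.2 fun p hp => ?_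
  obtain ⟨δ, hδ, h1⟩ := exists_cball_add hD (norm_nonneg _) hp
  refine ⟨δ / 2, half_pos hδ, fun q hq => Subset.trans (closedBall_subset_closedBall' ?_) h1⟩
  rw [mem_ball, Prod.dist_eq, max_lt_iff] at hq
  have := norm_sub_norm_le q.2 p.2
  rw [← dist_eq_norm] at this
  linarith [hq.1, hq.2]

theorem isOpen_inn {D : Set E} (hD : IsOpen D) {ε : ℝ} (hε : 0 ≤ ε) : IsOpen (inn D ε) := by
  have := (isOpen_innW hD).preimage (f := fun z : E => (z, (ε : ℂ))) (by fun_prop)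
  simpa [inn, preimage, abs_of_nonneg hε] using this

theorem inn_subset {D : Set E} {ε : ℝ} (hε : 0 ≤ ε) : inn D ε ⊆ D := fun _ hz =>
  hz (mem_closedBall_self hε)

theorem inn_anti {D : Set E} {ε ε' : ℝ} (h : ε ≤ ε') : inn D ε' ⊆ inn D ε := fun _ hz =>
  (closedBall_subset_closedBall h).trans hz

theorem exists_inn {D K : Set E} (hD : IsOpen D) (hK : IsCompact K) (hKD : K ⊆ D) :
    ∃ ε > 0, K ⊆ inn D ε := by
  obtain ⟨δ, hδ, h1⟩ := hK.exists_cthickening_subset_open hD hKD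
  exact ⟨δ, hδ, fun z hz => (closedBall_subset_cthickening hz δ).trans h1⟩

theorem mem_cball {z v : E} {ζ : ℂ} (hv : ‖v‖ < 1) : z + ζ • v ∈ closedBall z ‖ζ‖ := by
  rw [mem_closedBall, dist_eq_norm, add_sub_cancel_left, norm_smul]
  exact mul_le_of_le_one_right (norm_nonneg _) hv.le

theorem mem_ball_eps {z v : E} {ε : ℝ} (hε : 0 < ε) (hv : ‖v‖ < 1) :
    z + (ε : ℂ) • v ∈ ball z ε := by
  rw [mem_ball, dist_eq_norm, add_sub_cancel_left, norm_smul, Complex.norm_real,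
    Real.norm_of_nonneg hε.le]
  exact mul_lt_of_lt_one_right hε hv

variable [MeasurableSpace E] [BorelSpace E] (μ : Measure E) [μ.IsAddHaarMeasure] {κ : E → ℝ}

/-- the probability measure `κ μ` -/
def km (κ : E → ℝ) : Measure E := μ.withDensity fun v => ENNReal.ofReal (κ v)

/-- regularisation, `EReal` valued, complex radius -/
def rg (κ : E → ℝ) (u : E → EReal) (z : E) (ζ : ℂ) : EReal := eint (km μ κ) fun v => u (z + ζ • v)

/-- convolution of a real function -/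
def cv (κ : E → ℝ) (ε : ℝ) (f : E → ℝ) (z : E) : ℝ := ∫ v, κ v * f (z + (ε : ℂ) • v) ∂μ

variable {μ}

theorem km_prob (hκ : Ker μ κ) : IsProbabilityMeasure (km μ κ) := ⟨by
  rw [km, withDensity_apply _ MeasurableSet.univ, Measure.restrict_univ,
    ← ofReal_integral_eq_lintegral_ofReal (hκ.integrable μ) (Eventually.of_forall hκ.nonneg),
    hκ.int, ENNReal.ofReal_one]⟩

theorem lt_one_of_ne (hκ : Ker μ κ) {v : E} (hv : κ v ≠ 0) : ‖v‖ < 1 :=
  lt_of_not_ge fun h => hv (hκ.supp v h)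

theorem km_ae (hκ : Ker μ κ) {p : E → Prop} (h : ∀ᵐ v ∂μ, ‖v‖ < 1 → p v) : ∀ᵐ v ∂km μ κ, p v :=
  (ae_withDensity_iff hκ.cont.measurable.ennreal_ofReal).2
    (h.mono fun v hv h0 => hv (lt_one_of_ne hκ fun h1 => h0 (by simp [h1])))

theorem km_ae' (hκ : Ker μ κ) {p : E → Prop} (h : ∀ v, ‖v‖ < 1 → p v) : ∀ᵐ v ∂km μ κ, p v :=
  km_ae hκ (Eventually.of_forall h)

theorem ae_scale {p : E → Prop} (h : ∀ᵐ y ∂μ, p y) (z : E) {ε : ℝ} (hε : ε ≠ 0) :
    ∀ᵐ v ∂μ, p (z + (ε : ℂ) • v) := by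
  have h1 := ((measurePreserving_add_left μ z).quasiMeasurePreserving.comp
    (Measure.quasiMeasurePreserving_smul μ hε)).ae h
  simpa only [Function.comp_apply, Complex.coe_smul] using h1

theorem ae_scale_ball {p : E → Prop} {z : E} {ε : ℝ} (hε : 0 < ε)
    (h : ∀ᵐ y ∂μ, y ∈ ball z ε → p y) : ∀ᵐ v ∂μ, ‖v‖ < 1 → p (z + (ε : ℂ) • v) :=
  (ae_scale h z hε.ne').mono fun _ hv h1 => hv (mem_ball_eps hε h1)

theorem km_rot (hκ : Ker μ κ) {c : ℂ} (hc : ‖c‖ = 1) (F : E → ℝ≥0∞) :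
    ∫⁻ v, F (c • v) ∂km μ κ = ∫⁻ v, F v ∂km μ κ := by
  have hc0 : c ≠ 0 := norm_ne_zero_iff.1 (by rw [hc]; exact one_ne_zero)
  have hm := hκ.cont.measurable.ennreal_ofReal
  have hf : ∀ᵐ v ∂μ, ENNReal.ofReal (κ v) < ⊤ := Eventually.of_forall fun _ => ENNReal.ofReal_lt_top
  rw [km, lintegral_withDensity_eq_lintegral_mul_non_measurable μ hm hf,
    lintegral_withDensity_eq_lintegral_mul_non_measurable μ hm hf,
    ← (measurePreserving_rot μ c hc).lintegral_comp_emb (measurableEmbedding_const_smul₀ hc0)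
      ((fun v => ENNReal.ofReal (κ v)) * fun v => F v)]
  simp only [Pi.mul_apply, hκ.rot c _ hc]

variable {D : Set E} {u u' : E → EReal}

theorem rg_mono_ae (hκ : Ker μ κ) {z : E} {ε : ℝ} (hε : 0 < ε)
    (h : ∀ᵐ y ∂μ, y ∈ ball z ε → u y ≤ u' y) : rg μ κ u z ε ≤ rg μ κ u' z ε :=
  eint_mono (km_ae hκ (ae_scale_ball hε h))

theorem rg_mono (hκ : Ker μ κ) {z : E} {ζ : ℂ} (h : ∀ y ∈ closedBall z ‖ζ‖, u y ≤ u' y) :
    rg μ κ u z ζ ≤ rg μ κ u' z ζ := eint_mono (km_ae' hκ fun _ hv => h _ (mem_cball hv))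

theorem rg_congr (hκ : Ker μ κ) {z : E} {ζ : ℂ} (h : EqOn u u' (closedBall z ‖ζ‖)) :
    rg μ κ u z ζ = rg μ κ u' z ζ := eint_congr (km_ae' hκ fun _ hv => h (mem_cball hv))

theorem rg_le (hκ : Ker μ κ) {z : E} {ζ : ℂ} {a : EReal} (h : ∀ y ∈ closedBall z ‖ζ‖, u y ≤ a) :
    rg μ κ u z ζ ≤ a :=
  haveI := km_prob hκ
  eint_le (km_ae' hκ fun _ hv => h _ (mem_cball hv))

theorem rg_zero (hκ : Ker μ κ) (u : E → EReal) (z : E) : rg μ κ u z 0 = u z := by
  have := km_prob hκ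
  simp only [rg, zero_smul, add_zero, eint_const]

theorem rg_rot (hκ : Ker μ κ) (u : E → EReal) (z : E) (ζ : ℂ) {c : ℂ} (hc : ‖c‖ = 1) :
    rg μ κ u z (c * ζ) = rg μ κ u z ζ := by
  have e : ∀ v : E, z + (c * ζ) • v = z + ζ • c • v := fun v => by rw [mul_comm, mul_smul]
  simp only [rg, eint, e]
  rw [km_rot hκ hc fun v => (u (z + ζ • v)).toENNReal,
    km_rot hκ hc fun v => (-u (z + ζ • v)).toENNReal]

/-- joint plurisubharmonicity in the point and the radius -/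
theorem IsPsh.rg (h : IsPsh D u) (hD : IsOpen D) (hκ : Ker μ κ) :
    IsPsh {p : E × ℂ | closedBall p.1 ‖p.2‖ ⊆ D} fun p => Psh.rg μ κ u p.1 p.2 := by
  have := km_prob hκ
  obtain ⟨u', hm, he⟩ := exists_meas hD h.usc
  have h' := h.congr he
  suffices key : IsPsh {p : E × ℂ | closedBall p.1 ‖p.2‖ ⊆ D} fun p => Psh.rg μ κ u' p.1 p.2 from
    key.congr fun p hp => rg_congr hκ fun y hy => (he (hp hy)).symm
  refine isPsh_eint (km μ κ) (U := fun v (p : E × ℂ) => u' (p.1 + p.2 • v)) (isOpen_innW hD)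
    (hm.comp (Continuous.measurable (by fun_prop))) (km_ae' hκ fun v hv => ?_) fun p hp => ?_
  · exact (h'.comp_clm (ContinuousLinearMap.fst ℂ E ℂ +
      (ContinuousLinearMap.snd ℂ E ℂ).smulRight v)).mono fun p hp => hp (mem_cball hv)
  · obtain ⟨δ, hδ, h1⟩ := exists_cball_add hD (norm_nonneg _) hp
    obtain ⟨C, hC⟩ := h'.bdd (isCompact_closedBall _ _) h1
    refine ⟨ball p (δ / 2), ball_mem_nhds _ (half_pos hδ), C, km_ae' hκ fun v hv q hq =>
      hC _ (closedBall_subset_closedBall' ?_ (mem_cball hv))⟩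
    rw [mem_ball, Prod.dist_eq, max_lt_iff] at hq
    have := norm_sub_norm_le q.2 p.2
    rw [← dist_eq_norm] at this
    linarith [hq.1, hq.2]

theorem IsPsh.rg_inn (h : IsPsh D u) (hD : IsOpen D) (hκ : Ker μ κ) {ε : ℝ} (hε : 0 ≤ ε) :
    IsPsh (inn D ε) fun z => Psh.rg μ κ u z ε :=
  ((h.rg hD hκ).slice_left (ε : ℂ)).mono fun z hz => by
    simpa [inn, abs_of_nonneg hε] using hz

theorem IsPsh.rg_mono_radius (h : IsPsh D u) (hD : IsOpen D) (hκ : Ker μ κ) {z : E} {ζ ζ' : ℂ}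
    (hz : closedBall z ‖ζ'‖ ⊆ D) (hζ : ‖ζ‖ ≤ ‖ζ'‖) : Psh.rg μ κ u z ζ ≤ Psh.rg μ κ u z ζ' := by
  rcases eq_or_ne ζ' 0 with rfl | h0
  · rw [norm_zero, norm_le_zero_iff] at hζ; rw [hζ]
  refine le_of_forall_gt_imp_ge_of_dense fun b hb => ?_
  obtain ⟨a, h1, h2⟩ := EReal.lt_iff_exists_real_btwn.1 hb
  have hd : DiscIn {ζ : ℂ | closedBall z ‖ζ‖ ⊆ D} 0 ζ' := fun w hw =>
    Subset.trans (closedBall_subset_closedBall (by
      rw [zero_add, norm_smul]; exact mul_le_of_le_one_left (norm_nonneg _) hw)) hz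
  have := ((h.rg hD hκ).slice_right z).le_re_disc hd (F := fun _ => (a : ℂ))
    (differentiable_const _) (fun w hw => by
      simp only [zero_add, smul_eq_mul, rg_rot hκ u z ζ' hw]; exact h1.le) (w := ζ / ζ')
    (by rw [norm_div]; exact div_le_one_of_le₀ hζ (norm_nonneg _))
  simp only [zero_add, smul_eq_mul, div_mul_cancel₀ _ h0] at this
  exact this.trans h2.le

theorem IsPsh.rg_mono_eps (h : IsPsh D u) (hD : IsOpen D) (hκ : Ker μ κ) {z : E} {ε ε' : ℝ}
    (hε : 0 ≤ ε) (hεε : ε ≤ ε') (hz : z ∈ inn D ε') : Psh.rg μ κ u z ε ≤ Psh.rg μ κ u z ε' :=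
  h.rg_mono_radius hD hκ (by simpa [inn, abs_of_nonneg (hε.trans hεε)] using hz)
    (by simpa [abs_of_nonneg hε, abs_of_nonneg (hε.trans hεε)] using hεε)

theorem IsPsh.le_rg (h : IsPsh D u) (hD : IsOpen D) (hκ : Ker μ κ) {z : E} {ε : ℝ} (hε : 0 ≤ ε)
    (hz : z ∈ inn D ε) : u z ≤ Psh.rg μ κ u z ε := by
  simpa [rg_zero hκ] using h.rg_mono_eps hD hκ le_rfl hε hz

theorem ev_rg_lt (hκ : Ker μ κ) {z : E} (hu : UpperSemicontinuousAt u z) {a : EReal}
    (ha : u z < a) : ∀ᶠ ε : ℝ in 𝓝 0, rg μ κ u z ε < a := by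
  obtain ⟨b, h1, h2⟩ := exists_between ha
  obtain ⟨r, hr, hb⟩ := nhds_basis_closedBall.mem_iff.1 (hu b h1)
  filter_upwards [closedBall_mem_nhds (0 : ℝ) hr] with ε hε
  refine lt_of_le_of_lt (rg_le hκ fun y hy => le_of_lt (hb (closedBall_subset_closedBall ?_ hy))) h2
  simpa using hε

theorem ev_inn (hD : IsOpen D) {z : E} (hz : z ∈ D) : ∀ᶠ ε : ℝ in 𝓝 0, z ∈ inn D ε := by
  obtain ⟨r, hr, hb⟩ := exists_cball hD hz
  filter_upwards [ge_mem_nhds hr] with ε hε
  exact inn_anti hε hb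

theorem IsPsh.tendsto_rg (h : IsPsh D u) (hD : IsOpen D) (hκ : Ker μ κ) {z : E} (hz : z ∈ D) :
    Tendsto (fun ε : ℝ => Psh.rg μ κ u z ε) (𝓝[≥] 0) (𝓝 (u z)) := by
  refine tendsto_order.2 ⟨fun a ha => ?_, fun a ha =>
    nhdsWithin_le_nhds (ev_rg_lt hκ (h.uscAt hD hz) ha)⟩
  filter_upwards [nhdsWithin_le_nhds (ev_inn hD hz), self_mem_nhdsWithin] with ε h1 h2
  exact ha.trans_le (h.le_rg hD hκ h2 h1)

/-! ### the real convolution -/

variable {f f' : E → ℝ} {z : E} {ε : ℝ}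

theorem cv_congr_ae (hκ : Ker μ κ) (hε : 0 < ε) (h : ∀ᵐ y ∂μ, y ∈ ball z ε → f y = f' y) :
    cv μ κ ε f z = cv μ κ ε f' z := by
  refine integral_congr_ae ((ae_scale_ball hε h).mono fun v hv => ?_)
  by_cases h0 : κ v = 0
  · simp [h0]
  · simp only [hv (lt_one_of_ne hκ h0)]

theorem cv_congr (hκ : Ker μ κ) (hε : 0 < ε) (h : EqOn f f' (ball z ε)) :
    cv μ κ ε f z = cv μ κ ε f' z := cv_congr_ae hκ hε (Eventually.of_forall h)

theorem integrable_scale (hf : Integrable f μ) (z : E) (hε : ε ≠ 0) :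
    Integrable (fun v => f (z + (ε : ℂ) • v)) μ := by
  simpa only [Complex.coe_smul] using (hf.comp_add_left z).comp_smul hε

theorem integrable_cv (hκ : Ker μ κ) (hε : 0 < ε) (hf : IntegrableOn f (ball z ε) μ) :
    Integrable (fun v => κ v * f (z + (ε : ℂ) • v)) μ := by
  obtain ⟨K, -, hK⟩ := hκ.exists_bound μ
  have h1 := (integrable_scale ((integrable_indicator_iff measurableSet_ball).2 hf) z
    hε.ne').bdd_mul hκ.cont.aestronglyMeasurable (c := K)
    (Eventually.of_forall fun v => by rw [Real.norm_of_nonneg (hκ.nonneg v)]; exact hK v)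
  refine h1.congr (Eventually.of_forall fun v => ?_)
  by_cases h0 : κ v = 0
  · simp [h0]
  · simp only [indicator_of_mem (mem_ball_eps hε (lt_one_of_ne hκ h0))]

theorem cv_add (hκ : Ker μ κ) (hε : 0 < ε) (hf : IntegrableOn f (ball z ε) μ)
    (hf' : IntegrableOn f' (ball z ε) μ) :
    cv μ κ ε (fun y => f y + f' y) z = cv μ κ ε f z + cv μ κ ε f' z := by
  simp only [cv, mul_add]
  exact integral_add (integrable_cv hκ hε hf) (integrable_cv hκ hε hf')

theorem cv_sub (hκ : Ker μ κ) (hε : 0 < ε) (hf : IntegrableOn f (ball z ε) μ)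
    (hf' : IntegrableOn f' (ball z ε) μ) :
    cv μ κ ε (fun y => f y - f' y) z = cv μ κ ε f z - cv μ κ ε f' z := by
  simp only [cv, mul_sub]
  exact integral_sub (integrable_cv hκ hε hf) (integrable_cv hκ hε hf')

theorem cv_const_mul (c : ℝ) : cv μ κ ε (fun y => c * f y) z = c * cv μ κ ε f z := by
  simp only [cv, mul_left_comm (κ _) c]
  exact integral_const_mul _ _

theorem cv_const (hκ : Ker μ κ) (c : ℝ) : cv μ κ ε (fun _ => c) z = c := by
  simp only [cv]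
  rw [integral_mul_const, hκ.int, one_mul]

theorem cv_mono_ae (hκ : Ker μ κ) (hε : 0 < ε) (hf : IntegrableOn f (ball z ε) μ)
    (hf' : IntegrableOn f' (ball z ε) μ) (h : ∀ᵐ y ∂μ, y ∈ ball z ε → f y ≤ f' y) :
    cv μ κ ε f z ≤ cv μ κ ε f' z := by
  refine integral_mono_ae (integrable_cv hκ hε hf) (integrable_cv hκ hε hf')
    ((ae_scale_ball hε h).mono fun v hv => ?_)
  by_cases h0 : κ v = 0
  · simp [h0]
  · exact mul_le_mul_of_nonneg_left (hv (lt_one_of_ne hκ h0)) (hκ.nonneg v)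

theorem rg_coe (hκ : Ker μ κ) (hε : 0 < ε) (hf : IntegrableOn f (ball z ε) μ) :
    rg μ κ (fun y => (f y : EReal)) z ε = cv μ κ ε f z := by
  have hm := hκ.cont.measurable.ennreal_ofReal
  have hlt : ∀ᵐ v ∂μ, ENNReal.ofReal (κ v) < ⊤ :=
    Eventually.of_forall fun _ => ENNReal.ofReal_lt_top
  have e : ∀ v, (ENNReal.ofReal (κ v)).toReal • f (z + (ε : ℂ) • v) = κ v * f (z + (ε : ℂ) • v) :=
    fun v => by rw [ENNReal.toReal_ofReal (hκ.nonneg v), smul_eq_mul]
  have hi : Integrable (fun v => f (z + (ε : ℂ) • v)) (km μ κ) := by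
    rw [km, integrable_withDensity_iff_integrable_smul' hm hlt]
    simpa only [e] using integrable_cv hκ hε hf
  rw [rg, eint_coe hi, km, integral_withDensity_eq_integral_toReal_smul hm hlt]
  simp only [e, cv]

/-- for `u` psh with `{u > -∞}` dense the regularisation is the real convolution -/
theorem IsPsh.rg_eq_cv (h : IsPsh D u) (hD : IsOpen D) (hd : Dn D u) (hκ : Ker μ κ) (hε : 0 < ε)
    (hz : z ∈ inn D ε) : Psh.rg μ κ u z ε = cv μ κ ε (fun y => (u y).toReal) z := by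
  have hae : ∀ᵐ y ∂μ, y ∈ ball z ε → u y = ((u y).toReal : EReal) :=
    (h.dn_ae μ hD hd).mono fun y hy hyb => by
      have hyD := hz (ball_subset_closedBall hyb)
      exact (EReal.coe_toReal (h.lt_top y hyD).ne (hy hyD)).symm
  rw [← rg_coe hκ hε ((h.dn_integrableOn μ hD hd (isCompact_closedBall z ε) hz).mono_set
    ball_subset_closedBall)]
  exact le_antisymm (rg_mono_ae hκ hε (hae.mono fun y hy hyb => (hy hyb).le))
    (rg_mono_ae hκ hε (hae.mono fun y hy hyb => (hy hyb).ge))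

theorem IsPsh.cv (h : IsPsh D u) (hD : IsOpen D) (hd : Dn D u) (hκ : Ker μ κ) (hε : 0 < ε) :
    IsPsh (inn D ε) fun z => (cv μ κ ε (fun y => (u y).toReal) z : EReal) :=
  (h.rg_inn hD hκ hε.le).congr fun _ hz => h.rg_eq_cv hD hd hκ hε hz

theorem IsPsh.le_cv (h : IsPsh D u) (hD : IsOpen D) (hd : Dn D u) (hκ : Ker μ κ) (hε : 0 < ε)
    (hz : z ∈ inn D ε) : u z ≤ (Psh.cv μ κ ε (fun y => (u y).toReal) z : ℝ) :=
  h.rg_eq_cv hD hd hκ hε hz ▸ h.le_rg hD hκ hε.le hz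

theorem IsPsh.cv_mono_eps (h : IsPsh D u) (hD : IsOpen D) (hd : Dn D u) (hκ : Ker μ κ)
    (hε : 0 < ε) {ε' : ℝ} (hεε : ε ≤ ε') (hz : z ∈ inn D ε') :
    Psh.cv μ κ ε (fun y => (u y).toReal) z ≤ Psh.cv μ κ ε' (fun y => (u y).toReal) z := by
  rw [← EReal.coe_le_coe_iff, ← h.rg_eq_cv hD hd hκ hε (inn_anti hεε hz),
    ← h.rg_eq_cv hD hd hκ (hε.trans_le hεε) hz]
  exact h.rg_mono_eps hD hκ hε.le hεε hz

theorem IsPsh.tendsto_cv (h : IsPsh D u) (hD : IsOpen D) (hd : Dn D u) (hκ : Ker μ κ)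
    (hz : z ∈ D) : Tendsto (fun ε : ℝ => (Psh.cv μ κ ε (fun y => (u y).toReal) z : EReal))
      (𝓝[>] 0) (𝓝 (u z)) := by
  refine ((h.tendsto_rg hD hκ hz).mono_left (nhdsWithin_mono _ Ioi_subset_Ici_self)).congr' ?_
  filter_upwards [nhdsWithin_le_nhds (ev_inn hD hz), self_mem_nhdsWithin] with ε h1 h2
  exact h.rg_eq_cv hD hd hκ h2 h1

/-! ### smoothness -/

section smooth

variable [NormedSpace ℝ E] [IsScalarTower ℝ ℂ E]

theorem contDiff_cv (hκ : Ker μ κ) (hs : ContDiff ℝ ∞ κ) (hε : ε ≠ 0) (hf : Integrable f μ) :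
    ContDiff ℝ ∞ (cv μ κ ε f) := by
  have h0 : (ε : ℂ) ≠ 0 := by exact_mod_cast hε
  have h1 := (hκ.hasCompactSupport μ).contDiff_convolution_right (μ := μ)
    (ContinuousLinearMap.mul ℝ ℝ) (n := (⊤ : ℕ∞))
    (integrable_scale hf 0 hε).locallyIntegrable hs
  have h2 : ContDiff ℝ ∞ fun y : E => (ε : ℂ)⁻¹ • y := contDiff_const_smul _
  have e : cv μ κ ε f = fun z => MeasureTheory.convolution (fun v => f (0 + (ε : ℂ) • v)) κ
      (ContinuousLinearMap.mul ℝ ℝ) μ ((ε : ℂ)⁻¹ • z) := by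
    funext z
    symm
    rw [cv, MeasureTheory.convolution, ← integral_add_left_eq_self _ ((ε : ℂ)⁻¹ • z)]
    symm
    refine integral_congr_ae (Eventually.of_forall fun v => ?_)
    have := hκ.rot (-1) v (by simp)
    simp only [ContinuousLinearMap.mul_apply', zero_add, smul_add, smul_inv_smul₀ h0,
      sub_add_cancel_left]
    rw [neg_smul, one_smul] at this
    rw [this, mul_comm]
  rw [e]
  exact h1.comp h2

theorem contDiffAt_cv (hκ : Ker μ κ) (hs : ContDiff ℝ ∞ κ) (hε : 0 < ε) {δ : ℝ} (hδ : 0 < δ)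
    (hf : IntegrableOn f (ball z (ε + δ)) μ) : ContDiffAt ℝ ∞ (cv μ κ ε f) z := by
  refine (contDiff_cv hκ hs hε.ne'
    ((integrable_indicator_iff measurableSet_ball).2 hf)).contDiffAt.congr_of_eventuallyEq ?_
  filter_upwards [ball_mem_nhds z hδ] with y hy
  refine cv_congr hκ hε fun x hx => (indicator_of_mem ?_ _).symm
  rw [mem_ball] at *
  linarith [dist_triangle x y z]

theorem IsPsh.contDiffAt_cv (h : IsPsh D u) (hD : IsOpen D) (hd : Dn D u) (hκ : Ker μ κ)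
    (hs : ContDiff ℝ ∞ κ) (hε : 0 < ε) (hz : z ∈ inn D ε) :
    ContDiffAt ℝ ∞ (Psh.cv μ κ ε fun y => (u y).toReal) z := by
  have : ProperSpace E := FiniteDimensional.proper ℂ E
  obtain ⟨δ, hδ, h1⟩ := exists_cball_add hD hε.le hz
  exact Psh.contDiffAt_cv hκ hs hε hδ
    ((h.dn_integrableOn μ hD hd (isCompact_closedBall _ _) h1).mono_set ball_subset_closedBall)

variable (μ) in
/-- smooth rotation invariant kernels exist -/
theorem exists_ker : ∃ κ : E → ℝ, Ker μ κ ∧ ContDiff ℝ ∞ κ := by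
  have : ProperSpace E := FiniteDimensional.proper ℂ E
  set T : E ≃L[ℂ] EuclideanSpace ℂ (Fin (Module.finrank ℂ E)) :=
    ContinuousLinearEquiv.ofFinrankEq (by simp) with hT
  set c : ℝ := ‖(T.symm : EuclideanSpace ℂ (Fin (Module.finrank ℂ E)) →L[ℂ] E)‖ with hc
  set k0 : E → ℝ := fun v => Real.smoothTransition (1 - c ^ 2 * ‖T v‖ ^ 2) with hk0
  have hTs : ContDiff ℝ ∞ fun v : E => T v :=
    ((T : E →L[ℂ] EuclideanSpace ℂ (Fin (Module.finrank ℂ E))).restrictScalars ℝ).contDiff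
  have hs0 : ContDiff ℝ ∞ k0 := Real.smoothTransition.contDiff.comp
    (contDiff_const.sub (contDiff_const.mul ((contDiff_norm_sq ℂ).comp hTs)))
  have hsupp0 : ∀ v, 1 ≤ ‖v‖ → k0 v = 0 := by
    intro v hv
    apply Real.smoothTransition.zero_of_nonpos
    have h1 : ‖v‖ ≤ c * ‖T v‖ := by
      simpa using (T.symm : EuclideanSpace ℂ (Fin (Module.finrank ℂ E)) →L[ℂ] E).le_opNorm (T v)
    nlinarith
  have hcs0 : HasCompactSupport k0 :=
    HasCompactSupport.intro (isCompact_closedBall 0 1) fun v hv =>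
      hsupp0 v (le_of_lt (by simpa using hv))
  have hnn0 : ∀ v, 0 ≤ k0 v := fun v => Real.smoothTransition.nonneg _
  have hpos : 0 < ∫ v, k0 v ∂μ := by
    refine hs0.continuous.integral_pos_of_hasCompactSupport_nonneg_nonzero hcs0 hnn0 (x := 0) ?_
    exact (Real.smoothTransition.pos_of_pos (by simp)).ne'
  refine ⟨fun v => (∫ v, k0 v ∂μ)⁻¹ * k0 v, ⟨fun v => mul_nonneg (inv_pos.2 hpos).le (hnn0 v),
    continuous_const.mul hs0.continuous, fun v hv => by simp only [hsupp0 v hv, mul_zero],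
    fun w v hw => by simp only [hk0, map_smul, norm_smul, hw, one_mul], ?_⟩,
    contDiff_const.mul hs0⟩
  rw [integral_const_mul, inv_mul_cancel₀ hpos.ne']

omit [MeasurableSpace E] [BorelSpace E] in
/-- **smooth psh functions decreasing to `u`** on the `ε`-interior -/
theorem IsPsh.exists_smooth_inn (h : IsPsh D u) (hD : IsOpen D) (hε : 0 < ε) :
    ∃ φ : ℕ → E → ℝ, (∀ k, ContDiffOn ℝ ∞ (φ k) (inn D ε)) ∧
      (∀ k, IsPsh (inn D ε) fun x => (φ k x : EReal)) ∧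
      (∀ x ∈ inn D ε, Antitone fun k => φ k x) ∧
      ∀ x ∈ inn D ε, Tendsto (fun k => (φ k x : EReal)) atTop (𝓝 (u x)) := by
  have : ProperSpace E := FiniteDimensional.proper ℂ E
  borelize E
  obtain ⟨κ, hκ, hs⟩ := exists_ker (E := E) Measure.addHaar
  set e : ℕ → ℝ := fun k => ε / (k + 1) with he
  have e0 : ∀ k, 0 < e k := fun k => by positivity
  have e1 : ∀ k, e k ≤ ε := fun k => div_le_self hε.le (by simp)
  have e2 : Antitone e := fun k k' hk => by
    have : (k : ℝ) ≤ k' := by exact_mod_cast hk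
    exact div_le_div_of_nonneg_left hε.le (by positivity) (by linarith)
  have e3 : Tendsto e atTop (𝓝 0) := by
    simpa [he, div_eq_mul_inv] using tendsto_one_div_add_atTop_nhds_zero_nat.const_mul ε
  set w : ℕ → E → EReal := fun k x => (tr (-k) (u x) : ℝ) with hw
  have hwp : ∀ k, IsPsh D (w k) := fun k => h.trunc _
  have hwd : ∀ k, Dn D (w k) := fun k => dn_coe _ _
  have key : ∀ k, ∀ x ∈ inn D ε, (Psh.cv Measure.addHaar κ (e k) (fun y => (w k y).toReal) x :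
      EReal) = Psh.rg Measure.addHaar κ (w k) x (e k) := fun k x hx =>
    ((hwp k).rg_eq_cv hD (hwd k) hκ (e0 k) (inn_anti (e1 k) hx)).symm
  refine ⟨fun k => Psh.cv Measure.addHaar κ (e k) fun y => (w k y).toReal, fun k x hx =>
    ((hwp k).contDiffAt_cv hD (hwd k) hκ hs (e0 k) (inn_anti (e1 k) hx)).contDiffWithinAt,
    fun k => ((hwp k).cv hD (hwd k) hκ (e0 k)).mono (inn_anti (e1 k)),
    fun x hx k k' hk => ?_, fun x hx => ?_⟩
  · rw [← EReal.coe_le_coe_iff, key k x hx, key k' x hx]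
    have hk' : (k : ℝ) ≤ k' := by exact_mod_cast hk
    refine le_trans (rg_mono hκ fun y hy => ?_)
      ((hwp k).rg_mono_eps hD hκ (e0 k').le (e2 hk) (inn_anti (e1 k) hx))
    refine EReal.coe_le_coe_iff.2 (tr_mono (h.lt_top y (inn_anti (e1 k') hx ?_)) le_rfl
      (by linarith))
    simpa [abs_of_pos (e0 k')] using hy
  · have hxD := inn_subset hε.le hx
    simp only [key _ x hx]
    refine tendsto_order.2 ⟨fun a ha => Eventually.of_forall fun k => ha.trans_le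
      ((le_tr (h.lt_top x hxD)).trans ((hwp k).le_rg hD hκ (e0 k).le (inn_anti (e1 k) hx))),
      fun a ha => ?_⟩
    obtain ⟨b, h1, h2⟩ := EReal.lt_iff_exists_real_btwn.1 ha
    obtain ⟨r, hr, hb⟩ := nhds_basis_closedBall.mem_iff.1 (h.uscAt hD hxD _ h1)
    filter_upwards [e3.eventually (ge_mem_nhds hr),
      tendsto_natCast_atTop_atTop.eventually_ge_atTop (-b)] with k h3 h4
    refine lt_of_le_of_lt (rg_le hκ fun y hy => EReal.coe_le_coe_iff.2 (tr_le (le_of_lt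
      (hb (closedBall_subset_closedBall ?_ hy))) (by linarith))) h2
    simpa [abs_of_pos (e0 k)] using h3

omit [MeasurableSpace E] [BorelSpace E] in
/-- smooth psh functions decreasing to `u` near a compact set -/
theorem IsPsh.exists_smooth (h : IsPsh D u) (hD : IsOpen D) {K : Set E} (hK : IsCompact K)
    (hKD : K ⊆ D) : ∃ U : Set E, IsOpen U ∧ K ⊆ U ∧ U ⊆ D ∧
      ∃ φ : ℕ → E → ℝ, (∀ k, ContDiffOn ℝ ∞ (φ k) U) ∧ (∀ k, IsPsh U fun x => (φ k x : EReal)) ∧
        (∀ x ∈ U, Antitone fun k => φ k x) ∧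
        ∀ x ∈ U, Tendsto (fun k => (φ k x : EReal)) atTop (𝓝 (u x)) := by
  obtain ⟨ε, hε, h1⟩ := exists_inn hD hK hKD
  exact ⟨_, isOpen_inn hD hε.le, h1, inn_subset hε.le, h.exists_smooth_inn hD hε⟩

end smooth

end Crest.Agent.X261.Psh
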