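import Crest.Agent.X261.Psh.Int

/-!
# Row 261, package PSH (helper78), file `Cpt`

Compactness of locally uniformly upper bounded families of psh functions.
* `rfatou`, `rfatou'` : Fatou lemmas for relaxed limits on compact sets;
* `ae_limsup_eq_rlim` : Lelong's theorem (`limsup = rlim` almost everywhere);
* `tendsto_lint_cst`, `tendsto_eab`, `tendsto_L1`, `tendsto_integral_smul` : `L¹_loc` convergence
  to `rlim` along ultrafilters.
-/

set_option autoImplicit false
set_option linter.dupNamespace false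
set_option linter.unusedSectionVars false

open Set Filter Topology Metric MeasureTheory
open scoped ENNReal

noncomputable section

namespace Crest.Agent.X261.Psh

/-! ### arithmetic -/

/-- `|a - b|` for extended reals, with `eab ⊥ ⊥ = 0` -/
def eab (a b : EReal) : ℝ≥0∞ := (a - b).toENNReal + (b - a).toENNReal

theorem eab_coe (x y : ℝ) : eab x y = ENNReal.ofReal |x - y| := by
  rw [eab, ← EReal.coe_sub, ← EReal.coe_sub, EReal.real_coe_toENNReal, EReal.real_coe_toENNReal]
  rcases le_total x y with h | h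
  · rw [ENNReal.ofReal_of_nonpos (by linarith : x - y ≤ 0), zero_add, abs_of_nonpos (by linarith),
      neg_sub]
  · rw [ENNReal.ofReal_of_nonpos (by linarith : y - x ≤ 0), add_zero, abs_of_nonneg (by linarith)]

theorem eab_comm (a b : EReal) : eab a b = eab b a := add_comm _ _

theorem measurable_eab : Measurable fun p : EReal × EReal => eab p.1 p.2 := by
  unfold eab; fun_prop

theorem enorm_le_eab (a b : EReal) : ‖a.toReal - b.toReal‖ₑ ≤ eab a b := by
  induction a <;> induction b <;> try simp [eab]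
  rename_i x y
  have := eab_coe x y
  rw [eab] at this
  rw [this, Real.enorm_eq_ofReal_abs]

theorem cst_le_add_eab (C : ℝ) (a b : EReal) : cst C a ≤ cst C b + eab a b := by
  induction a <;> induction b <;> try simp [eab, cst]
  rename_i x y
  have := eab_coe x y
  rw [eab] at this
  rw [this, ← EReal.coe_sub, ← EReal.coe_sub, EReal.real_coe_toENNReal, EReal.real_coe_toENNReal]
  refine le_trans (ENNReal.ofReal_le_ofReal ?_) ENNReal.ofReal_add_le
  have := neg_abs_le (x - y)
  linarith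

theorem eab_le_cst {C : ℝ} {a b : EReal} (ha : a ≤ C) (hb : b ≤ C) :
    eab a b ≤ (cst C a - min (cst C a) (cst C b)) + (cst C b - min (cst C a) (cst C b)) := by
  induction a with
  | top => exact absurd ha (EReal.coe_lt_top C).not_ge
  | bot =>
    induction b with
    | top => exact absurd hb (EReal.coe_lt_top C).not_ge
    | bot => simp [eab]
    | coe y => simp
  | coe x =>
    induction b with
    | top => exact absurd hb (EReal.coe_lt_top C).not_ge
    | bot => simp
    | coe y =>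
      have hx := EReal.coe_le_coe_iff.1 ha
      have hy := EReal.coe_le_coe_iff.1 hb
      rw [eab_coe, cst_coe, cst_coe]
      rcases le_total x y with h | h
      · rw [min_eq_right (ENNReal.ofReal_le_ofReal (by linarith)), tsub_self, add_zero,
          ← ENNReal.ofReal_sub _ (by linarith), abs_of_nonpos (by linarith)]
        exact ENNReal.ofReal_le_ofReal (by linarith)
      · rw [min_eq_left (ENNReal.ofReal_le_ofReal (by linarith)), tsub_self, zero_add,
          ← ENNReal.ofReal_sub _ (by linarith), abs_of_nonneg (by linarith)]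
        exact ENNReal.ofReal_le_ofReal (by linarith)

theorem cst_max (C : ℝ) (a b : EReal) : cst C (max a b) = min (cst C a) (cst C b) :=
  Antitone.map_max fun _ _ h => cst_anti C h

theorem tendsto_of_eab {α : Type*} {l : Filter α} {a : α → EReal} {b : EReal} (h1 : b ≠ ⊥)
    (h2 : b ≠ ⊤) (h : Tendsto (fun i => eab (a i) b) l (𝓝 0)) : Tendsto a l (𝓝 b) := by
  lift b to ℝ using ⟨h2, h1⟩
  have key : ∀ ε : ℝ, 0 < ε → ∀ᶠ i in l, ((b - ε : ℝ) : EReal) < a i ∧ a i < (b + ε : ℝ) := by
    intro ε hε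
    filter_upwards [h.eventually (gt_mem_nhds (ENNReal.ofReal_pos.2 hε))] with i hi
    induction hai : a i with
    | bot => simp [hai, eab] at hi
    | top => simp [hai, eab] at hi
    | coe x =>
      rw [hai, eab_coe, ENNReal.ofReal_lt_ofReal_iff hε, abs_lt] at hi
      exact ⟨EReal.coe_lt_coe_iff.2 (by linarith), EReal.coe_lt_coe_iff.2 (by linarith)⟩
  refine tendsto_order.2 ⟨fun c hc => ?_, fun c hc => ?_⟩
  · obtain ⟨d, h3, h4⟩ := EReal.lt_iff_exists_real_btwn.1 hc
    filter_upwards [key (b - d) (sub_pos.2 (EReal.coe_lt_coe_iff.1 h4))] with i hi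
    exact h3.trans (by simpa using hi.1)
  · obtain ⟨d, h3, h4⟩ := EReal.lt_iff_exists_real_btwn.1 hc
    filter_upwards [key (d - b) (sub_pos.2 (EReal.coe_lt_coe_iff.1 h3))] with i hi
    exact lt_trans (by simpa using hi.2) h4

theorem le_sub_of_le_cst {C : ℝ} {a : EReal} {t : ℝ≥0∞} (ha : a ≤ C) (h : t ≤ cst C a) :
    a ≤ (C : EReal) - t := by
  induction t with
  | top => rw [cst_eq_top.1 (top_le_iff.1 h)]; exact bot_le
  | coe t =>
    have := le_of_ofReal_le_cst (t := t) ha (by simpa using h)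
    rwa [EReal.coe_sub] at this

theorem cst_sub (C : ℝ) (t : ℝ≥0∞) : cst C ((C : EReal) - t) = t := by
  induction t with
  | top => simp
  | coe t =>
    have : ((C : EReal) - ((t : ℝ≥0∞) : EReal)) = ((C - t : ℝ) : EReal) :=
      (EReal.coe_sub _ _).symm
    rw [this, cst_coe]; simp

/-! ### Fatou lemmas for relaxed limits -/

section RF

variable {ι X : Type*} {l : Filter ι} {w : ι → X → EReal}

theorem le_cst_rlim [TopologicalSpace X] {x : X} {C : ℝ} {t : ℝ≥0∞}
    (h : ∀ᶠ p in l ×ˢ 𝓝 x, w p.1 p.2 ≤ C ∧ t ≤ cst C (w p.1 p.2)) : t ≤ cst C (rlim l w x) :=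
  (cst_sub C t).ge.trans (cst_anti C (rlim_le (h.mono fun _ hp => le_sub_of_le_cst hp.1 hp.2)))

theorem rlim_max [TopologicalSpace X] {g : X → EReal} {x : X} (hg : UpperSemicontinuousAt g x) :
    rlim l (fun i y => max (w i y) (g y)) x ≤ max (rlim l w x) (g x) := by
  refine le_of_forall_gt_imp_ge_of_dense fun a ha => rlim_le ?_
  rw [max_lt_iff] at ha
  filter_upwards [ev_lt_of_rlim_lt ha.1, tendsto_snd.eventually (hg a ha.2)] with p h1 h2
  exact max_le h1.le h2.le

theorem rlim_sub_le [TopologicalSpace X] {κ : Type*} {l' : Filter κ} {φ : κ → ι}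
    (h : Tendsto φ l' l) (x : X) : rlim l' (fun j => w (φ j)) x ≤ rlim l w x :=
  limsup_le_rlim (l' := l' ×ˢ 𝓝 x) (i := fun p => φ p.1) (y := Prod.snd) (h.comp tendsto_fst)
    tendsto_snd

/-- **Choquet's lemma** for relaxed limits -/
theorem exists_seq_rlim [TopologicalSpace X] [SecondCountableTopology X] [l.IsCountablyGenerated]
    [l.NeBot] (w : ι → X → EReal) :
    ∃ φ : ℕ → ι, Tendsto φ atTop l ∧ ∀ x, rlim atTop (fun j => w (φ j)) x = rlim l w x := by
  obtain ⟨S, hS⟩ := l.exists_antitone_basis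
  have := (TopologicalSpace.countable_countableBasis X).to_subtype
  obtain ⟨e, he⟩ := exists_surjective_nat (Option (TopologicalSpace.countableBasis X × ℚ))
  have key : ∀ m : ℕ, ∃ i ∈ S m, ∀ t, e m.unpair.1 = some t →
      (∃ᶠ i in l, ∃ y ∈ t.1.1, ((t.2 : ℝ) : EReal) < w i y) →
        ∃ y ∈ t.1.1, ((t.2 : ℝ) : EReal) < w i y := fun m => by
    by_cases h : ∃ t, e m.unpair.1 = some t ∧ ∃ᶠ i in l, ∃ y ∈ t.1.1, ((t.2 : ℝ) : EReal) < w i y
    · obtain ⟨t, h1, h2⟩ := h
      obtain ⟨i, h3, h4⟩ := (h2.and_eventually (hS.mem m)).exists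
      exact ⟨i, h4, fun t' h5 _ => by rwa [← Option.some_injective _ (h1.symm.trans h5)]⟩
    · obtain ⟨i, hi⟩ := (Filter.nonempty_of_mem (hS.mem m))
      exact ⟨i, hi, fun t h1 h2 => absurd ⟨t, h1, h2⟩ h⟩
  choose φ h1 h2 using key
  have hφ := hS.tendsto h1
  refine ⟨φ, hφ, fun x => le_antisymm (rlim_sub_le hφ x)
    (le_of_forall_lt_imp_le_of_dense fun a ha => ?_)⟩
  obtain ⟨q, h3, h4⟩ := EReal.lt_iff_exists_rat_btwn.1 ha
  refine h3.le.trans (le_limsup_of_frequently_le fun hc => ?_)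
  obtain ⟨P, hP, V, hV, h5⟩ := eventually_prod_iff.1 hc
  obtain ⟨W, hW, hxW, hWV⟩ := (TopologicalSpace.isBasis_countableBasis X).mem_nhds_iff.1 hV
  have hWn := (TopologicalSpace.isBasis_countableBasis X).mem_nhds hW hxW
  obtain ⟨N, hN⟩ := eventually_atTop.1 hP
  obtain ⟨n, hn⟩ := he (some (⟨W, hW⟩, q))
  obtain ⟨y, hy, h6⟩ := h2 (Nat.pair n N) (⟨W, hW⟩, q) (by simpa using hn) fun hc' =>
    frequently_lt_of_lt_limsup (by isBoundedDefault) h4 (by
      filter_upwards [prod_mem_prod hc' hWn] with p hp h7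
      exact hp.1 ⟨p.2, hp.2, h7⟩)
  exact h5 (hN _ (Nat.right_le_pair n N)) (hWV hy) h6.le

variable [PseudoMetricSpace X] [MeasurableSpace X] [OpensMeasurableSpace X]

theorem exists_hartogs_seq {K : Set X} (hK : IsCompact K) (hb : ∀ x ∈ K, rlim l w x < ⊤) :
    ∃ g : ℕ → X → ℝ, (∀ k, Continuous (g k)) ∧ (∀ x, Antitone fun k => g k x) ∧
      (∀ k, ∀ᶠ i in l, ∀ x ∈ K, w i x ≤ g k x) ∧
      ∀ x ∈ K, Tendsto (fun k => (g k x : EReal)) atTop (𝓝 (rlim l w x)) := by
  obtain ⟨g, h1, h2, h3, h4⟩ := exists_cont_seq hK (usc_rlim.upperSemicontinuousOn K) hb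
  have p : ∀ k : ℕ, (0 : ℝ) < 1 / ((k : ℝ) + 1) := fun k => Nat.one_div_pos_of_nat
  refine ⟨fun k x => g k x + 1 / ((k : ℝ) + 1), fun k => (h1 k).add continuous_const,
    fun x k k' hk => add_le_add (h2 x hk) (Nat.one_div_le_one_div hk), fun k => ?_,
    fun x hx => tendsto_order.2 ⟨fun a ha => Eventually.of_forall fun k => ?_, fun a ha => ?_⟩⟩
  · exact (hartogs' hK (fun x _ => ((h1 k).add continuous_const).continuousAt)
      fun x hx => lt_coe_add (h3 k x hx) (p k)).mono fun i hi x hx => (hi x hx).le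
  · exact ha.trans (lt_coe_add (h3 k x hx) (p k))
  · obtain ⟨b, hb1, hb2⟩ := EReal.lt_iff_exists_real_btwn.1 ha
    obtain ⟨c, hc1, hc2⟩ := EReal.lt_iff_exists_real_btwn.1 hb1
    have := tendsto_one_div_add_atTop_nhds_zero_nat (𝕜 := ℝ)
    filter_upwards [h4 x hx c hc1,
      this.eventually (gt_mem_nhds (sub_pos.2 (EReal.coe_lt_coe_iff.1 hc2)))] with k h5 h6
    exact lt_trans (EReal.coe_lt_coe_iff.2 (by linarith)) hb2

/-- Fatou's lemma for relaxed limits (any filter, any measure, no measurability) -/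
theorem rfatou (ν : Measure X) {K : Set X} (hK : IsCompact K) (hKm : MeasurableSet K)
    (hb : ∀ x ∈ K, rlim l w x < ⊤) (C : ℝ) :
    ∫⁻ x in K, cst C (rlim l w x) ∂ν ≤ liminf (fun i => ∫⁻ x in K, cst C (w i x) ∂ν) l := by
  obtain ⟨g, h1, h2, h3, h4⟩ := exists_hartogs_seq hK hb
  have t := lintegral_tendsto_of_tendsto_of_monotone (μ := ν.restrict K)
    (f := fun k x => cst C (g k x)) (F := fun x => cst C (rlim l w x))
    (fun k => ((continuous_cst C).comp (continuous_coe_real_ereal.comp (h1 k))).aemeasurable)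
    (Eventually.of_forall fun x k k' hk => cst_anti C (EReal.coe_le_coe_iff.2 (h2 x hk)))
    ((ae_restrict_iff' hKm).2 (Eventually.of_forall fun x hx =>
      ((continuous_cst C).tendsto _).comp (h4 x hx)))
  refine le_of_tendsto' t fun k => le_liminf_of_le (by isBoundedDefault) ?_
  filter_upwards [h3 k] with i hi
  exact setLIntegral_mono' hKm fun x hx => cst_anti C (hi x hx)

/-- reverse Fatou lemma for relaxed limits -/
theorem rfatou' (ν : Measure X) {K : Set X} (hK : IsCompact K) (hKm : MeasurableSet K)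
    (hν : ν K < ⊤) (hb : ∀ x ∈ K, rlim l w x < ⊤) :
    limsup (fun i => ∫⁻ x in K, (w i x).toENNReal ∂ν) l ≤
      ∫⁻ x in K, (rlim l w x).toENNReal ∂ν := by
  obtain ⟨g, h1, h2, h3, h4⟩ := exists_hartogs_seq hK hb
  obtain ⟨M, hM⟩ := hK.bddAbove_image (h1 0).continuousOn
  have t := lintegral_tendsto_of_tendsto_of_antitone (μ := ν.restrict K)
    (f := fun k x => (g k x : EReal).toENNReal) (F := fun x => (rlim l w x).toENNReal)
    (fun k => (EReal.continuous_toENNReal.comp
      (continuous_coe_real_ereal.comp (h1 k))).aemeasurable)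
    (Eventually.of_forall fun x k k' hk =>
      EReal.toENNReal_le_toENNReal (EReal.coe_le_coe_iff.2 (h2 x hk)))
    (ne_top_of_le_ne_top (b := ∫⁻ _ in K, ENNReal.ofReal M ∂ν)
      (by rw [setLIntegral_const]; exact (ENNReal.mul_lt_top ENNReal.ofReal_lt_top hν).ne)
      (setLIntegral_mono' hKm fun x hx => by
        rw [EReal.real_coe_toENNReal]; exact ENNReal.ofReal_le_ofReal (hM ⟨x, hx, rfl⟩)))
    ((ae_restrict_iff' hKm).2 (Eventually.of_forall fun x hx =>
      (EReal.continuous_toENNReal.tendsto _).comp (h4 x hx)))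
  refine ge_of_tendsto' t fun k => limsup_le_of_le (by isBoundedDefault) ?_
  filter_upwards [h3 k] with i hi
  exact setLIntegral_mono' hKm fun x hx => EReal.toENNReal_le_toENNReal (hi x hx)

end RF

/-! ### ball means -/

variable {E : Type*} [NormedAddCommGroup E] [NormedSpace ℂ E] [MeasurableSpace E] [BorelSpace E]
  [FiniteDimensional ℂ E] (μ : Measure E) [μ.IsAddHaarMeasure] {D K : Set E}
  {ι : Type*} {l : Filter ι} {u : ι → E → EReal} {C : ℝ}

theorem le_of_cball {a F : ℝ≥0∞} {r ρ : ℝ} (hr : 0 < r) (hρ : 0 < ρ) (x : E)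
    (h : ∀ δ ∈ Ioo 0 ρ, a ≤ μ (closedBall x (δ + r)) * F) : a ≤ μ (closedBall x r) * F := by
  have : ProperSpace E := FiniteDimensional.proper ℂ E
  have t := ENNReal.Tendsto.mul_const (b := F)
    ((tendsto_measure_cthickening_of_isCompact (μ := μ) (isCompact_closedBall x r)).mono_left
      (nhdsWithin_le_nhds (s := Ioi 0))) (Or.inl (measure_closedBall_pos μ x hr).ne')
  refine ge_of_tendsto t ?_
  filter_upwards [Ioo_mem_nhdsGT hρ] with δ hδ
  rw [cthickening_closedBall hδ.1.le hr.le]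
  exact h δ hδ

theorem tonelli_ball {G : E → ℝ≥0∞} (hK : MeasurableSet K) (hG : AEMeasurable G (μ.restrict K))
    (r : ℝ) : μ (closedBall 0 r) * ∫⁻ x in K, G x ∂μ ≤
      ∫⁻ y in cthickening r K, ∫⁻ x in closedBall y r, G x ∂μ ∂μ := by
  have : ProperSpace E := FiniteDimensional.proper ℂ E
  let S : Set (E × E) := {p | dist p.2 p.1 ≤ r}
  have hS : MeasurableSet S :=
    (isClosed_le (continuous_snd.dist continuous_fst) continuous_const).measurableSet
  calc μ (closedBall 0 r) * ∫⁻ x in K, G x ∂μ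
      = ∫⁻ x in K, ∫⁻ y in cthickening r K, S.indicator (fun p => G p.2) (y, x) ∂μ ∂μ := by
        rw [← lintegral_const_mul'' _ hG]
        refine setLIntegral_congr_fun hK fun x hx => ?_
        have e : (fun y => S.indicator (fun p => G p.2) (y, x)) =
            (closedBall x r).indicator fun _ => G x := by
          ext y
          simp only [S, indicator, mem_ofPred_eq, mem_closedBall, dist_comm x y]
        simp only [e]
        rw [lintegral_indicator_const measurableSet_closedBall,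
          Measure.restrict_apply measurableSet_closedBall,
          inter_eq_left.2 (closedBall_subset_cthickening hx r),
          Measure.addHaar_closedBall_center μ x r, mul_comm]
    _ = ∫⁻ y in cthickening r K, ∫⁻ x in K, S.indicator (fun p => G p.2) (y, x) ∂μ ∂μ :=
        (lintegral_lintegral_swap (f := fun y x => S.indicator (fun p => G p.2) (y, x))
          (hG.comp_snd.indicator hS)).symm
    _ ≤ _ := by
        refine lintegral_mono fun y => ?_
        have e : (fun x => S.indicator (fun p => G p.2) (y, x)) = (closedBall y r).indicator G := by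
          ext x
          simp only [S, indicator, mem_ofPred_eq, mem_closedBall]
        simp only [e]
        rw [← lintegral_indicator measurableSet_closedBall]
        exact lintegral_mono' Measure.restrict_le_self le_rfl

theorem le_of_cthick {a : ℝ≥0∞} {F : E → ℝ≥0∞} (hK : IsClosed K) {ρ : ℝ} (hρ : 0 < ρ)
    (hF : ∫⁻ x in cthickening ρ K, F x ∂μ < ⊤)
    (h : ∀ r ∈ Ioo 0 ρ, μ (closedBall 0 r) * a ≤
      ∫⁻ x in cthickening r K, μ (closedBall 0 r) * F x ∂μ) : a ≤ ∫⁻ x in K, F x ∂μ := by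
  have : ProperSpace E := FiniteDimensional.proper ℂ E
  have t := (tendsto_measure_cthickening_of_isClosed (μ := μ.withDensity F)
    ⟨ρ, hρ, by rw [withDensity_apply _ isClosed_cthickening.measurableSet]; exact hF.ne⟩
    hK).mono_left (nhdsWithin_le_nhds (s := Ioi 0))
  rw [withDensity_apply _ hK.measurableSet] at t
  refine ge_of_tendsto t ?_
  filter_upwards [Ioo_mem_nhdsGT hρ] with r hr
  have := h r hr
  rw [lintegral_const_mul' _ _ measure_closedBall_lt_top.ne] at this
  rw [withDensity_apply _ isClosed_cthickening.measurableSet]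
  exact (ENNReal.mul_le_mul_iff_right (measure_closedBall_pos μ 0 hr.1).ne'
    measure_closedBall_lt_top.ne).1 this

theorem ev_le_of_rlim_lt {X : Type*} [TopologicalSpace X] {w : ι → X → EReal} {K : Set X}
    (hK : IsCompact K) (h : ∀ x ∈ K, rlim l w x < C) : ∀ᶠ i in l, ∀ x ∈ K, w i x ≤ C :=
  (hartogs' (g := fun _ => C) hK (fun _ _ => continuousAt_const) h).mono
    fun _ hi x hx => (hi x hx).le

theorem liminf_ball_le' (hD : IsOpen D) (hu : ∀ᶠ i in l, IsPsh D (u i)) {x : E} {r R : ℝ}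
    (hr : 0 ≤ r) (hrR : r < R) (hB : closedBall x R ⊆ D)
    (hC : ∀ y ∈ closedBall x R, rlim l u y < C) :
    liminf (fun i => ∫⁻ y in closedBall x r, cst C (u i y) ∂μ) l ≤
      μ (closedBall x R) * cst C (rlim l u x) := by
  have : ProperSpace E := FiniteDimensional.proper ℂ E
  have m0 := (measure_closedBall_pos μ x (hr.trans_lt hrR)).ne'
  have m1 : μ (closedBall x R) ≠ ⊤ := measure_closedBall_lt_top.ne
  refine le_of_forall_lt_imp_le_of_dense fun b hb => ?_
  rw [← ENNReal.div_le_iff' m0 m1]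
  refine le_cst_rlim ?_
  filter_upwards [tendsto_fst.eventually (eventually_lt_of_lt_liminf hb),
    tendsto_fst.eventually hu,
    tendsto_fst.eventually (ev_le_of_rlim_lt (isCompact_closedBall x R) hC),
    tendsto_snd.eventually (ball_mem_nhds x (half_pos (sub_pos.2 hrR)))] with p h1 h2 h3 h4
  have h4' : dist p.2 x < (R - r) / 2 := h4
  have s1 : closedBall p.2 ((r + R) / 2) ⊆ closedBall x R :=
    closedBall_subset_closedBall' (by linarith)
  have s2 : closedBall x r ⊆ closedBall p.2 ((r + R) / 2) :=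
    closedBall_subset_closedBall' (by rw [dist_comm]; linarith)
  refine ⟨h3 _ (s1 (mem_closedBall_self (by linarith))), ?_⟩
  rw [ENNReal.div_le_iff' m0 m1]
  exact h1.le.trans ((lintegral_mono_set s2).trans ((h2.lint_closedBall μ hD (s1.trans hB)
    fun y hy => h3 y (s1 hy)).trans (mul_le_mul_left (measure_mono s1) _)))

theorem isOpen_lt (hD : IsOpen D) (C : ℝ) : IsOpen (D ∩ {y | rlim l u y < C}) :=
  hD.inter (usc_rlim.isOpen_preimage _)

/-- the ball means of `C - u i` are asymptotically bounded by `C - rlim` at the centre -/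
theorem liminf_ball_le (hD : IsOpen D) (hu : ∀ᶠ i in l, IsPsh D (u i)) {x : E} {r : ℝ}
    (hr : 0 < r) (hB : closedBall x r ⊆ D) (hC : ∀ y ∈ closedBall x r, rlim l u y < C) :
    liminf (fun i => ∫⁻ y in closedBall x r, cst C (u i y) ∂μ) l ≤
      μ (closedBall x r) * cst C (rlim l u x) := by
  have : ProperSpace E := FiniteDimensional.proper ℂ E
  obtain ⟨ρ, hρ, h⟩ := (isCompact_closedBall x r).exists_cthickening_subset_open
    (isOpen_lt (l := l) (u := u) hD C) fun y hy => ⟨hB hy, hC y hy⟩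
  rw [cthickening_closedBall hρ.le hr.le] at h
  refine le_of_cball μ hr hρ x fun δ hδ => ?_
  have s : closedBall x (δ + r) ⊆ closedBall x (ρ + r) :=
    closedBall_subset_closedBall (by linarith [hδ.2])
  exact liminf_ball_le' μ hD hu hr.le (by linarith [hδ.1]) (fun y hy => (h (s hy)).1)
    fun y hy => (h (s hy)).2

/-- criterion for `rlim ≢ -∞`: the `L¹` norms on a ball stay bounded -/
theorem rlim_ne_bot {x : E} {r : ℝ} {M : ℝ≥0∞} (hM : M < ⊤)
    (hb : ∀ y ∈ closedBall x r, rlim l u y < ⊤) (hr : 0 < r)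
    (h : ∃ᶠ i in l, ∫⁻ y in closedBall x r, cst C (u i y) ∂μ ≤ M) :
    ∃ y ∈ closedBall x r, rlim l u y ≠ ⊥ := by
  have : ProperSpace E := FiniteDimensional.proper ℂ E
  by_contra hc
  push Not at hc
  have h1 := (rfatou μ (isCompact_closedBall x r) measurableSet_closedBall hb C).trans
    (liminf_le_of_frequently_le h)
  rw [setLIntegral_congr_fun (g := fun _ => ⊤) measurableSet_closedBall
    (fun y hy => by simp [hc y hy]), setLIntegral_const,
    ENNReal.top_mul (measure_closedBall_pos μ x hr).ne'] at h1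
  exact hM.not_ge h1

/-- a compact subset of `D` has a compact thickening in `D` on which `rlim` is bounded -/
theorem exists_thick (hD : IsOpen D) (hb : ∀ x ∈ D, rlim l u x < ⊤) (hK : IsCompact K)
    (hKD : K ⊆ D) : ∃ ρ > 0, ∃ C : ℝ, cthickening ρ K ⊆ D ∧
      ∀ y ∈ cthickening ρ K, rlim l u y < C := by
  obtain ⟨C, hC⟩ := exists_bound hK (usc_rlim.upperSemicontinuousOn K) fun x hx => hb x (hKD hx)
  obtain ⟨ρ, hρ, h⟩ := hK.exists_cthickening_subset_open (isOpen_lt (l := l) (u := u) hD (C + 1))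
    fun y hy => ⟨hKD hy, lt_coe_add (hC y hy) one_pos⟩
  exact ⟨ρ, hρ, C + 1, fun y hy => (h hy).1, fun y hy => (h hy).2⟩

theorem cball_subset_cthick {r s : ℝ} (hr : 0 ≤ r) (hs : 0 ≤ s) {y : E}
    (hy : y ∈ cthickening r K) : closedBall y s ⊆ cthickening (s + r) K :=
  (closedBall_subset_cthickening hy s).trans (cthickening_cthickening_subset hs hr K)

theorem isPsh_rlim' (hD : IsOpen D) (hu : ∀ᶠ i in l, IsPsh D (u i))
    (hb : ∀ x ∈ D, rlim l u x < ⊤) : IsPsh D (rlim l u) :=
  isPsh_rlim hD (hu.mono fun _ h => h.sub) hb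

/-! ### Lelong's theorem -/

theorem ae_limsup_cpt {u : ℕ → E → EReal} (hD : IsOpen D) (hu : ∀ᶠ i in atTop, IsPsh D (u i))
    (hb : ∀ x ∈ D, rlim atTop u x < ⊤) (hd : Dn D (rlim atTop u)) (hK : IsCompact K)
    (hKD : K ⊆ D) : ∀ᵐ x ∂μ.restrict K, limsup (fun i => u i x) atTop = rlim atTop u x := by
  classical
  have : ProperSpace E := FiniteDimensional.proper ℂ E
  obtain ⟨ρ, hρ, C, hρD, hC⟩ := exists_thick hD hb hK hKD
  have hU := isPsh_rlim' hD hu hb
  set v : ℕ → E → EReal := fun i => if IsPsh D (u i) then u i else fun _ => ⊥ with hv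
  have hvp : ∀ i, IsPsh D (v i) := fun i => by
    by_cases h : IsPsh D (u i)
    · simp [hv, h]
    · simpa [hv, h] using IsPsh.const D bot_lt_top
  have hvu : ∀ᶠ i in atTop, v i = u i := hu.mono fun i hi => by simp [hv, hi]
  set G : E → ℝ≥0∞ := fun x => liminf (fun i => cst C (v i x)) atTop with hG
  have hGe : ∀ x, G x = cst C (limsup (fun i => u i x) atTop) := fun x => by
    rw [Antitone.map_limsup_of_continuousAt (fun _ _ h => cst_anti C h) _
      (continuous_cst C).continuousAt]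
    exact liminf_congr (hvu.mono fun i hi => by simp [hi])
  have hm : ∀ S : Set E, MeasurableSet S → S ⊆ D → ∀ i,
      AEMeasurable (fun x => cst C (v i x)) (μ.restrict S) := fun S h1 h2 i =>
    (measurable_cst C).comp_aemeasurable ((hvp i).aemeasurable hD μ h1 h2)
  have hGm : AEMeasurable G (μ.restrict K) := by
    choose v' h1 h2 using fun i => exists_meas hD (hvp i).usc
    refine (Measurable.liminf fun i => (measurable_cst C).comp (h1 i)).aemeasurable.congr ?_
    filter_upwards [ae_restrict_mem hK.measurableSet] with x hx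
    simp only [hG, Function.comp, fun i => h2 i (hKD hx)]
  have key : ∫⁻ x in K, G x ∂μ ≤ ∫⁻ x in K, cst C (rlim atTop u x) ∂μ := by
    refine le_of_cthick μ hK.isClosed (half_pos hρ) (hU.dn_lint μ hD hd hK.cthickening
      ((cthickening_mono (half_le_self hρ.le) K).trans hρD) C) fun r hr => ?_
    refine (tonelli_ball μ hK.measurableSet hGm r).trans
      (setLIntegral_mono' isClosed_cthickening.measurableSet fun y hy => ?_)
    have s : closedBall y r ⊆ cthickening ρ K := (cball_subset_cthick hr.1.le hr.1.le hy).trans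
      (cthickening_mono (by linarith [hr.2]) K)
    refine (lintegral_liminf_le' (hm _ measurableSet_closedBall (s.trans hρD))).trans ?_
    rw [← Measure.addHaar_closedBall_center μ y r]
    refine le_trans (le_of_eq (liminf_congr (hvu.mono fun i hi => by rw [hi])))
      (liminf_ball_le μ hD hu hr.1 (s.trans hρD) fun z hz => hC z (s hz))
  have := ae_eq_of_ae_le_of_lintegral_le (Eventually.of_forall fun x => by
    rw [hGe]; exact cst_anti C (limsup_le_rlim' x)) (hU.dn_lint μ hD hd hK hKD C).ne hGm key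
  filter_upwards [this, ae_restrict_mem hK.measurableSet] with x h1 hx
  have h2 := (hC x (self_subset_cthickening K hx)).le
  refine le_antisymm (limsup_le_rlim' x) (le_of_cst_le_cst h2 ?_ ((limsup_le_rlim' x).trans h2))
  rw [← hGe]; exact h1.ge

/-- the open subset of `D` near whose points `u ≢ -∞` -/
def nb (D : Set E) (u : E → EReal) : Set E := {x | x ∈ D ∧ ∃ᶠ y in 𝓝 x, u y ≠ ⊥}

theorem dn_nb (D : Set E) (u : E → EReal) : Dn (nb D u) u := fun _ hx => hx.2

theorem ev_bot_of_notMem_nb {v : E → EReal} {x : E} (hx : x ∈ D) (h : x ∉ nb D v) :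
    ∀ᶠ y in 𝓝 x, v y = ⊥ := by
  have : ¬ ∃ᶠ y in 𝓝 x, v y ≠ ⊥ := fun h' => h ⟨hx, h'⟩
  simpa using this

theorem IsPsh.isOpen_nb {v : E → EReal} (h : IsPsh D v) (hD : IsOpen D) : IsOpen (nb D v) := by
  refine isOpen_iff_mem_nhds.2 fun x hx => ?_
  obtain ⟨V, hV, h1⟩ := (h.loc_dich Measure.addHaar hD hx.1).resolve_right fun h2 =>
    hx.2 (h2.mono fun _ hy => not_not.2 hy)
  filter_upwards [eventually_mem_nhds_iff.2 hV, hD.mem_nhds hx.1] with y hy hyD
  exact ⟨hyD, fun hc => not_both _ hy h1 (hc.mono fun _ hz => not_not.1 hz)⟩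

theorem IsPsh.dnK_lint {v : E → EReal} (h : IsPsh D v) (hD : IsOpen D) (hK : IsCompact K)
    (hKD : K ⊆ D) (hd : Dn K v) (C : ℝ) : ∫⁻ x in K, cst C (v x) ∂μ < ⊤ :=
  (h.mono fun _ hx => hx.1).dn_lint μ (h.isOpen_nb hD) (dn_nb _ _) hK
    (fun x hx => ⟨hKD hx, hd x hx⟩) C

theorem IsPsh.dnK_integrableOn {v : E → EReal} (h : IsPsh D v) (hD : IsOpen D) (hK : IsCompact K)
    (hKD : K ⊆ D) (hd : Dn K v) : IntegrableOn (fun x => (v x).toReal) K μ :=
  (h.mono fun _ hx => hx.1).dn_integrableOn μ (h.isOpen_nb hD) (dn_nb _ _) hK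
    fun x hx => ⟨hKD hx, hd x hx⟩

theorem isCompact_inter_nb (hK : IsCompact K) (hKD : K ⊆ D) (v : E → EReal) :
    IsCompact (K ∩ nb D v) := by
  have : K ∩ nb D v = K \ {x | ∀ᶠ y in 𝓝 x, v y = ⊥} := by
    ext x
    exact ⟨fun h => ⟨h.1, fun hc => h.2.2 (hc.mono fun _ hy => not_not.2 hy)⟩,
      fun h => ⟨h.1, by_contra fun hc => h.2 (ev_bot_of_notMem_nb (hKD h.1) hc)⟩⟩
  rw [this]
  exact hK.diff isOpen_setOfPred_eventually_nhds

theorem ae_of_cball {P : E → Prop} (hD : IsOpen D)
    (h : ∀ x r, closedBall x r ⊆ D → ∀ᵐ y ∂μ.restrict (closedBall x r), P y) :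
    ∀ᵐ y ∂μ, y ∈ D → P y := by
  have key : μ {y | y ∈ D ∧ ¬ P y} = 0 := by
    refine measure_null_of_locally_null _ fun x hx => ?_
    obtain ⟨r, hr, hB⟩ := exists_cball hD hx.1
    have h1 := (ae_restrict_iff' measurableSet_closedBall).1 (h x r hB)
    refine ⟨closedBall x r ∩ {y | y ∈ D ∧ ¬ P y},
      inter_mem (mem_nhdsWithin_of_mem_nhds (closedBall_mem_nhds x hr)) self_mem_nhdsWithin,
      measure_mono_null (fun y hy => ?_) h1⟩
    exact fun h2 => hy.2.2 (h2 hy.1)
  refine measure_mono_null (fun x hx => ?_) key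
  simpa using hx

theorem ae_limsup_seq {u : ℕ → E → EReal} (hD : IsOpen D) (hu : ∀ᶠ i in atTop, IsPsh D (u i))
    (hb : ∀ x ∈ D, rlim atTop u x < ⊤) :
    ∀ᵐ x ∂μ, x ∈ D → limsup (fun i => u i x) atTop = rlim atTop u x := by
  have : ProperSpace E := FiniteDimensional.proper ℂ E
  have ho := (isPsh_rlim' hD hu hb).isOpen_nb hD
  have s : nb D (rlim atTop u) ⊆ D := fun _ hx => hx.1
  filter_upwards [ae_of_cball μ ho fun x r hB => ae_limsup_cpt μ ho (hu.mono fun _ h => h.mono s)
    (fun x hx => hb x hx.1) (dn_nb _ _) (isCompact_closedBall x r) hB] with x h1 hx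
  by_cases h : x ∈ nb D (rlim atTop u)
  · exact h1 h
  · have := (ev_bot_of_notMem_nb hx h).self_of_nhds
    exact le_antisymm (limsup_le_rlim' x) (this ▸ bot_le)

/-- **Lelong's theorem**: the pointwise upper limit of a locally bounded above family of psh
functions agrees almost everywhere with the relaxed limit -/
theorem ae_limsup_eq_rlim [l.IsCountablyGenerated] (hD : IsOpen D)
    (hu : ∀ᶠ i in l, IsPsh D (u i)) (hb : ∀ x ∈ D, rlim l u x < ⊤) :
    ∀ᵐ x ∂μ, x ∈ D → limsup (fun i => u i x) l = rlim l u x := by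
  rcases l.eq_or_neBot with rfl | hl
  · simp [rlim]
  have : ProperSpace E := FiniteDimensional.proper ℂ E
  obtain ⟨φ, h1, h2⟩ := exists_seq_rlim (l := l) u
  filter_upwards [ae_limsup_seq μ hD (h1.eventually hu) fun x hx => h2 x ▸ hb x hx] with x h3 hx
  refine le_antisymm (limsup_le_rlim' x) ?_
  rw [← h2, ← h3 hx]
  exact le_of_forall_gt_imp_ge_of_dense fun a ha => limsup_le_of_le (by isBoundedDefault)
    ((h1.eventually (eventually_lt_of_limsup_lt ha)).mono fun _ h => h.le)

/-- negligible sets are null: `sup = sup^*` almost everywhere -/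
theorem ae_iSup_eq_rlim (hD : IsOpen D) (hu : ∀ i, IsPsh D (u i))
    (hb : ∀ x ∈ D, rlim ⊤ u x < ⊤) : ∀ᵐ x ∂μ, x ∈ D → ⨆ i, u i x = rlim ⊤ u x := by
  simpa [limsup_top_eq_iSup] using ae_limsup_eq_rlim μ hD (eventually_top.2 hu) hb

/-- `rlim` is the upper regularisation of the pointwise upper limit -/
theorem rlim_le_of_limsup [l.IsCountablyGenerated] (hD : IsOpen D)
    (hu : ∀ᶠ i in l, IsPsh D (u i)) (hb : ∀ x ∈ D, rlim l u x < ⊤) {x : E} (hx : x ∈ D)
    {g : E → EReal} (hg : UpperSemicontinuousAt g x)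
    (h : ∀ᶠ y in 𝓝 x, limsup (fun i => u i y) l ≤ g y) : rlim l u x ≤ g x :=
  (isPsh_rlim' hD hu hb).le_of_ae Measure.addHaar hD hx hg (inter_mem h (hD.mem_nhds hx))
    ((ae_limsup_eq_rlim _ hD hu hb).mono fun _ hy hyV => hy hyV.2 ▸ hyV.1)

/-! ### `L¹_loc` convergence along ultrafilters -/

theorem limsup_lint_le {l : Ultrafilter ι} (hD : IsOpen D) (hu : ∀ᶠ i in l, IsPsh D (u i))
    (hb : ∀ x ∈ D, rlim l u x < ⊤) (hd : Dn D (rlim l u)) (hK : IsCompact K) {ρ : ℝ} (hρ : 0 < ρ)
    (hρD : cthickening ρ K ⊆ D) (hC : ∀ y ∈ cthickening ρ K, rlim l u y < C) :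
    limsup (fun i => ∫⁻ x in K, cst C (u i x) ∂μ) l ≤ ∫⁻ x in K, cst C (rlim l u x) ∂μ := by
  have : ProperSpace E := FiniteDimensional.proper ℂ E
  have hU := isPsh_rlim' hD hu hb
  have hKD : K ⊆ D := (self_subset_cthickening K).trans hρD
  refine le_of_forall_lt_imp_le_of_dense fun b hbb => ?_
  have hf := frequently_lt_of_lt_limsup (by isBoundedDefault) hbb
  refine le_of_cthick μ hK.isClosed (by positivity : 0 < ρ / 5) (hU.dn_lint μ hD hd hK.cthickening
    ((cthickening_mono (by linarith) K).trans hρD) C) fun r hr => ?_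
  set w : ι → E → EReal := fun i y => ((∫⁻ x in closedBall y r, cst C (u i x) ∂μ : ℝ≥0∞) : EReal)
    with hw
  -- the relaxed limit of the ball integrals
  have key : ∀ y ∈ cthickening r K, ∀ δ ∈ Ioo 0 (ρ / 5), ∀ z, dist z y ≤ δ →
      rlim l w y ≤ (μ (closedBall z (δ + δ + r)) * cst C (rlim l u z) : ℝ≥0∞) := by
    intro y hy δ hδ z hz
    have s : closedBall z (δ + δ + r) ⊆ cthickening ρ K :=
      (closedBall_subset_closedBall' (ε₂ := 3 * δ + r) (by linarith)).trans
        ((cball_subset_cthick hr.1.le (by linarith [hδ.1, hr.1]) hy).trans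
          (cthickening_mono (by linarith [hr.2, hδ.2]) K))
    have h1 := liminf_ball_le μ hD hu (by linarith [hδ.1, hr.1]) (s.trans hρD)
      fun z hz => hC z (s hz)
    refine le_of_forall_gt_imp_ge_of_dense fun a ha => ?_
    have ha0 : (0 : EReal) ≤ a := (EReal.coe_ennreal_nonneg _).trans ha.le
    rw [← EReal.coe_toENNReal ha0] at ha ⊢
    have h2 := Ultrafilter.frequently_iff_eventually.1 (frequently_lt_of_liminf_lt
      (by isBoundedDefault) (h1.trans_lt (EReal.coe_ennreal_lt_coe_ennreal_iff.1 ha)))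
    refine rlim_le_of (closedBall_mem_nhds y hδ.1) (h2.mono fun i hi y' hy' => ?_)
    refine EReal.coe_ennreal_le_coe_ennreal_iff.2 ((lintegral_mono_set ?_).trans hi.le)
    refine closedBall_subset_closedBall' ?_
    have := dist_triangle_right y' z y
    have hy'' : dist y' y ≤ δ := hy'
    linarith
  have hfin : ∀ y ∈ cthickening r K, rlim l w y < ⊤ := fun y hy => by
    have hδ : ρ / 10 ∈ Ioo 0 (ρ / 5) := ⟨by positivity, by linarith⟩
    obtain ⟨z, h1, h2⟩ := ((hd y (hρD (cthickening_mono (by linarith [hr.2]) K hy))).and_eventually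
      (closedBall_mem_nhds y hδ.1)).exists
    refine (key y hy _ hδ z h2).trans_lt (lt_top_iff_ne_top.2 fun h => ?_)
    exact (ENNReal.mul_lt_top measure_closedBall_lt_top (cst_lt_top.2 h1)).ne
      (EReal.coe_ennreal_eq_top_iff.1 h)
  have h1 := rfatou' μ hK.cthickening isClosed_cthickening.measurableSet
    hK.cthickening.measure_lt_top hfin
  refine le_trans (le_trans (le_limsup_of_frequently_le ?_) h1)
    (setLIntegral_mono' isClosed_cthickening.measurableSet fun y hy => ?_)
  · refine (hf.and_eventually hu).mono fun i hi => ?_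
    simp only [hw, EReal.toENNReal_coe]
    exact (mul_le_mul_right hi.1.le _).trans (tonelli_ball μ hK.measurableSet
      ((measurable_cst C).comp_aemeasurable (hi.2.aemeasurable hD μ hK.measurableSet hKD)) r)
  · rw [← Measure.addHaar_closedBall_center μ y r]
    refine le_of_cball μ hr.1 (by positivity : 0 < ρ / 5) y fun δ hδ => ?_
    have := EReal.toENNReal_le_toENNReal (key y hy (δ / 2) ⟨half_pos hδ.1, by linarith [hδ.1, hδ.2]⟩
      y (by rw [dist_self]; exact (half_pos hδ.1).le))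
    rwa [EReal.toENNReal_coe, add_halves] at this

theorem tendsto_eab0 {l : Ultrafilter ι} (hD : IsOpen D) (hu : ∀ᶠ i in l, IsPsh D (u i))
    (hb : ∀ x ∈ D, rlim l u x < ⊤) (hd : Dn D (rlim l u)) (hK : IsCompact K) (hKD : K ⊆ D) :
    Tendsto (fun i => ∫⁻ x in K, eab (u i x) (rlim l u x) ∂μ) l (𝓝 0) := by
  have : ProperSpace E := FiniteDimensional.proper ℂ E
  obtain ⟨ρ, hρ, C, hρD, hC⟩ := exists_thick hD hb hK hKD
  have hU := isPsh_rlim' hD hu hb
  have hI := (hU.dn_lint μ hD hd hK hKD C).ne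
  have hCK : ∀ x ∈ K, rlim l u x < C := fun x hx => hC x (self_subset_cthickening K hx)
  have t1 : Tendsto (fun i => ∫⁻ x in K, cst C (u i x) ∂μ) l
      (𝓝 (∫⁻ x in K, cst C (rlim l u x) ∂μ)) :=
    tendsto_of_le_liminf_of_limsup_le (rfatou μ hK hK.measurableSet (fun x hx => hb x (hKD hx)) C)
      (limsup_lint_le μ hD hu hb hd hK hρ hρD hC)
  have t2 : Tendsto (fun i => ∫⁻ x in K, min (cst C (u i x)) (cst C (rlim l u x)) ∂μ) l
      (𝓝 (∫⁻ x in K, cst C (rlim l u x) ∂μ)) := by
    have h1 : ∀ x, rlim l (fun i y => max (u i y) (rlim l u y)) x ≤ rlim l u x := fun x =>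
      (rlim_max (usc_rlim x)).trans (max_self _).le
    refine tendsto_of_le_liminf_of_limsup_le ?_ (limsup_le_of_le (by isBoundedDefault)
      (Eventually.of_forall fun i => lintegral_mono fun x => min_le_right _ _))
    have := rfatou μ hK hK.measurableSet (fun x hx => (h1 x).trans_lt (hb x (hKD hx))) C
    simp only [cst_max] at this
    exact (lintegral_mono fun x => cst_anti C (h1 x)).trans this
  have t3 := (ENNReal.Tendsto.sub t1 t2 (Or.inl hI)).add
    (ENNReal.Tendsto.sub tendsto_const_nhds t2 (Or.inl hI))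
  rw [tsub_self, add_zero] at t3
  refine tendsto_of_tendsto_of_tendsto_of_le_of_le' tendsto_const_nhds t3
    (Eventually.of_forall fun _ => zero_le) ?_
  filter_upwards [hu, ev_le_of_rlim_lt hK hCK] with i h1 h2
  have m1 : AEMeasurable (fun x => cst C (rlim l u x)) (μ.restrict K) :=
    (measurable_cst C).comp_aemeasurable (hU.aemeasurable hD μ hK.measurableSet hKD)
  have m0 : AEMeasurable (fun x => cst C (u i x)) (μ.restrict K) :=
    (measurable_cst C).comp_aemeasurable (h1.aemeasurable hD μ hK.measurableSet hKD)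
  have m2 : AEMeasurable (fun x => min (cst C (u i x)) (cst C (rlim l u x))) (μ.restrict K) :=
    m0.min m1
  have m3 : AEMeasurable (fun x => cst C (rlim l u x) - min (cst C (u i x)) (cst C (rlim l u x)))
    (μ.restrict K) := m1.sub m2
  have f : ∫⁻ x in K, min (cst C (u i x)) (cst C (rlim l u x)) ∂μ ≠ ⊤ :=
    ne_top_of_le_ne_top hI (lintegral_mono fun x => min_le_right _ _)
  refine (setLIntegral_mono' hK.measurableSet fun x hx => eab_le_cst (h2 x hx) (hCK x hx).le).trans
    (le_of_eq ?_)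
  rw [lintegral_add_right' _ m3, lintegral_sub' m2 f
    (Eventually.of_forall fun x => min_le_left _ _), lintegral_sub' m2 f
    (Eventually.of_forall fun x => min_le_right _ _)]

/-- `L¹(K)` convergence in `EReal` -/
theorem tendsto_eab {l : Ultrafilter ι} (hD : IsOpen D) (hu : ∀ᶠ i in l, IsPsh D (u i))
    (hb : ∀ x ∈ D, rlim l u x < ⊤) (hK : IsCompact K) (hKD : K ⊆ D) (hd : Dn K (rlim l u)) :
    Tendsto (fun i => ∫⁻ x in K, eab (u i x) (rlim l u x) ∂μ) l (𝓝 0) :=
  tendsto_eab0 μ ((isPsh_rlim' hD hu hb).isOpen_nb hD) (hu.mono fun _ h => h.mono fun _ hx => hx.1)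
    (fun x hx => hb x hx.1) (dn_nb _ _) hK fun x hx => ⟨hKD hx, hd x hx⟩

/-- version of `tendsto_eab` assuming only the integrability of the limit on `K` -/
theorem tendsto_eab' {l : Ultrafilter ι} (hD : IsOpen D) (hu : ∀ᶠ i in l, IsPsh D (u i))
    (hb : ∀ x ∈ D, rlim l u x < ⊤) (hK : IsCompact K) (hKD : K ⊆ D)
    (hI : ∫⁻ x in K, cst C (rlim l u x) ∂μ < ⊤) :
    Tendsto (fun i => ∫⁻ x in K, eab (u i x) (rlim l u x) ∂μ) l (𝓝 0) := by
  have hU := isPsh_rlim' hD hu hb
  have e : μ.restrict (K ∩ nb D (rlim l u)) = μ.restrict K := by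
    rw [inter_comm, ← Measure.restrict_restrict (hU.isOpen_nb hD).measurableSet]
    refine Measure.restrict_eq_self_of_ae_mem ?_
    filter_upwards [ae_ne_bot_of_lint μ (hU.aemeasurable hD μ hK.measurableSet hKD) hI,
      ae_restrict_mem hK.measurableSet] with x h1 hx
    exact by_contra fun hc => h1 (ev_bot_of_notMem_nb (hKD hx) hc).self_of_nhds
  rw [← e]
  exact tendsto_eab μ hD hu hb (isCompact_inter_nb hK hKD _) (inter_subset_left.trans hKD)
    fun _ hx => hx.2.2

/-- convergence of `∫_K (C - u i)⁺` along an ultrafilter (no hypothesis on the limit) -/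
theorem tendsto_lint_cst {l : Ultrafilter ι} (hD : IsOpen D) (hu : ∀ᶠ i in l, IsPsh D (u i))
    (hb : ∀ x ∈ D, rlim l u x < ⊤) (hK : IsCompact K) (hKD : K ⊆ D) (C : ℝ) :
    Tendsto (fun i => ∫⁻ x in K, cst C (u i x) ∂μ) l (𝓝 (∫⁻ x in K, cst C (rlim l u x) ∂μ)) := by
  refine tendsto_of_le_liminf_of_limsup_le
    (rfatou μ hK hK.measurableSet (fun x hx => hb x (hKD hx)) C) ?_
  rcases eq_top_or_lt_top (∫⁻ x in K, cst C (rlim l u x) ∂μ) with h | h
  · rw [h]; exact le_top
  have t := (tendsto_const_nhds (x := ∫⁻ x in K, cst C (rlim l u x) ∂μ)).add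
    (tendsto_eab' μ hD hu hb hK hKD h)
  rw [add_zero] at t
  have m1 : AEMeasurable (fun x => cst C (rlim l u x)) (μ.restrict K) :=
    (measurable_cst C).comp_aemeasurable
      ((isPsh_rlim' hD hu hb).aemeasurable hD μ hK.measurableSet hKD)
  have h1 : ∀ i, ∫⁻ x in K, cst C (u i x) ∂μ ≤
      ∫⁻ x in K, cst C (rlim l u x) ∂μ + ∫⁻ x in K, eab (u i x) (rlim l u x) ∂μ := fun i => by
    rw [← lintegral_add_left' m1]
    exact lintegral_mono fun x => cst_le_add_eab C _ _
  exact le_of_forall_gt_imp_ge_of_dense fun a ha => limsup_le_of_le (by isBoundedDefault)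
    ((t.eventually (gt_mem_nhds ha)).mono fun i hi => (h1 i).trans hi.le)

/-- `L¹(K)` convergence -/
theorem tendsto_L1 {l : Ultrafilter ι} (hD : IsOpen D) (hu : ∀ᶠ i in l, IsPsh D (u i))
    (hb : ∀ x ∈ D, rlim l u x < ⊤) (hK : IsCompact K) (hKD : K ⊆ D) (hd : Dn K (rlim l u)) :
    Tendsto (fun i => ∫⁻ x in K, ‖(u i x).toReal - (rlim l u x).toReal‖ₑ ∂μ) l (𝓝 0) :=
  tendsto_of_tendsto_of_tendsto_of_le_of_le tendsto_const_nhds (tendsto_eab μ hD hu hb hK hKD hd)
    (fun _ => zero_le) fun _ => lintegral_mono fun _ => enorm_le_eab _ _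

theorem ev_lint_lt_top {l : Ultrafilter ι} (hD : IsOpen D) (hu : ∀ᶠ i in l, IsPsh D (u i))
    (hb : ∀ x ∈ D, rlim l u x < ⊤) (hK : IsCompact K) (hKD : K ⊆ D) (hd : Dn K (rlim l u))
    (C : ℝ) : ∀ᶠ i in l, ∫⁻ x in K, cst C (u i x) ∂μ < ⊤ :=
  (tendsto_lint_cst μ hD hu hb hK hKD C).eventually
    (gt_mem_nhds ((isPsh_rlim' hD hu hb).dnK_lint μ hD hK hKD hd C))

theorem ev_integrableOn {l : Ultrafilter ι} (hD : IsOpen D) (hu : ∀ᶠ i in l, IsPsh D (u i))
    (hb : ∀ x ∈ D, rlim l u x < ⊤) (hK : IsCompact K) (hKD : K ⊆ D) (hd : Dn K (rlim l u)) :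
    ∀ᶠ i in l, IntegrableOn (fun x => (u i x).toReal) K μ := by
  filter_upwards [hu, ev_lint_lt_top μ hD hu hb hK hKD hd 0] with i h1 h2
  obtain ⟨C, hC⟩ := h1.bdd hK hKD
  exact integrableOn_toReal μ hK.measure_lt_top (h1.aemeasurable hD μ hK.measurableSet hKD)
    ((ae_restrict_iff' hK.measurableSet).2 (Eventually.of_forall hC))
    (lint_cst_lt_top μ hK.measure_lt_top h2 C)

/-- weak convergence against bounded test functions -/
theorem tendsto_integral_smul {l : Ultrafilter ι} (hD : IsOpen D) (hu : ∀ᶠ i in l, IsPsh D (u i))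
    (hb : ∀ x ∈ D, rlim l u x < ⊤) (hK : IsCompact K) (hKD : K ⊆ D) (hd : Dn K (rlim l u))
    {F : Type*} [NormedAddCommGroup F] [NormedSpace ℝ F] {φ : E → F}
    (hφ : AEStronglyMeasurable φ (μ.restrict K)) {M : ℝ} (hM : ∀ x ∈ K, ‖φ x‖ ≤ M) :
    Tendsto (fun i => ∫ x in K, (u i x).toReal • φ x ∂μ) l
      (𝓝 (∫ x in K, (rlim l u x).toReal • φ x ∂μ)) := by
  have hM' : ∀ᵐ x ∂μ.restrict K, ‖φ x‖ ≤ M :=
    (ae_restrict_iff' hK.measurableSet).2 (Eventually.of_forall hM)
  have t := ENNReal.Tendsto.mul_const (b := ENNReal.ofReal M) (tendsto_L1 μ hD hu hb hK hKD hd)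
    (Or.inr ENNReal.ofReal_ne_top)
  rw [zero_mul] at t
  refine tendsto_integral_of_L1 (fun x => (rlim l u x).toReal • φ x)
    (((isPsh_rlim' hD hu hb).dnK_integrableOn μ hD hK hKD hd).smul_bdd M hφ hM').1
    ((ev_integrableOn μ hD hu hb hK hKD hd).mono fun i hi => hi.smul_bdd M hφ hM')
    (tendsto_of_tendsto_of_tendsto_of_le_of_le tendsto_const_nhds t (fun _ => zero_le) fun i => ?_)
  simp only
  rw [← lintegral_mul_const' _ _ ENNReal.ofReal_ne_top]
  refine lintegral_mono_ae (hM'.mono fun x hx => ?_)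
  rw [← sub_smul, enorm_smul]
  exact mul_le_mul_right (by rw [← ofReal_norm]; exact ENNReal.ofReal_le_ofReal hx) _

end Crest.Agent.X261.Psh
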