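import Crest.Agent.X261.Psh.Defs

/-!
# Row 261, package PSH (helper78), file `Mean`

Integral forms of the sub-mean value inequality (circles, rotation invariant measures, balls),
local integrability, the identity theorem for `-∞`, and `a.e. ≤ ⟹ ≤`.
-/

set_option autoImplicit false
set_option linter.dupNamespace false
set_option linter.unusedSectionVars false

open Set Filter Topology Metric MeasureTheory
open scoped ENNReal

noncomputable section

namespace Crest.Agent.X261.Psh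

open Crest.Agent.R275.FL884 (DiscIn cir norm_cir continuous_cir discIn_of_closedBall
  measurePreserving_rot)

/-! ### `cst` -/

@[simp] theorem cst_coe (C x : ℝ) : cst C (x : EReal) = ENNReal.ofReal (C - x) := by
  rw [cst, ← EReal.coe_sub, EReal.real_coe_toENNReal]

@[simp] theorem cst_bot (C : ℝ) : cst C ⊥ = ⊤ := by simp [cst]

@[simp] theorem cst_top (C : ℝ) : cst C ⊤ = 0 := by simp [cst]

theorem cst_anti (C : ℝ) {a b : EReal} (h : a ≤ b) : cst C b ≤ cst C a :=
  EReal.toENNReal_le_toENNReal (EReal.sub_le_sub le_rfl h)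

theorem cst_mono {C C' : ℝ} (h : C ≤ C') (a : EReal) : cst C a ≤ cst C' a :=
  EReal.toENNReal_le_toENNReal (EReal.sub_le_sub (EReal.coe_le_coe_iff.2 h) le_rfl)

theorem cst_eq_top {C : ℝ} {a : EReal} : cst C a = ⊤ ↔ a = ⊥ := by
  induction a <;> simp

theorem cst_lt_top {C : ℝ} {a : EReal} : cst C a < ⊤ ↔ a ≠ ⊥ := by
  rw [lt_top_iff_ne_top, Ne, cst_eq_top]

theorem ofReal_le_cst {C x : ℝ} {a : EReal} (h : a ≤ x) : ENNReal.ofReal (C - x) ≤ cst C a := by
  rw [← cst_coe]; exact cst_anti C h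

theorem cst_le_ofReal {C x : ℝ} {a : EReal} (h : (x : EReal) ≤ a) :
    cst C a ≤ ENNReal.ofReal (C - x) := by
  rw [← cst_coe]; exact cst_anti C h

theorem le_of_ofReal_le_cst {C t : ℝ} {a : EReal} (ha : a ≤ C) (h : ENNReal.ofReal t ≤ cst C a) :
    a ≤ ((C - t : ℝ) : EReal) := by
  induction a with
  | bot => exact bot_le
  | top => exact absurd ha (EReal.coe_lt_top _).not_ge
  | coe a =>
    have ha' := EReal.coe_le_coe_iff.1 ha
    rw [cst_coe, ENNReal.ofReal_le_ofReal_iff (by linarith)] at h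
    exact EReal.coe_le_coe_iff.2 (by linarith)

theorem le_of_cst_le {C t : ℝ} {a : EReal} (ht : 0 ≤ t) (h : cst C a ≤ ENNReal.ofReal t) :
    ((C - t : ℝ) : EReal) ≤ a := by
  induction a with
  | bot => simp at h
  | top => exact le_top
  | coe a =>
    rw [cst_coe, ENNReal.ofReal_le_ofReal_iff ht] at h
    exact EReal.coe_le_coe_iff.2 (by linarith)

theorem le_of_cst_le_cst {C : ℝ} {a b : EReal} (ha : a ≤ C) (h : cst C b ≤ cst C a) (hb : b ≤ C) :
    a ≤ b := by
  induction b with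
  | bot => rw [cst_bot, top_le_iff, cst_eq_top] at h; exact h.le
  | top => exact le_top
  | coe b =>
    rw [cst_coe] at h
    simpa using le_of_ofReal_le_cst ha h

theorem cst_le_add (C C' : ℝ) (a : EReal) : cst C a ≤ cst C' a + ENNReal.ofReal (C - C') := by
  induction a with
  | bot => simp
  | top => simp
  | coe a =>
    rw [cst_coe, cst_coe]
    refine le_trans (le_of_eq ?_) ENNReal.ofReal_add_le
    congr 1; ring

theorem cst_add {C C' : ℝ} (h : C' ≤ C) {a : EReal} (ha : a ≤ C') :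
    cst C a = cst C' a + ENNReal.ofReal (C - C') := by
  induction a with
  | bot => simp
  | top => exact absurd ha (EReal.coe_lt_top _).not_ge
  | coe a =>
    have ha' := EReal.coe_le_coe_iff.1 ha
    rw [cst_coe, cst_coe, ← ENNReal.ofReal_add (by linarith) (by linarith)]
    congr 1; ring

theorem continuous_cst (C : ℝ) : Continuous (cst C) := by
  refine EReal.continuous_toENNReal.comp (continuous_iff_continuousAt.2 fun a => ?_)
  have h1 : ContinuousAt (fun p : EReal × EReal => p.1 + p.2) ((C : EReal), -a) :=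
    EReal.continuousAt_add (Or.inl (EReal.coe_ne_top C)) (Or.inl (EReal.coe_ne_bot C))
  exact h1.comp (f := fun a : EReal => ((C : EReal), -a))
    (continuousAt_const.prodMk continuous_neg.continuousAt)

theorem measurable_cst (C : ℝ) : Measurable (cst C) := (continuous_cst C).measurable

theorem cst_eq_ofReal {C : ℝ} {a : EReal} (h1 : a ≠ ⊥) (h2 : a ≠ ⊤) :
    cst C a = ENNReal.ofReal (C - a.toReal) := by
  rw [← cst_coe, EReal.coe_toReal h2 h1]

/-- from the `lintegral` form to the Bochner form -/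
theorem mul_le_integral {α : Type*} [MeasurableSpace α] {ν : Measure α} [IsFiniteMeasure ν]
    {F : α → EReal} {f : α → ℝ} (hf : Integrable f ν) (hle : ∀ᵐ x ∂ν, F x ≤ f x) {C : ℝ}
    (hC : ∀ᵐ x ∂ν, F x ≤ C) {a : ℝ} (ha : a ≤ C)
    (h : ∫⁻ x, cst C (F x) ∂ν ≤ ν univ * cst C a) : ν.real univ * a ≤ ∫ x, f x ∂ν := by
  have hi : Integrable (fun x => min (f x) C) ν := hf.inf (integrable_const C)
  have h1 : ENNReal.ofReal (∫ x, (C - min (f x) C) ∂ν) ≤ ∫⁻ x, cst C (F x) ∂ν := by
    rw [ofReal_integral_eq_lintegral_ofReal (f := fun x => C - min (f x) C)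
      ((integrable_const C).sub hi)
      (Eventually.of_forall fun x => sub_nonneg.2 (min_le_right _ _))]
    refine lintegral_mono_ae ?_
    filter_upwards [hle, hC] with x h1 h2
    refine ofReal_le_cst ?_
    rw [EReal.coe_strictMono.monotone.map_min]
    exact le_min h1 h2
  have h2 := h1.trans h
  rw [cst_coe, ← ENNReal.ofReal_toReal (measure_ne_top ν univ),
    ← ENNReal.ofReal_mul ENNReal.toReal_nonneg,
    ENNReal.ofReal_le_ofReal_iff (mul_nonneg ENNReal.toReal_nonneg (by linarith)),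
    integral_sub (integrable_const C) hi, integral_const, smul_eq_mul] at h2
  have h3 : ∫ x, min (f x) C ∂ν ≤ ∫ x, f x ∂ν := integral_mono hi hf fun x => min_le_left _ _
  simp only [Measure.real] at h2 ⊢
  nlinarith

/-! ### circles -/

theorem cir_eq (t : ℝ) : cir t = circleMap 0 1 (2 * Real.pi * t) := by
  simp [cir, circleMap]

theorem avg_eq (g : ℂ → ℝ) : Real.circleAverage g 0 1 = ∫ t in Ioo (0 : ℝ) 1, g (cir t) := by
  have hpi : (2 * Real.pi) ≠ 0 := by positivity
  have h := intervalIntegral.integral_comp_mul_left (a := 0) (b := 1)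
    (fun θ => g (circleMap 0 1 θ)) hpi
  simp only [mul_zero, mul_one] at h
  rw [Real.circleAverage_def, ← h, intervalIntegral.integral_of_le zero_le_one,
    integral_Ioc_eq_integral_Ioo]
  simp only [cir_eq]

theorem integrableOn_cir {g : ℂ → ℝ} (hg : CircleIntegrable g 0 1) :
    IntegrableOn (fun t => g (cir t)) (Ioo (0 : ℝ) 1) := by
  have hpi : (2 * Real.pi) ≠ 0 := by positivity
  have h := IntervalIntegrable.comp_mul_left (c := 2 * Real.pi) hg
  rw [zero_div, div_self hpi, intervalIntegrable_iff_integrableOn_Ioo_of_le zero_le_one] at h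
  simpa only [cir_eq] using h

instance : IsProbabilityMeasure (volume.restrict (Ioo (0 : ℝ) 1)) := ⟨by simp⟩

variable {E : Type*} [NormedAddCommGroup E] [NormedSpace ℂ E] {D : Set E} {u : E → EReal}

theorem IsPsh.lint_circle (h : IsPsh D u) {z v : E} (hz : DiscIn D z v) {C : ℝ}
    (hC : ∀ w : ℂ, ‖w‖ = 1 → u (z + w • v) ≤ C) :
    ∫⁻ t in Ioo (0 : ℝ) 1, cst C (u (z + cir t • v)) ≤ cst C (u z) := by
  obtain ⟨g, g1, g2, g3, g4⟩ := exists_cont_seq (isCompact_sphere (0 : ℂ) 1) (usc_circle h.usc hz)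
    fun w hw => h.lt_top _ (mapsTo_sphere hz hw)
  have hc : ∀ k, Continuous fun w => min (g k w) C := fun k => (g1 k).min continuous_const
  have h1 : ∀ k, ∫⁻ t in Ioo (0 : ℝ) 1, ENNReal.ofReal (C - min (g k (cir t)) C) ≤ cst C (u z) := by
    intro k
    have hi : IntegrableOn (fun t => min (g k (cir t)) C) (Ioo (0 : ℝ) 1) :=
      integrableOn_cir (cint (hc k))
    rw [← ofReal_integral_eq_lintegral_ofReal (f := fun t => C - min (g k (cir t)) C)
      ((integrable_const C).sub hi)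
      (Eventually.of_forall fun x => sub_nonneg.2 (min_le_right _ _)),
      integral_sub (integrable_const C) hi, integral_const, smul_eq_mul, probReal_univ, one_mul,
      ← avg_eq (fun w => min (g k w) C)]
    refine ofReal_le_cst (h.sub z v hz _ (hc k) fun w hw => ?_)
    rw [EReal.coe_strictMono.monotone.map_min]
    exact le_min (g3 k w (by simpa using hw)) (hC w hw)
  have h2 : ∀ t, cst C (u (z + cir t • v)) ≤ ⨆ k, ENNReal.ofReal (C - min (g k (cir t)) C) := by
    intro t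
    have ht : cir t ∈ sphere (0 : ℂ) 1 := by simpa using norm_cir t
    refine le_of_forall_lt_imp_le_of_dense fun b hb => ?_
    have hbt : b ≠ ⊤ := ne_top_of_lt hb
    rw [← ENNReal.ofReal_toReal hbt] at hb ⊢
    have h3 : u (z + cir t • v) < ((C - b.toReal : ℝ) : EReal) := by
      by_contra hcon
      have := cst_le_ofReal (C := C) (not_lt.1 hcon)
      rw [sub_sub_cancel] at this
      exact absurd hb this.not_gt
    obtain ⟨k, hk⟩ := (g4 _ ht _ h3).exists
    refine le_iSup_of_le k (ENNReal.ofReal_le_ofReal ?_)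
    have := min_le_left (g k (cir t)) C
    linarith
  refine (lintegral_mono h2).trans ?_
  rw [lintegral_iSup]
  · exact iSup_le h1
  · exact fun k => (continuous_const.sub ((hc k).comp continuous_cir)).measurable.ennreal_ofReal
  · intro k k' hkk' t
    exact ENNReal.ofReal_le_ofReal (sub_le_sub_left (min_le_min_right _ (g2 _ hkk')) _)

/-- the `lintegral` form implies `Sub` -/
theorem Sub.of_lint (hlt : ∀ x ∈ D, u x < ⊤)
    (h : ∀ z v : E, DiscIn D z v → ∀ C : ℝ, (∀ w : ℂ, ‖w‖ = 1 → u (z + w • v) ≤ C) → u z ≤ C →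
      ∫⁻ t in Ioo (0 : ℝ) 1, cst C (u (z + cir t • v)) ≤ cst C (u z)) : Sub D u := by
  intro z v hz g hg hle
  obtain ⟨c, hc⟩ := exists_real_ge (hlt z hz.center)
  obtain ⟨M, hM⟩ := (isCompact_sphere (0 : ℂ) 1).bddAbove_image hg.continuousOn
  have hM' : ∀ w : ℂ, ‖w‖ = 1 → g w ≤ max M c := fun w hw =>
    (hM (mem_image_of_mem _ (by simpa using hw))).trans (le_max_left _ _)
  have hz' : u z ≤ (max M c : ℝ) := hc.trans (EReal.coe_le_coe_iff.2 (le_max_right _ _))
  have h1 := h z v hz (max M c) (fun w hw => (hle w hw).trans (EReal.coe_le_coe_iff.2 (hM' w hw)))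
    hz'
  have hi := integrableOn_cir (cint hg)
  have h2 : ENNReal.ofReal (max M c - Real.circleAverage g 0 1) ≤ cst (max M c) (u z) := by
    refine le_trans ?_ h1
    have e : max M c - Real.circleAverage g 0 1 = ∫ t in Ioo (0 : ℝ) 1, (max M c - g (cir t)) := by
      rw [integral_sub (integrable_const _) hi, integral_const, smul_eq_mul, probReal_univ,
        one_mul, avg_eq]
    rw [e, ofReal_integral_eq_lintegral_ofReal (f := fun t => max M c - g (cir t))
      ((integrable_const _).sub hi)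
      (Eventually.of_forall fun t => sub_nonneg.2 (hM' _ (norm_cir t)))]
    exact lintegral_mono fun t => ofReal_le_cst (hle _ (norm_cir t))
  simpa using le_of_ofReal_le_cst hz' h2

theorem IsPsh.exists_bound_circle (h : IsPsh D u) {z v : E} (hz : DiscIn D z v) :
    ∃ C : ℝ, ∀ w : ℂ, ‖w‖ = 1 → u (z + w • v) ≤ C := by
  obtain ⟨C, hC⟩ := exists_bound (isCompact_sphere (0 : ℂ) 1) (usc_circle h.usc hz)
    fun w hw => h.lt_top _ (mapsTo_sphere hz hw)
  exact ⟨C, fun w hw => hC w (by simpa using hw)⟩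

/-- sub-mean value inequality against an integrable a.e. majorant -/
theorem IsPsh.le_integral_circle (h : IsPsh D u) {z v : E} (hz : DiscIn D z v) {f : ℝ → ℝ}
    (hf : IntegrableOn f (Ioo (0 : ℝ) 1))
    (hle : ∀ᵐ t ∂volume.restrict (Ioo (0 : ℝ) 1), u (z + cir t • v) ≤ f t) :
    u z ≤ (∫ t in Ioo (0 : ℝ) 1, f t : ℝ) := by
  obtain ⟨C, hC⟩ := h.exists_bound_circle hz
  have hz' := h.sub.le_const hz hC
  have h1 := h.lint_circle hz hC
  induction hu : u z with
  | bot => exact bot_le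
  | top => exact absurd (hu ▸ hz') (EReal.coe_lt_top _).not_ge
  | coe a =>
    rw [hu] at h1 hz'
    have := mul_le_integral hf hle (Eventually.of_forall fun t => hC _ (norm_cir t))
      (EReal.coe_le_coe_iff.1 hz') (by rwa [measure_univ, one_mul])
    rw [probReal_univ, one_mul] at this
    exact EReal.coe_le_coe_iff.2 this

theorem IsPsh.le_avg (h : IsPsh D u) {z v : E} (hz : DiscIn D z v) {g : ℂ → ℝ}
    (hg : CircleIntegrable g 0 1) (hle : ∀ w : ℂ, ‖w‖ = 1 → u (z + w • v) ≤ g w) :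
    u z ≤ (Real.circleAverage g 0 1 : ℝ) := by
  rw [avg_eq]
  exact h.le_integral_circle hz (integrableOn_cir hg)
    (Eventually.of_forall fun t => hle _ (norm_cir t))

/-- real valued functions: the usual definition -/
theorem Sub.of_real {f : E → ℝ}
    (h : ∀ z v : E, DiscIn D z v → CircleIntegrable (fun w : ℂ => f (z + w • v)) 0 1 ∧
      f z ≤ Real.circleAverage (fun w : ℂ => f (z + w • v)) 0 1) :
    Sub D fun x => (f x : EReal) := by
  intro z v hz g hg hle
  obtain ⟨h1, h2⟩ := h z v hz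
  refine EReal.coe_le_coe_iff.2 (h2.trans (Real.circleAverage_mono h1 (cint hg) fun w hw => ?_))
  exact EReal.coe_le_coe_iff.1 (hle w (by simpa using hw))

theorem cint_disc {f : E → ℝ} (hf : ContinuousOn f D) {z v : E} (hz : DiscIn D z v) :
    CircleIntegrable (fun w : ℂ => f (z + w • v)) 0 1 :=
  (hf.comp (continuous_disc z v).continuousOn (mapsTo_sphere hz)).circleIntegrable zero_le_one

/-- continuous real functions -/
theorem isPsh_coe_iff {f : E → ℝ} (hf : ContinuousOn f D) :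
    IsPsh D (fun x => (f x : EReal)) ↔ ∀ z v : E, DiscIn D z v →
      f z ≤ Real.circleAverage (fun w : ℂ => f (z + w • v)) 0 1 :=
  ⟨fun h _ _ hz => EReal.coe_le_coe_iff.1 (h.le_avg hz (cint_disc hf hz) fun _ _ => le_rfl),
    fun h => ⟨usc_coe hf, fun _ _ => EReal.coe_lt_top _,
      Sub.of_real fun z v hz => ⟨cint_disc hf hz, h z v hz⟩⟩⟩

/-! ### measurability -/

theorem usc_ext {X : Type*} [TopologicalSpace X] {D : Set X} (hD : IsOpen D) {u : X → EReal}
    (h : UpperSemicontinuousOn u D) [DecidablePred (· ∈ D)] :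
    UpperSemicontinuous (D.piecewise u fun _ => ⊤) := by
  intro x y hy
  by_cases hx : x ∈ D
  · have hy' : u x < y := by simpa [hx] using hy
    have := h x hx y hy'
    rw [hD.nhdsWithin_eq hx] at this
    filter_upwards [this, hD.mem_nhds hx] with z hz hzD
    simpa [hzD] using hz
  · simp [hx] at hy

theorem exists_meas {X : Type*} [TopologicalSpace X] [MeasurableSpace X] [OpensMeasurableSpace X]
    {D : Set X} (hD : IsOpen D) {u : X → EReal} (h : UpperSemicontinuousOn u D) :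
    ∃ u' : X → EReal, Measurable u' ∧ EqOn u u' D := by
  classical
  exact ⟨_, (usc_ext hD h).measurable, fun x hx => by simp [hx]⟩

variable [MeasurableSpace E] [BorelSpace E]

theorem IsPsh.aemeasurable (h : IsPsh D u) (hD : IsOpen D) (ν : Measure E) {S : Set E}
    (hS : MeasurableSet S) (hSD : S ⊆ D) : AEMeasurable u (ν.restrict S) := by
  obtain ⟨u', h1, h2⟩ := exists_meas hD h.usc
  exact h1.aemeasurable.congr ((ae_restrict_iff' hS).2
    (Eventually.of_forall fun x hx => (h2 (hSD hx)).symm))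

/-! ### rotation invariant measures -/

variable [FiniteDimensional ℂ E]

/-- sub-mean value inequality for a rotation invariant measure -/
theorem IsPsh.lint_rot (h : IsPsh D u) (hD : IsOpen D) {ν : Measure E} [SFinite ν]
    (hν : ∀ c : ℂ, ‖c‖ = 1 → MeasurePreserving (fun v : E => c • v) ν ν) {z : E} {C : ℝ}
    (hz : ∀ᵐ v ∂ν, DiscIn D z v ∧ ∀ w : ℂ, ‖w‖ = 1 → u (z + w • v) ≤ C) :
    ∫⁻ v, cst C (u (z + v)) ∂ν ≤ ν univ * cst C (u z) := by
  obtain ⟨u', hm, he⟩ := exists_meas hD h.usc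
  have hF : Measurable fun v : E => cst C (u' (z + v)) :=
    (measurable_cst C).comp (hm.comp (measurable_const_add z))
  have e1 : ∫⁻ v, cst C (u (z + v)) ∂ν = ∫⁻ v, cst C (u' (z + v)) ∂ν := by
    refine lintegral_congr_ae ?_
    filter_upwards [hz] with v hv
    have := he (hv.1 1 (by simp))
    rw [one_smul] at this
    rw [this]
  have e2 : ∀ t : ℝ, ∫⁻ v, cst C (u' (z + v)) ∂ν = ∫⁻ v, cst C (u' (z + cir t • v)) ∂ν :=
    fun t => ((hν _ (norm_cir t)).lintegral_comp hF).symm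
  have hcont : Continuous (fun p : ℝ × E => z + cir p.1 • p.2) := by
    have := continuous_cir
    fun_prop
  have e3 : ∫⁻ v, cst C (u' (z + v)) ∂ν =
      ∫⁻ v, (∫⁻ t in Ioo (0 : ℝ) 1, cst C (u' (z + cir t • v))) ∂ν := by
    have h1 : ∫⁻ _ in Ioo (0 : ℝ) 1, (∫⁻ v, cst C (u' (z + v)) ∂ν) =
        ∫⁻ v, cst C (u' (z + v)) ∂ν := by
      rw [lintegral_const, measure_univ, mul_one]
    rw [← h1, lintegral_congr e2, lintegral_lintegral_swap]
    exact ((measurable_cst C).comp (hm.comp hcont.measurable)).aemeasurable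
  rw [e1, e3, mul_comm, ← lintegral_const]
  refine lintegral_mono_ae ?_
  filter_upwards [hz] with v hv
  refine le_trans (le_of_eq (lintegral_congr fun t => ?_)) (h.lint_circle hv.1 hv.2)
  rw [he (hv.1.circle t)]

variable (μ : Measure E) [μ.IsAddHaarMeasure]

theorem rot_restrict {S : Set E} (hS : MeasurableSet S)
    (hr : ∀ c : ℂ, ‖c‖ = 1 → (fun v : E => c • v) ⁻¹' S = S) (c : ℂ) (hc : ‖c‖ = 1) :
    MeasurePreserving (fun v : E => c • v) (μ.restrict S) (μ.restrict S) := by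
  have := (measurePreserving_rot μ c hc).restrict_preimage hS
  rwa [hr c hc] at this

theorem lint_shift (F : E → ℝ≥0∞) (z : E) (S : Set E) :
    ∫⁻ x in S, F x ∂μ = ∫⁻ v in (fun v => z + v) ⁻¹' S, F (z + v) ∂μ :=
  ((measurePreserving_add_left μ z).setLIntegral_comp_preimage_emb
    (measurableEmbedding_addLeft z) F S).symm

theorem discIn_of_ball {z v : E} {r : ℝ} (hv : ‖v‖ < r) : DiscIn (ball z r) z v := by
  intro w hw
  rw [mem_ball, dist_eq_norm, add_sub_cancel_left, norm_smul]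
  exact lt_of_le_of_lt (mul_le_of_le_one_left (norm_nonneg _) hw) hv

theorem IsPsh.lint_ball (h : IsPsh D u) (hD : IsOpen D) {z : E} {r : ℝ} (hB : ball z r ⊆ D)
    {C : ℝ} (hC : ∀ x ∈ ball z r, u x ≤ C) :
    ∫⁻ x in ball z r, cst C (u x) ∂μ ≤ μ (ball z r) * cst C (u z) := by
  have e : (fun v => z + v) ⁻¹' ball z r = ball 0 r := by
    ext v; simp [mem_ball, dist_eq_norm]
  rw [lint_shift μ _ z, e, Measure.addHaar_ball_center μ z r, ← Measure.restrict_apply_univ]
  refine h.lint_rot hD (rot_restrict μ measurableSet_ball fun c hc => ?_) ?_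
  · ext v; simp [norm_smul, hc]
  · refine (ae_restrict_iff' measurableSet_ball).2 (Eventually.of_forall fun v hv => ?_)
    have hv' : DiscIn (ball z r) z v := discIn_of_ball (by simpa using hv)
    exact ⟨hv'.mono hB, fun w hw => hC _ (disc_circle hv' hw)⟩

theorem IsPsh.lint_closedBall (h : IsPsh D u) (hD : IsOpen D) {z : E} {r : ℝ}
    (hB : closedBall z r ⊆ D) {C : ℝ} (hC : ∀ x ∈ closedBall z r, u x ≤ C) :
    ∫⁻ x in closedBall z r, cst C (u x) ∂μ ≤ μ (closedBall z r) * cst C (u z) := by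
  have e : (fun v => z + v) ⁻¹' closedBall z r = closedBall 0 r := by
    ext v; simp [mem_closedBall, dist_eq_norm]
  rw [lint_shift μ _ z, e, Measure.addHaar_closedBall_center μ z r, ← Measure.restrict_apply_univ]
  refine h.lint_rot hD (rot_restrict μ measurableSet_closedBall fun c hc => ?_) ?_
  · ext v; simp [norm_smul, hc]
  · refine (ae_restrict_iff' measurableSet_closedBall).2 (Eventually.of_forall fun v hv => ?_)
    have hv' : DiscIn (closedBall z r) z v := discIn_of_closedBall le_rfl (by simpa using hv)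
    exact ⟨hv'.mono hB, fun w hw => hC _ (disc_circle hv' hw)⟩

theorem exists_cball {D : Set E} (hD : IsOpen D) {x : E} (hx : x ∈ D) :
    ∃ r > 0, closedBall x r ⊆ D := nhds_basis_closedBall.mem_iff.1 (hD.mem_nhds hx)

/-- Bochner form on balls: `μ(B) u(z) ≤ ∫_B f` for every integrable a.e. majorant `f` -/
theorem IsPsh.le_integral_ball (h : IsPsh D u) (hD : IsOpen D) {z : E} {r : ℝ} (hr : 0 < r)
    (hB : closedBall z r ⊆ D) {f : E → ℝ} (hf : IntegrableOn f (ball z r) μ)
    (hle : ∀ᵐ x ∂μ.restrict (ball z r), u x ≤ f x) :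
    u z ≤ ((∫ x in ball z r, f x ∂μ) / μ.real (ball z r) : ℝ) := by
  obtain ⟨C, hC⟩ := h.bdd (isCompact_closedBall z r) hB
  have hz' := hC z (mem_closedBall_self hr.le)
  have h1 := h.lint_ball μ hD (ball_subset_closedBall.trans hB)
    fun x hx => hC x (ball_subset_closedBall hx)
  have : IsFiniteMeasure (μ.restrict (ball z r)) :=
    ⟨by rw [Measure.restrict_apply_univ]; exact measure_ball_lt_top⟩
  have hpos : 0 < μ.real (ball z r) :=
    ENNReal.toReal_pos (measure_ball_pos μ z hr).ne' measure_ball_lt_top.ne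
  induction hu : u z with
  | bot => exact bot_le
  | top => exact absurd (hu ▸ hz') (EReal.coe_lt_top _).not_ge
  | coe a =>
    rw [hu] at h1 hz'
    have := mul_le_integral hf hle ((ae_restrict_iff' measurableSet_ball).2
      (Eventually.of_forall fun x hx => hC x (ball_subset_closedBall hx)))
      (EReal.coe_le_coe_iff.1 hz') (by rwa [Measure.restrict_apply_univ])
    rw [Measure.real, Measure.restrict_apply_univ] at this
    refine EReal.coe_le_coe_iff.2 ?_
    rw [le_div_iff₀ hpos, mul_comm]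
    exact this

/-! ### a.e. inequalities -/

/-- `u ≤ g` a.e. near `x`, `g` usc at `x` ⟹ `u x ≤ g x` -/
theorem IsPsh.le_of_ae (h : IsPsh D u) (hD : IsOpen D) {x : E} (hx : x ∈ D) {g : E → EReal}
    (hg : UpperSemicontinuousAt g x) {V : Set E} (hV : V ∈ 𝓝 x)
    (hle : ∀ᵐ y ∂μ, y ∈ V → u y ≤ g y) : u x ≤ g x := by
  refine le_of_forall_gt_imp_ge_of_dense fun b hb => ?_
  obtain ⟨a, h1, h2⟩ := EReal.lt_iff_exists_real_btwn.1 hb
  refine le_trans ?_ h2.le
  obtain ⟨r, hr, hB⟩ := nhds_basis_closedBall.mem_iff.1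
    (inter_mem (hD.mem_nhds hx) (inter_mem hV (hg _ h1)))
  have hpos : 0 < μ.real (ball x r) :=
    ENNReal.toReal_pos (measure_ball_pos μ x hr).ne' measure_ball_lt_top.ne
  have := h.le_integral_ball μ hD hr (fun y hy => (hB hy).1) (f := fun _ => a)
    (integrableOn_const measure_ball_lt_top.ne) ((ae_restrict_iff' measurableSet_ball).2 (by
      filter_upwards [hle] with y hy hyB
      have := hB (ball_subset_closedBall hyB)
      exact (hy this.2.1).trans (le_of_lt this.2.2)))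
  rwa [setIntegral_const, smul_eq_mul, mul_div_cancel_left₀ _ hpos.ne'] at this

theorem IsPsh.le_of_ae_on {u' : E → EReal} (h : IsPsh D u) (hD : IsOpen D)
    (h' : UpperSemicontinuousOn u' D) (hle : ∀ᵐ y ∂μ, y ∈ D → u y ≤ u' y) {x : E} (hx : x ∈ D) :
    u x ≤ u' x :=
  h.le_of_ae μ hD hx (fun y hy => by
    have := h' x hx y hy
    rwa [hD.nhdsWithin_eq hx] at this) (hD.mem_nhds hx) hle

theorem IsPsh.eq_of_ae {u' : E → EReal} (h : IsPsh D u) (h' : IsPsh D u') (hD : IsOpen D)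
    (he : ∀ᵐ y ∂μ, y ∈ D → u y = u' y) : EqOn u u' D := fun _ hx =>
  le_antisymm (h.le_of_ae_on μ hD h'.usc (he.mono fun _ hy hyD => (hy hyD).le) hx)
    (h'.le_of_ae_on μ hD h.usc (he.mono fun _ hy hyD => (hy hyD).ge) hx)

/-! ### local integrability -/

theorem lint_cst_lt_top {F : E → EReal} {S : Set E} (hS : μ S < ⊤) {C : ℝ}
    (h : ∫⁻ x in S, cst C (F x) ∂μ < ⊤) (C' : ℝ) : ∫⁻ x in S, cst C' (F x) ∂μ < ⊤ := by
  refine lt_of_le_of_lt (lintegral_mono fun x => cst_le_add C' C (F x)) ?_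
  rw [lintegral_add_right _ measurable_const, setLIntegral_const]
  exact ENNReal.add_lt_top.2 ⟨h, ENNReal.mul_lt_top ENNReal.ofReal_lt_top hS⟩

theorem IsPsh.lint_closedBall_lt_top (h : IsPsh D u) (hD : IsOpen D) {z : E} {r : ℝ}
    (hB : closedBall z r ⊆ D) (hz : u z ≠ ⊥) (C : ℝ) :
    ∫⁻ x in closedBall z r, cst C (u x) ∂μ < ⊤ := by
  obtain ⟨C', hC'⟩ := h.bdd (isCompact_closedBall z r) hB
  exact lint_cst_lt_top μ measure_closedBall_lt_top ((h.lint_closedBall μ hD hB hC').trans_lt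
    (ENNReal.mul_lt_top measure_closedBall_lt_top (cst_lt_top.2 hz))) C

/-- dichotomy at a point -/
theorem IsPsh.loc_dich (h : IsPsh D u) (hD : IsOpen D) {x : E} (hx : x ∈ D) :
    (∃ V ∈ 𝓝 x, ∫⁻ y in V, cst 0 (u y) ∂μ < ⊤) ∨ ∀ᶠ y in 𝓝 x, u y = ⊥ := by
  obtain ⟨r, hr, hB⟩ := exists_cball hD hx
  by_cases hb : ∀ y ∈ ball x (r / 3), u y = ⊥
  · exact Or.inr (mem_of_superset (ball_mem_nhds x (by positivity)) hb)
  · push Not at hb
    obtain ⟨y, hy, hyb⟩ := hb
    rw [mem_ball] at hy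
    refine Or.inl ⟨closedBall y (2 * r / 3), closedBall_mem_nhds_of_mem ?_,
      h.lint_closedBall_lt_top μ hD (Subset.trans ?_ hB) hyb 0⟩
    · rw [mem_ball, dist_comm]; linarith
    · exact closedBall_subset_closedBall' (by linarith)

theorem not_both {u : E → EReal} {x : E} {V : Set E} (hV : V ∈ 𝓝 x) {C : ℝ}
    (h1 : ∫⁻ y in V, cst C (u y) ∂μ < ⊤) (h2 : ∀ᶠ y in 𝓝 x, u y = ⊥) : False := by
  obtain ⟨r, hr, hB⟩ := Metric.mem_nhds_iff.1 (inter_mem hV h2)
  have h3 : ∫⁻ y in ball x r, cst C (u y) ∂μ = ⊤ := by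
    rw [setLIntegral_congr_fun measurableSet_ball (g := fun _ => ⊤)
      (fun y hy => cst_eq_top.2 (hB hy).2), setLIntegral_const,
      ENNReal.top_mul (measure_ball_pos μ x hr).ne']
  exact absurd h1 (not_lt.2 (h3 ▸ lintegral_mono_set fun y hy => (hB hy).1))

theorem IsPsh.loc_int (h : IsPsh D u) (hD : IsOpen D) (hc : IsPreconnected D)
    (h0 : ∃ x ∈ D, u x ≠ ⊥) {x : E} (hx : x ∈ D) :
    ∃ V ∈ 𝓝 x, ∫⁻ y in V, cst 0 (u y) ∂μ < ⊤ := by
  have hA : IsOpen {x | ∃ V ∈ 𝓝 x, ∫⁻ y in V, cst 0 (u y) ∂μ < ⊤} :=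
    isOpen_iff_mem_nhds.2 fun x ⟨V, hV, hi⟩ =>
      mem_of_superset (eventually_mem_nhds_iff.2 hV) fun y hy => ⟨V, hy, hi⟩
  have hB : IsOpen {x | ∀ᶠ y in 𝓝 x, u y = ⊥} := isOpen_setOfPred_eventually_nhds
  rcases hc.subset_or_subset hA hB
    (disjoint_left.2 fun x ⟨V, hV, hi⟩ h2 => not_both μ hV hi h2)
    (fun x hx => h.loc_dich μ hD hx) with h1 | h1
  · exact h1 hx
  · obtain ⟨y, hy, hyb⟩ := h0
    exact absurd (h1 hy).self_of_nhds hyb

theorem lint_compact_lt_top {F : E → ℝ≥0∞} {K : Set E} (hK : IsCompact K)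
    (h : ∀ x ∈ K, ∃ V ∈ 𝓝 x, ∫⁻ y in V, F y ∂μ < ⊤) : ∫⁻ y in K, F y ∂μ < ⊤ :=
  hK.induction_on (p := fun s => ∫⁻ y in s, F y ∂μ < ⊤) (by simp)
    (fun _ _ hst ht => (lintegral_mono_set hst).trans_lt ht)
    (fun _ _ hs ht => (lintegral_union_le _ _ _).trans_lt (ENNReal.add_lt_top.2 ⟨hs, ht⟩))
    fun x hx => by
      obtain ⟨V, hV, hi⟩ := h x hx
      exact ⟨V, mem_nhdsWithin_of_mem_nhds hV, hi⟩

/-- **local integrability** -/
theorem IsPsh.lint_lt_top (h : IsPsh D u) (hD : IsOpen D) (hc : IsPreconnected D)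
    (h0 : ∃ x ∈ D, u x ≠ ⊥) {K : Set E} (hK : IsCompact K) (hKD : K ⊆ D) (C : ℝ) :
    ∫⁻ x in K, cst C (u x) ∂μ < ⊤ :=
  lint_cst_lt_top μ hK.measure_lt_top
    (lint_compact_lt_top μ hK fun _ hx => h.loc_int μ hD hc h0 (hKD hx)) C

theorem ae_ne_bot_of_lint {F : E → EReal} {S : Set E} (hF : AEMeasurable F (μ.restrict S)) {C : ℝ}
    (h : ∫⁻ x in S, cst C (F x) ∂μ < ⊤) : ∀ᵐ x ∂μ.restrict S, F x ≠ ⊥ :=
  (ae_lt_top' ((measurable_cst C).comp_aemeasurable hF) h.ne).mono fun _ hx => cst_lt_top.1 hx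

theorem IsPsh.ae_ne_bot (h : IsPsh D u) (hD : IsOpen D) (hc : IsPreconnected D)
    (h0 : ∃ x ∈ D, u x ≠ ⊥) : ∀ᵐ x ∂μ, x ∈ D → u x ≠ ⊥ := by
  have key : μ {x | x ∈ D ∧ u x = ⊥} = 0 := by
    refine measure_null_of_locally_null _ fun x hx => ?_
    obtain ⟨r, hr, hB⟩ := exists_cball hD hx.1
    have h1 := ae_ne_bot_of_lint μ (h.aemeasurable hD μ measurableSet_closedBall hB)
      (h.lint_lt_top μ hD hc h0 (isCompact_closedBall x r) hB 0)
    rw [ae_restrict_iff' measurableSet_closedBall] at h1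
    refine ⟨closedBall x r ∩ {x | x ∈ D ∧ u x = ⊥},
      inter_mem (mem_nhdsWithin_of_mem_nhds (closedBall_mem_nhds x hr)) self_mem_nhdsWithin,
      measure_mono_null (fun y hy => ?_) h1⟩
    exact fun h2 => h2 hy.1 hy.2.2
  refine measure_mono_null (fun x hx => ?_) key
  simpa using hx

/-- identity theorem for `-∞` -/
theorem IsPsh.eq_bot_of_pos (h : IsPsh D u) (hD : IsOpen D) (hc : IsPreconnected D) {S : Set E}
    (hS : μ S ≠ 0) (hSD : S ⊆ D) (hb : ∀ x ∈ S, u x = ⊥) : ∀ x ∈ D, u x = ⊥ := by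
  by_contra hcon
  push Not at hcon
  refine hS (measure_mono_null (fun x hx => ?_) (h.ae_ne_bot μ hD hc hcon))
  exact fun h2 => h2 (hSD hx) (hb x hx)

theorem integrableOn_toReal {F : E → EReal} {S : Set E} (hS : μ S < ⊤)
    (hF : AEMeasurable F (μ.restrict S)) {C : ℝ} (hC : ∀ᵐ x ∂μ.restrict S, F x ≤ C)
    (h : ∫⁻ x in S, cst C (F x) ∂μ < ⊤) : IntegrableOn (fun x => (F x).toReal) S μ := by
  have : IsFiniteMeasure (μ.restrict S) := ⟨by rwa [Measure.restrict_apply_univ]⟩
  have h1 : Integrable (fun x => (cst C (F x)).toReal) (μ.restrict S) :=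
    integrable_toReal_of_lintegral_ne_top ((measurable_cst C).comp_aemeasurable hF) h.ne
  refine ((integrable_const C).sub h1).congr ?_
  filter_upwards [hC, ae_ne_bot_of_lint μ hF h] with x h1 h2
  have h3 : F x ≠ ⊤ := (h1.trans_lt (EReal.coe_lt_top C)).ne
  have h4 : (F x).toReal ≤ C := by
    rw [← EReal.coe_le_coe_iff, EReal.coe_toReal h3 h2]; exact h1
  simp only [Pi.sub_apply]
  rw [cst_eq_ofReal h2 h3, ENNReal.toReal_ofReal (by linarith)]
  ring

theorem IsPsh.integrableOn (h : IsPsh D u) (hD : IsOpen D) (hc : IsPreconnected D)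
    (h0 : ∃ x ∈ D, u x ≠ ⊥) {K : Set E} (hK : IsCompact K) (hKD : K ⊆ D) :
    IntegrableOn (fun x => (u x).toReal) K μ := by
  obtain ⟨C, hC⟩ := h.bdd hK hKD
  exact integrableOn_toReal μ hK.measure_lt_top (h.aemeasurable hD μ hK.measurableSet hKD)
    ((ae_restrict_iff' hK.measurableSet).2 (Eventually.of_forall hC))
    (h.lint_lt_top μ hD hc h0 hK hKD C)

end Crest.Agent.X261.Psh
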