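import Crest.Agent.X261.Psh.Cpt

/-!
# Row 261, package PSH (helper78), file `Sel`

The filter `Sel l` of sequences tending to `l` fast enough (a countable intersection filter):
almost everywhere and `L¹_loc` convergent subsequences of countably many families at once.
-/

set_option autoImplicit false
set_option linter.dupNamespace false
set_option linter.unusedSectionVars false

open Set Filter Topology Metric MeasureTheory
open scoped ENNReal

noncomputable section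

namespace Crest.Agent.X261.Psh

variable {E : Type*} [NormedAddCommGroup E] [NormedSpace ℂ E] [MeasurableSpace E] [BorelSpace E]
  [FiniteDimensional ℂ E] (μ : Measure E) [μ.IsAddHaarMeasure] {D K : Set E}
  {ι : Type*} {l : Filter ι} {u : ι → E → EReal} {C : ℝ}

/-- "for every sequence `φ` tending to `l` fast enough" -/
def Sel (l : Filter ι) : Filter (ℕ → ι) where
  sets := {Q | ∃ P : ℕ → Set ι, (∀ m, P m ∈ l) ∧ ∀ φ : ℕ → ι, (∀ᶠ m in atTop, φ m ∈ P m) → φ ∈ Q}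
  univ_sets := ⟨fun _ => univ, fun _ => univ_mem, fun _ _ => mem_univ _⟩
  sets_of_superset := fun ⟨P, h1, h2⟩ h => ⟨P, h1, fun φ hφ => h (h2 φ hφ)⟩
  inter_sets := fun ⟨P, h1, h2⟩ ⟨P', h1', h2'⟩ => ⟨fun m => P m ∩ P' m,
    fun m => inter_mem (h1 m) (h1' m),
    fun φ hφ => ⟨h2 φ (hφ.mono fun _ h => h.1), h2' φ (hφ.mono fun _ h => h.2)⟩⟩

theorem sel_ev {P : ℕ → ι → Prop} (h : ∀ m, ∀ᶠ i in l, P m i) :
    ∀ᶠ φ in Sel l, ∀ᶠ m in atTop, P m (φ m) := ⟨fun m => {i | P m i}, h, fun _ hφ => hφ⟩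

theorem sel_ev' {P : ι → Prop} (h : ∀ᶠ i in l, P i) : ∀ᶠ φ in Sel l, ∀ᶠ m in atTop, P (φ m) :=
  sel_ev (P := fun _ => P) fun _ => h

instance sel_neBot [l.NeBot] : (Sel l).NeBot := by
  refine ⟨fun h => ?_⟩
  obtain ⟨P, h1, h2⟩ : (∅ : Set (ℕ → ι)) ∈ Sel l := h ▸ mem_bot
  choose φ hφ using fun m => Filter.nonempty_of_mem (h1 m)
  exact h2 φ (Eventually.of_forall hφ)

instance sel_countableInter : CountableInterFilter (Sel l) := by
  refine ⟨fun S hS h => ?_⟩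
  rcases S.eq_empty_or_nonempty with rfl | hne
  · simp
  obtain ⟨e, rfl⟩ := hS.exists_eq_range hne
  choose P h1 h2 using fun k => h (e k) ⟨k, rfl⟩
  refine ⟨fun m => ⋂ k ∈ Finset.range m, P k m, fun m => (biInter_finset_mem _).2 fun k _ => h1 k m,
    fun φ hφ => ?_⟩
  rintro _ ⟨k, rfl⟩
  refine h2 k φ ?_
  filter_upwards [hφ, eventually_gt_atTop k] with m hm hk
  exact mem_iInter₂.1 hm k (Finset.mem_range.2 hk)

theorem sel_tendsto {α : Type*} {f : ι → α} {l' : Filter α} [l'.IsCountablyGenerated]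
    (h : Tendsto f l l') : ∀ᶠ φ in Sel l, Tendsto (fun m => f (φ m)) atTop l' := by
  obtain ⟨S, hS⟩ := l'.exists_antitone_basis
  filter_upwards [sel_ev (P := fun m i => f i ∈ S m) fun m => h (hS.mem m)] with φ hφ
  refine hS.toHasBasis.tendsto_right_iff.2 fun k _ => ?_
  filter_upwards [hφ, eventually_ge_atTop k] with m h1 h2
  exact hS.antitone h2 h1

theorem sel_atTop {l : Filter ℕ} (h : l ≤ atTop) : ∀ᶠ φ in Sel l, Tendsto φ atTop atTop :=
  sel_tendsto (f := id) h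

/-- `L¹` convergence along `l` gives almost everywhere convergence along fast sequences -/
theorem sel_ae_zero {α : Type*} [MeasurableSpace α] {ν : Measure α} {d : ι → α → ℝ≥0∞}
    (hm : ∀ᶠ i in l, AEMeasurable (d i) ν) (h : Tendsto (fun i => ∫⁻ x, d i x ∂ν) l (𝓝 0)) :
    ∀ᶠ φ in Sel l, ∀ᵐ x ∂ν, Tendsto (fun m => d (φ m) x) atTop (𝓝 0) := by
  filter_upwards [sel_ev (P := fun m i => AEMeasurable (d i) ν ∧ ∫⁻ x, d i x ∂ν < 2⁻¹ ^ m)
    fun m => hm.and (h.eventually (gt_mem_nhds (ENNReal.pow_pos (by simp) m)))] with φ hφ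
  obtain ⟨N, hN⟩ := eventually_atTop.1 hφ
  have h1 : ∫⁻ x, ∑' m, d (φ (m + N)) x ∂ν ≠ ⊤ := by
    rw [lintegral_tsum fun m => (hN _ (Nat.le_add_left N m)).1]
    refine ne_top_of_le_ne_top (b := ∑' m : ℕ, 2⁻¹ ^ m) (by simp) (ENNReal.tsum_le_tsum fun m => ?_)
    exact (hN _ (Nat.le_add_left N m)).2.le.trans
      (pow_le_pow_right_of_le_one' (by simp) (Nat.le_add_right m N))
  filter_upwards [ae_lt_top' (AEMeasurable.tsum fun m => (hN _ (Nat.le_add_left N m)).1)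
    h1] with x hx
  exact (tendsto_add_atTop_iff_nat N).1 (ENNReal.tendsto_atTop_zero_of_tsum_ne_top hx.ne)

/-- a countable family of closed balls in `D` whose interiors cover `D` -/
theorem exists_cball_cover {P : E → ℝ → Prop} (h : ∀ x ∈ D, ∃ r > 0, P x r) :
    ∃ T : Set (E × ℝ), T.Countable ∧ (∀ p ∈ T, P p.1 p.2) ∧ ∀ x ∈ D, ∃ p ∈ T, x ∈ ball p.1 p.2 := by
  have : ProperSpace E := FiniteDimensional.proper ℂ E
  choose! r hr hP using h
  obtain ⟨s, h1, h2, h3⟩ := TopologicalSpace.countable_cover_nhdsWithin (s := D)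
    (f := fun x => ball x (r x)) fun x hx => mem_nhdsWithin_of_mem_nhds (ball_mem_nhds x (hr x hx))
  refine ⟨(fun x => (x, r x)) '' s, h2.image _, ?_, fun x hx => ?_⟩
  · rintro _ ⟨x, hx, rfl⟩
    exact hP x (h1 hx)
  · obtain ⟨y, hy, hxy⟩ := mem_iUnion₂.1 (h3 hx)
    exact ⟨_, ⟨y, hy, rfl⟩, hxy⟩

theorem sel_bdd (hD : IsOpen D) (hb : ∀ x ∈ D, rlim l u x < ⊤) :
    ∀ᶠ φ in Sel l, ∀ x ∈ D, rlim atTop (fun m => u (φ m)) x < ⊤ := by
  have : ProperSpace E := FiniteDimensional.proper ℂ E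
  obtain ⟨T, h1, h2, h3⟩ := exists_cball_cover (P := fun x r => closedBall x r ⊆ D)
    fun x hx => exists_cball hD hx
  have key : ∀ p ∈ T, ∀ᶠ φ in Sel l, ∃ C : ℝ, ∀ᶠ m in atTop, ∀ y ∈ closedBall p.1 p.2,
      u (φ m) y ≤ C := fun p hp => by
    obtain ⟨ρ, hρ, C, -, hC⟩ := exists_thick hD hb (isCompact_closedBall p.1 p.2) (h2 p hp)
    exact (sel_ev' (ev_le_of_rlim_lt (isCompact_closedBall p.1 p.2)
      fun y hy => hC y (self_subset_cthickening _ hy))).mono fun φ hφ => ⟨C, hφ⟩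
  filter_upwards [(eventually_countable_ball h1).2 key] with φ hφ x hx
  obtain ⟨p, hp, hxp⟩ := h3 x hx
  obtain ⟨C, hC⟩ := hφ p hp
  exact rlim_lt_top (closedBall_mem_nhds_of_mem hxp) hC

/-- **almost everywhere convergent subsequences** -/
theorem sel_ae {l : Ultrafilter ι} (hD : IsOpen D) (hu : ∀ᶠ i in l, IsPsh D (u i))
    (hb : ∀ x ∈ D, rlim l u x < ⊤) : ∀ᶠ φ in Sel (l : Filter ι),
      ∀ᵐ x ∂μ, x ∈ D → Tendsto (fun m => u (φ m) x) atTop (𝓝 (rlim l u x)) := by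
  have : ProperSpace E := FiniteDimensional.proper ℂ E
  have hU := isPsh_rlim' hD hu hb
  obtain ⟨T, h1, h2, h3⟩ := exists_cball_cover (D := D) (P := fun x r => closedBall x r ⊆ D ∧
      (∫⁻ y in closedBall x r, cst 0 (rlim l u y) ∂μ < ⊤ ∨ ∀ y ∈ closedBall x r, rlim l u y = ⊥))
    fun x hx => by
      rcases hU.loc_dich μ hD hx with ⟨V, hV, h⟩ | h
      · obtain ⟨r, hr, hB⟩ := nhds_basis_closedBall.mem_iff.1 (inter_mem (hD.mem_nhds hx) hV)
        exact ⟨r, hr, fun y hy => (hB hy).1,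
          Or.inl ((lintegral_mono_set fun y hy => (hB hy).2).trans_lt h)⟩
      · obtain ⟨r, hr, hB⟩ := nhds_basis_closedBall.mem_iff.1 (inter_mem (hD.mem_nhds hx) h)
        exact ⟨r, hr, fun y hy => (hB hy).1, Or.inr fun y hy => (hB hy).2⟩
  have key : ∀ p ∈ T, ∀ᶠ φ in Sel (l : Filter ι), ∀ᵐ x ∂μ, x ∈ closedBall p.1 p.2 →
      Tendsto (fun m => u (φ m) x) atTop (𝓝 (rlim l u x)) := fun p hp => by
    have hK := isCompact_closedBall p.1 p.2
    obtain ⟨hB, h | h⟩ := h2 p hp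
    · have mU := hU.aemeasurable hD μ hK.measurableSet hB
      filter_upwards [sel_ae_zero (hu.mono fun i hi => measurable_eab.comp_aemeasurable
        ((hi.aemeasurable hD μ hK.measurableSet hB).prodMk mU))
        (tendsto_eab' μ hD hu hb hK hB h)] with φ hφ
      rw [← ae_restrict_iff' hK.measurableSet]
      filter_upwards [hφ, ae_ne_bot_of_lint μ mU h, ae_restrict_mem hK.measurableSet]
        with x h4 h5 h6
      exact tendsto_of_eab h5 (hb x (hB h6)).ne h4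
    · filter_upwards [sel_ev (P := fun m i => ∀ y ∈ closedBall p.1 p.2, u i y ≤ (-(m : ℝ) : ℝ))
        fun m => ev_le_of_rlim_lt hK fun y hy => h y hy ▸ EReal.bot_lt_coe _] with φ hφ
      refine Eventually.of_forall fun x hx => ?_
      rw [h x hx, EReal.tendsto_nhds_bot_iff_real]
      intro a
      filter_upwards [hφ, tendsto_natCast_atTop_atTop.eventually (eventually_gt_atTop (-a))]
        with m h4 h5
      exact (h4 x hx).trans_lt (EReal.coe_lt_coe_iff.2 (by linarith))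
  filter_upwards [(eventually_countable_ball h1).2 key] with φ hφ
  filter_upwards [(ae_ball_iff h1).2 hφ] with x hx hxD
  obtain ⟨p, hp, hxp⟩ := h3 x hxD
  exact hx p hp (ball_subset_closedBall hxp)

theorem rlim_eq_of_ae_tendsto [l.IsCountablyGenerated] [l.NeBot] (hD : IsOpen D)
    (hu : ∀ᶠ i in l, IsPsh D (u i)) (hb : ∀ x ∈ D, rlim l u x < ⊤) {U : E → EReal}
    (hU : IsPsh D U) (h : ∀ᵐ x ∂μ, x ∈ D → Tendsto (fun i => u i x) l (𝓝 (U x))) :
    EqOn (rlim l u) U D := by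
  refine (isPsh_rlim' hD hu hb).eq_of_ae μ hU hD ?_
  filter_upwards [h, ae_limsup_eq_rlim μ hD hu hb] with x h4 h5 hx
  rw [← h5 hx, (h4 hx).limsup_eq]

/-- along fast sequences the relaxed limit is unchanged -/
theorem sel_rlim {l : Ultrafilter ι} (hD : IsOpen D) (hu : ∀ᶠ i in l, IsPsh D (u i))
    (hb : ∀ x ∈ D, rlim l u x < ⊤) :
    ∀ᶠ φ in Sel (l : Filter ι), EqOn (rlim atTop fun m => u (φ m)) (rlim l u) D := by
  filter_upwards [sel_ae Measure.addHaar hD hu hb, sel_bdd hD hb, sel_ev' hu] with φ h1 h2 h3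
  exact rlim_eq_of_ae_tendsto _ hD h3 h2 (isPsh_rlim' hD hu hb) h1

theorem tendsto_lint_cpt {α : Type*} {l' : Filter α} {d : α → E → ℝ≥0∞} (hK : IsCompact K)
    (h : ∀ x ∈ K, ∃ V ∈ 𝓝 x, Tendsto (fun i => ∫⁻ y in V, d i y ∂μ) l' (𝓝 0)) :
    Tendsto (fun i => ∫⁻ y in K, d i y ∂μ) l' (𝓝 0) :=
  hK.induction_on (p := fun s => Tendsto (fun i => ∫⁻ y in s, d i y ∂μ) l' (𝓝 0))
    (by simpa using tendsto_const_nhds)
    (fun _ _ hst ht => tendsto_of_tendsto_of_tendsto_of_le_of_le tendsto_const_nhds ht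
      (fun _ => zero_le) fun _ => lintegral_mono_set hst)
    (fun _ _ hs ht => tendsto_of_tendsto_of_tendsto_of_le_of_le tendsto_const_nhds
      (by simpa using hs.add ht) (fun _ => zero_le) fun _ => lintegral_union_le _ _ _)
    fun x hx => by
      obtain ⟨V, hV, hi⟩ := h x hx
      exact ⟨V, mem_nhdsWithin_of_mem_nhds hV, hi⟩

/-- `L¹_loc` convergence along fast sequences -/
theorem sel_eab {l : Ultrafilter ι} (hD : IsOpen D) (hu : ∀ᶠ i in l, IsPsh D (u i))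
    (hb : ∀ x ∈ D, rlim l u x < ⊤) : ∀ᶠ φ in Sel (l : Filter ι), ∀ K ⊆ D, IsCompact K →
      Dn K (rlim l u) →
        Tendsto (fun m => ∫⁻ x in K, eab (u (φ m) x) (rlim l u x) ∂μ) atTop (𝓝 0) := by
  have : ProperSpace E := FiniteDimensional.proper ℂ E
  have ho : IsOpen (nb D (rlim l u)) := (isPsh_rlim' hD hu hb).isOpen_nb hD
  obtain ⟨T, h1, h2, h3⟩ := exists_cball_cover
    (P := fun x r => closedBall x r ⊆ nb D (rlim (l : Filter ι) u)) fun x hx => exists_cball ho hx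
  have key : ∀ p ∈ T, ∀ᶠ φ in Sel (l : Filter ι), Tendsto (fun m =>
      ∫⁻ x in closedBall p.1 p.2, eab (u (φ m) x) (rlim l u x) ∂μ) atTop (𝓝 0) := fun p hp =>
    sel_tendsto (f := fun i => ∫⁻ x in closedBall p.1 p.2, eab (u i x) (rlim l.1 u x) ∂μ)
      (tendsto_eab μ hD hu hb (isCompact_closedBall p.1 p.2) (fun x hx => (h2 p hp hx).1)
        fun x hx => (h2 p hp hx).2)
  refine ((eventually_countable_ball h1).2 key).mono fun φ hφ K hKD hK hd => ?_
  refine tendsto_lint_cpt μ hK fun x hx => ?_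
  obtain ⟨p, hp, hxp⟩ := h3 x ⟨hKD hx, hd x hx⟩
  exact ⟨_, closedBall_mem_nhds_of_mem hxp, hφ p hp⟩

/-- **compactness theorem**, sequential form -/
theorem exists_subseq {u : ℕ → E → EReal} (hD : IsOpen D) (hu : ∀ᶠ i in atTop, IsPsh D (u i))
    (hb : ∀ x ∈ D, rlim atTop u x < ⊤) : ∃ φ : ℕ → ℕ, StrictMono φ ∧ ∃ U : E → EReal,
      IsPsh D U ∧ EqOn (rlim atTop fun m => u (φ m)) U D ∧
      (∀ᵐ x ∂μ, x ∈ D → Tendsto (fun m => u (φ m) x) atTop (𝓝 (U x))) ∧
      ∀ K ⊆ D, IsCompact K → Dn K U →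
        Tendsto (fun m => ∫⁻ x in K, eab (u (φ m) x) (U x) ∂μ) atTop (𝓝 0) := by
  obtain ⟨l, hl⟩ := Ultrafilter.exists_le (atTop : Filter ℕ)
  have hu' : ∀ᶠ i in l, IsPsh D (u i) := hu.filter_mono hl
  have hb' : ∀ x ∈ D, rlim l u x < ⊤ := fun x hx => (rlim_mono_filter hl x).trans_lt (hb x hx)
  have e1 := sel_atTop hl
  have e2 := sel_ae μ hD hu' hb'
  have e3 := sel_eab μ hD hu' hb'
  obtain ⟨φ, ⟨h1, h2⟩, h3⟩ := ((e1.and e2).and e3).exists
  obtain ⟨ψ, h4, h5⟩ := strictMono_subseq_of_tendsto_atTop h1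
  have h6 : ∀ᵐ x ∂μ, x ∈ D → Tendsto (fun m => u (φ (ψ m)) x) atTop (𝓝 (rlim l u x)) :=
    h2.mono fun x hx hxD => by simpa only [Function.comp_def] using (hx hxD).comp h4.tendsto_atTop
  have h7 : Tendsto (fun m => φ (ψ m)) atTop atTop := h5.tendsto_atTop
  have hU := isPsh_rlim' hD hu' hb'
  have h8 : ∀ x ∈ D, rlim atTop (fun m => u (φ (ψ m))) x < ⊤ := fun x hx =>
    (rlim_sub_le (w := u) h7 x).trans_lt (hb x hx)
  refine ⟨fun m => φ (ψ m), h5, _, hU, ?_, h6, fun K h8 h9 h10 => ?_⟩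
  · exact rlim_eq_of_ae_tendsto μ hD (h7.eventually hu) h8 hU h6
  · simpa only [Function.comp_def] using (h3 K h8 h9 h10).comp h4.tendsto_atTop

end Crest.Agent.X261.Psh
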